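import Vale.Agent.P066.Lab.HN

/-!
# Labelled Harder-Narasimhan theorem: non-zero-divisors, graded pieces
-/

set_option autoImplicit false
set_option linter.unusedSectionVars false

open Finset

namespace Vale.Agent.P066.Lab.HN

noncomputable section

variable {S : Type} [Fintype S] [DecidableEq S]

variable (k : Type) [Field k] (a : S → S → ℕ) (θ : S → ℤ)

/-! ### Derivations -/

/-- `∂_B = ∑_{s ∈ B} ∂/∂x_s` -/
def DB (B : Finset S) : Derivation k (MvPolynomial S k) (MvPolynomial S k) :=
  MvPolynomial.mkDerivation k fun s => if s ∈ B then 1 else 0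

theorem DB_X (B : Finset S) (s : S) :
    DB k B (MvPolynomial.X s) = if s ∈ B then 1 else 0 := by
  simp [DB, MvPolynomial.mkDerivation_X]

theorem DB_QP (B : Finset S) (E : Finset (S × S)) (h : ∀ p ∈ E, (p.1 ∈ B ↔ p.2 ∈ B)) :
    DB k B (QP k a E) = 0 := by
  unfold QP
  refine prod_induction _ (fun f => DB k B f = 0) ?_ ?_ ?_
  · intro f g hf hg
    rw [Derivation.leibniz, hf, hg]; simp
  · exact Derivation.map_one_eq_zero _
  · intro p hp
    rw [Derivation.leibniz_pow, map_sub, DB_X, DB_X]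
    have := h p hp
    by_cases h1 : p.1 ∈ B
    · have h2 := this.1 h1
      simp [h1, h2]
    · have h2 : p.2 ∉ B := fun h => h1 (this.2 h)
      simp [h1, h2]

variable {k} in
theorem derivation_iterate_mul {A : Type} [CommRing A] [Algebra k A] (D : Derivation k A A)
    {h : A} (hh : D (D h) = 0) (f : A) (n : ℕ) :
    D^[n + 1] (f * h) = D^[n + 1] f * h + (n + 1 : ℕ) * (D^[n] f * D h) := by
  induction n with
  | zero =>
    simp only [zero_add, Function.iterate_one, Function.iterate_zero, id_eq, Nat.cast_one, one_mul]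
    rw [Derivation.leibniz]; simp only [smul_eq_mul]; ring
  | succ n ih =>
    rw [Function.iterate_succ_apply', ih, map_add, Derivation.leibniz, Derivation.leibniz,
      Derivation.leibniz, hh, ← Function.iterate_succ_apply' (⇑D) (n + 1) f,
      ← Function.iterate_succ_apply' (⇑D) n f]
    simp only [smul_eq_mul, Derivation.map_natCast, mul_zero, zero_add, add_zero]
    push_cast
    ring

theorem DB_DB_X (B : Finset S) (s : S) : DB k B (DB k B (MvPolynomial.X s)) = 0 := by
  rw [DB_X]
  split_ifs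
  · exact Derivation.map_one_eq_zero _
  · simp

theorem DB_nilpotent (B : Finset S) (f : MvPolynomial S k) : ∃ n, (DB k B)^[n] f = 0 := by
  induction f using MvPolynomial.induction_on with
  | C c =>
    refine ⟨1, ?_⟩
    simp only [Function.iterate_one]
    exact MvPolynomial.derivation_C _ c
  | add p q hp hq =>
    obtain ⟨n, hn⟩ := hp
    obtain ⟨m, hm⟩ := hq
    refine ⟨n + m, ?_⟩
    have h1 : (DB k B)^[n + m] (p + q) = (DB k B)^[n + m] p + (DB k B)^[n + m] q := by
      have : ∀ j, (DB k B)^[j] (p + q) = (DB k B)^[j] p + (DB k B)^[j] q := by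
        intro j
        induction j with
        | zero => rfl
        | succ j ih => rw [Function.iterate_succ_apply', ih, map_add, Function.iterate_succ_apply',
            Function.iterate_succ_apply']
      exact this _
    have h0 : ∀ j, (DB k B)^[j] (0 : MvPolynomial S k) = 0 := by
      intro j
      induction j with
      | zero => rfl
      | succ j ih => rw [Function.iterate_succ_apply', ih, map_zero]
    rw [h1, add_comm n m, Function.iterate_add_apply _ m n p, hn, h0, add_comm m n,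
      Function.iterate_add_apply _ n m q, hm, h0, add_zero]
  | mul_X p s hp =>
    obtain ⟨n, hn⟩ := hp
    refine ⟨n + 1, ?_⟩
    rw [derivation_iterate_mul (DB k B) (DB_DB_X k B s) p n, Function.iterate_succ_apply', hn]
    simp

variable {k} in
/-- An element `h` with `D h = 1`, for a locally nilpotent derivation `D` preserving the ideal `J`,
is a non-zero-divisor modulo `J`. -/
theorem nz_of_derivation [CharZero k] {A : Type} [CommRing A] [Algebra k A] (D : Derivation k A A)
    (J : Ideal A) (hJ : ∀ f ∈ J, D f ∈ J) (hD : ∀ f, ∃ n, D^[n] f = 0) {h : A} (hh : D h = 1)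
    {f : A} (hf : f * h ∈ J) : f ∈ J := by
  classical
  have hex : ∃ n, D^[n] f ∈ J := by
    obtain ⟨n, hn⟩ := hD f
    exact ⟨n, by rw [hn]; exact J.zero_mem⟩
  have hJi : ∀ (n : ℕ) (g : A), g ∈ J → D^[n] g ∈ J := by
    intro n
    induction n with
    | zero => intro g hg; exact hg
    | succ n ih => intro g hg; rw [Function.iterate_succ_apply']; exact hJ _ (ih g hg)
  rcases Nat.eq_zero_or_pos (Nat.find hex) with h0 | hpos
  · have := Nat.find_spec hex
    rwa [h0] at this
  · exfalso
    obtain ⟨n, hn⟩ : ∃ n, Nat.find hex = n + 1 := ⟨Nat.find hex - 1, by omega⟩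
    have h1 := Nat.find_spec hex
    rw [hn] at h1
    have h2 : D^[n] f ∉ J := Nat.find_min hex (by omega)
    have h3 : D (D h) = 0 := by rw [hh]; exact Derivation.map_one_eq_zero _
    have h4 := hJi (n + 1) _ hf
    rw [derivation_iterate_mul D h3 f n, hh, mul_one] at h4
    have h5 : ((n + 1 : ℕ) : A) * D^[n] f ∈ J := by
      have := J.sub_mem h4 (J.mul_mem_right h h1)
      simpa using this
    apply h2
    have h6 : D^[n] f = algebraMap k A (((n + 1 : ℕ) : k)⁻¹) * (((n + 1 : ℕ) : A) * D^[n] f) := by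
      rw [← mul_assoc, ← map_natCast (algebraMap k A) (n + 1), ← map_mul,
        inv_mul_cancel₀ (by exact_mod_cast Nat.succ_ne_zero n), map_one, one_mul]
    rw [h6]
    exact J.mul_mem_left _ h5

theorem span_stable (D : Derivation k (MvPolynomial S k) (MvPolynomial S k))
    (G : Set (MvPolynomial S k)) (h : ∀ g ∈ G, D g = 0) :
    ∀ f ∈ Ideal.span G, D f ∈ Ideal.span G := by
  intro f hf
  refine Submodule.span_induction (p := fun f _ => D f ∈ Ideal.span G) ?_ ?_ ?_ ?_ hf
  · intro g hg; rw [h g hg]; exact Ideal.zero_mem _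
  · rw [map_zero]; exact Ideal.zero_mem _
  · intro x y _ _ hx hy
    rw [map_add]; exact add_mem hx hy
  · intro r x hx hx'
    rw [smul_eq_mul, Derivation.leibniz]
    exact add_mem (Ideal.mul_mem_left _ _ hx') (Ideal.mul_mem_right _ _ hx)

/-- `∂_Y` kills the generators of the ideals of the block `B` if `Y ⊇ B` or `Y ∩ B = ∅`. -/
theorem DB_KX {B Y : Finset S} (h : B ⊆ Y ∨ Disjoint B Y) {X : Finset S} (hX : X ⊆ B) :
    DB k Y (KX k a B X) = 0 := by
  unfold KX
  apply DB_QP
  rintro ⟨p, q⟩ hp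
  rw [mem_product, mem_sdiff] at hp
  simp only at hp ⊢
  rcases h with h | h
  · exact ⟨fun _ => h hp.2.1, fun _ => h (hX hp.1)⟩
  · rw [disjoint_left] at h
    exact ⟨fun h' => absurd h' (h (hX hp.1)), fun h' => absurd h' (h hp.2.1)⟩

theorem sup_stable {D : Derivation k (MvPolynomial S k) (MvPolynomial S k)}
    {I J : Ideal (MvPolynomial S k)} (hI : ∀ f ∈ I, D f ∈ I) (hJ : ∀ f ∈ J, D f ∈ J) :
    ∀ f ∈ I ⊔ J, D f ∈ I ⊔ J := by
  intro f hf
  obtain ⟨x, hx, y, hy, rfl⟩ := Submodule.mem_sup.1 hf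
  rw [map_add]
  exact Submodule.add_mem_sup (hI x hx) (hJ y hy)

theorem II_stable {e : Finset S × Finset S} (he : e.1 ⊆ e.2) {Y : Finset S}
    (hY : Y = e.1 ∨ Y = e.2 \ e.1 ∨ Y = e.2ᶜ) : ∀ f ∈ II k a θ e, DB k Y f ∈ II k a θ e := by
  have d1 : Disjoint e.1 (e.2 \ e.1) := disjoint_sdiff
  have d2 : Disjoint e.1 e.2ᶜ := by
    rw [disjoint_left]; intro s; simp only [mem_compl]; have := @he s; tauto
  have d3 : Disjoint (e.2 \ e.1) e.2ᶜ := disjoint_sdiff_compl e.1 e.2
  unfold II
  refine sup_stable k (sup_stable k ?_ ?_) ?_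
  · refine span_stable k _ _ ?_
    rintro g ⟨X, hX, _, _, rfl⟩
    apply DB_KX k a _ hX
    rcases hY with rfl | rfl | rfl
    · exact Or.inl subset_rfl
    · exact Or.inr d1
    · exact Or.inr d2
  · refine span_stable k _ _ ?_
    rintro g ⟨X, hX, _, rfl⟩
    apply DB_KX k a _ hX
    rcases hY with rfl | rfl | rfl
    · exact Or.inr d1.symm
    · exact Or.inl subset_rfl
    · exact Or.inr d3
  · refine span_stable k _ _ ?_
    rintro g ⟨X, hX, _, _, rfl⟩
    apply DB_KX k a _ hX
    rcases hY with rfl | rfl | rfl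
    · exact Or.inr d2.symm
    · exact Or.inr d3.symm
    · exact Or.inl subset_rfl

/-- cross differences are non-zero-divisors modulo `II e` -/
theorem nz_X_sub_X [CharZero k] {e : Finset S × Finset S} (he : e.1 ⊆ e.2) {Y : Finset S}
    (hY : Y = e.1 ∨ Y = e.2 \ e.1 ∨ Y = e.2ᶜ) {s t : S} (hst : ¬ (s ∈ Y ↔ t ∈ Y))
    {f : MvPolynomial S k} (hf : f * (MvPolynomial.X t - MvPolynomial.X s) ∈ II k a θ e) :
    f ∈ II k a θ e := by
  by_cases ht : t ∈ Y
  · have hs : s ∉ Y := fun h => hst ⟨fun _ => ht, fun _ => h⟩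
    refine nz_of_derivation (DB k Y) _ (II_stable k a θ he hY) (DB_nilpotent k Y) ?_ hf
    rw [map_sub, DB_X, DB_X, if_pos ht, if_neg hs, sub_zero]
  · have hs : s ∈ Y := by
      by_contra hs
      exact hst ⟨fun h => absurd h hs, fun h => absurd h ht⟩
    refine nz_of_derivation (DB k Y) _ (II_stable k a θ he hY) (DB_nilpotent k Y)
      (h := MvPolynomial.X s - MvPolynomial.X t) ?_ ?_
    · rw [map_sub, DB_X, DB_X, if_neg ht, if_pos hs, sub_zero]
    · have := (II k a θ e).neg_mem hf
      rwa [← mul_neg, neg_sub] at this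

theorem nz_QP [CharZero k] {e : Finset S × Finset S} (he : e.1 ⊆ e.2) {Y : Finset S}
    (hY : Y = e.1 ∨ Y = e.2 \ e.1 ∨ Y = e.2ᶜ) (E : Finset (S × S))
    (hE : ∀ p ∈ E, ¬ (p.1 ∈ Y ↔ p.2 ∈ Y)) :
    ∀ f : MvPolynomial S k, f * QP k a E ∈ II k a θ e → f ∈ II k a θ e := by
  unfold QP
  refine prod_induction _ (fun h => ∀ f : MvPolynomial S k, f * h ∈ II k a θ e → f ∈ II k a θ e)
    ?_ ?_ ?_
  · intro g h hg hh f hf
    exact hg f (hh (f * g) (by rwa [mul_assoc]))
  · intro f hf; rwa [mul_one] at hf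
  · intro p hp
    generalize a p.1 p.2 = n
    induction n with
    | zero => intro f hf; rwa [pow_zero, mul_one] at hf
    | succ n ih =>
      intro f hf
      rw [pow_succ, ← mul_assoc] at hf
      exact ih f (nz_X_sub_X k a θ he hY (hE p hp) hf)

/-- (c): `KK e` is a non-zero-divisor modulo `II e`. -/
theorem nz_KK [CharZero k] {e : Finset S × Finset S} (he : e.1 ⊆ e.2) {f : MvPolynomial S k}
    (hf : KK k a e * f ∈ II k a θ e) : f ∈ II k a θ e := by
  unfold KK at hf
  rw [mul_comm, ← mul_assoc] at hf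
  have h1 := nz_QP k a θ he (Or.inr (Or.inr rfl)) ((e.2 \ e.1) ×ˢ e.2ᶜ) (by
    rintro ⟨p, q⟩ hp
    rw [mem_product, mem_sdiff, mem_compl] at hp
    simp only [mem_compl] at hp ⊢
    tauto) _ hf
  exact nz_QP k a θ he (Or.inl rfl) (e.1 ×ˢ e.1ᶜ) (by
    rintro ⟨p, q⟩ hp
    rw [mem_product, mem_compl] at hp
    simp only at hp ⊢
    tauto) _ h1

/-! ### The graded statements -/

/-- the pairs of height `c` -/
def lev (c : ℤ) : Finset (Finset S × Finset S) := (Idx θ).filter fun e => ee θ e = c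

theorem mem_lev {c : ℤ} {e : Finset S × Finset S} : e ∈ lev θ c ↔ e ∈ Idx θ ∧ ee θ e = c := by
  simp [lev]

theorem Fl_le_II {c : ℤ} {e : Finset S × Finset S} (he : e ∈ Idx θ) (hc : ee θ e < c) :
    Fl k a θ c ≤ II k a θ e := by
  unfold Fl
  rw [Ideal.span_le]
  rintro f ⟨e', he', hc', rfl⟩
  refine KK_mem_II k a θ he he' ?_ (by omega)
  rintro rfl
  omega

/-- (G1) independence -/
theorem mem_II_of_sum [CharZero k] {c : ℤ} {g : Finset S × Finset S → MvPolynomial S k}
    (h : ∑ e ∈ lev θ c, KK k a e * g e ∈ Fl k a θ (c + 1)) {e : Finset S × Finset S}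
    (he : e ∈ lev θ c) : g e ∈ II k a θ e := by
  have he' := (mem_lev θ).1 he
  have h1 := Fl_le_II k a θ he'.1 (c := c + 1) (by omega) h
  rw [← add_sum_erase _ _ he] at h1
  have h2 : ∑ e' ∈ (lev θ c).erase e, KK k a e' * g e' ∈ II k a θ e := by
    refine Ideal.sum_mem _ fun e' h' => Ideal.mul_mem_right _ _ ?_
    rw [mem_erase] at h'
    have h'' := (mem_lev θ).1 h'.2
    exact KK_mem_II k a θ he'.1 h''.1 h'.1 (by omega)
  exact nz_KK k a θ ((mem_Idx θ).1 he'.1).1 ((Ideal.add_mem_iff_left _ h2).1 h1)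

/-- every element of `Fl c` is a combination of the `KK e` with `ee e ≥ c` -/
theorem exists_sum_of_mem_Fl {c : ℤ} {f : MvPolynomial S k} (hf : f ∈ Fl k a θ c) :
    ∃ g : Finset S × Finset S → MvPolynomial S k,
      f = ∑ e ∈ (Idx θ).filter (fun e => c ≤ ee θ e), KK k a e * g e := by
  unfold Fl at hf
  refine Submodule.span_induction (p := fun f _ => ∃ g : Finset S × Finset S → MvPolynomial S k,
      f = ∑ e ∈ (Idx θ).filter (fun e => c ≤ ee θ e), KK k a e * g e) ?_ ?_ ?_ ?_ hf
  · rintro f ⟨e, he, hc, rfl⟩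
    refine ⟨fun e' => if e' = e then 1 else 0, ?_⟩
    rw [sum_eq_single e]
    · simp
    · intro b _ hb; simp [hb]
    · intro h; exact absurd (mem_filter.2 ⟨he, hc⟩) h
  · exact ⟨0, by simp⟩
  · rintro x y _ _ ⟨g, rfl⟩ ⟨g', rfl⟩
    exact ⟨g + g', by simp [mul_add, sum_add_distrib]⟩
  · rintro r x _ ⟨g, rfl⟩
    refine ⟨fun e => r * g e, ?_⟩
    rw [smul_eq_mul, mul_sum]
    exact sum_congr rfl fun e _ => by ring

/-- homogeneous components of a product with a homogeneous polynomial -/
theorem hc_mul {p : MvPolynomial S k} {m : ℕ} (hp : p.IsHomogeneous m) (q : MvPolynomial S k)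
    (n : ℕ) : MvPolynomial.homogeneousComponent n (p * q)
      = if m ≤ n then p * MvPolynomial.homogeneousComponent (n - m) q else 0 := by
  conv_lhs => rw [← MvPolynomial.sum_homogeneousComponent q, mul_sum, map_sum]
  have h1 : ∀ i, MvPolynomial.homogeneousComponent n (p * MvPolynomial.homogeneousComponent i q)
      = if n = m + i then p * MvPolynomial.homogeneousComponent i q else 0 := by
    intro i
    have h2 : (p * MvPolynomial.homogeneousComponent i q).IsHomogeneous (m + i) :=
      hp.mul (MvPolynomial.homogeneousComponent_isHomogeneous i q)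
    exact MvPolynomial.homogeneousComponent_of_mem h2
  simp only [h1]
  split_ifs with hmn
  · by_cases hd : n - m ∈ range (q.totalDegree + 1)
    · rw [sum_eq_single (n - m)]
      · rw [if_pos (by omega)]
      · intro b _ hb
        rw [if_neg]; omega
      · intro h; exact absurd hd h
    · rw [sum_eq_zero, MvPolynomial.homogeneousComponent_eq_zero, mul_zero]
      · rw [mem_range] at hd; omega
      · intro b hb
        rw [if_neg]
        rintro h
        apply hd
        have : n - m = b := by omega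
        rwa [this]
  · refine sum_eq_zero fun b _ => ?_
    rw [if_neg]; omega

/-- degree of `KK e` -/
def dK (e : Finset S × Finset S) : ℕ :=
  ∑ p ∈ e.1 ×ˢ e.1ᶜ, a p.1 p.2 + ∑ p ∈ (e.2 \ e.1) ×ˢ e.2ᶜ, a p.1 p.2

theorem QP_hom (E : Finset (S × S)) : (QP k a E).IsHomogeneous (∑ p ∈ E, a p.1 p.2) := by
  unfold QP
  refine MvPolynomial.IsHomogeneous.prod _ _ _ fun p _ => ?_
  have h := ((MvPolynomial.isHomogeneous_X k p.2).sub (MvPolynomial.isHomogeneous_X k p.1)).pow
    (a p.1 p.2)
  rwa [one_mul] at h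

theorem KK_hom (e : Finset S × Finset S) : (KK k a e).IsHomogeneous (dK a e) :=
  (QP_hom k a _).mul (QP_hom k a _)

/-- (G2h): a homogeneous element of `Fl c` is a combination with homogeneous coefficients. -/
theorem exists_hom_sum {c : ℤ} {n : ℕ} {f : MvPolynomial S k} (hf : f ∈ Fl k a θ c)
    (hn : f.IsHomogeneous n) :
    ∃ g : Finset S × Finset S → MvPolynomial S k,
      (∀ e, (g e).IsHomogeneous (n - dK a e)) ∧ (∀ e, n < dK a e → g e = 0) ∧
      f = ∑ e ∈ (Idx θ).filter (fun e => c ≤ ee θ e), KK k a e * g e := by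
  obtain ⟨g, hg⟩ := exists_sum_of_mem_Fl k a θ hf
  refine ⟨fun e => if dK a e ≤ n then MvPolynomial.homogeneousComponent (n - dK a e) (g e) else 0,
    ?_, ?_, ?_⟩
  · intro e
    dsimp only
    split_ifs
    · exact MvPolynomial.homogeneousComponent_isHomogeneous _ _
    · exact MvPolynomial.isHomogeneous_zero _ _ _
  · intro e he
    dsimp only
    rw [if_neg (by omega)]
  · have h1 : MvPolynomial.homogeneousComponent n f = f := by
      rw [MvPolynomial.homogeneousComponent_of_mem hn, if_pos rfl]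
    conv_lhs => rw [← h1, hg, map_sum]
    refine sum_congr rfl fun e _ => ?_
    rw [hc_mul k (KK_hom k a e)]
    by_cases h : dK a e ≤ n
    · simp only [if_pos h]
    · simp only [if_neg h, mul_zero]

theorem ee_le (e : Finset S × Finset S) :
    ee θ e ≤ (Fintype.card S + 1) * (∑ s, |θ s|) + Fintype.card S := by
  unfold ee
  have h1 : wS θ e.1 ≤ ∑ s, |θ s| := by
    unfold wS
    calc ∑ s ∈ e.1, θ s ≤ ∑ s ∈ e.1, |θ s| := sum_le_sum fun s _ => le_abs_self _
      _ ≤ ∑ s, |θ s| := sum_le_sum_of_subset_of_nonneg (subset_univ _) fun s _ _ => abs_nonneg _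
  have h2 := card_le e.2
  have h3 : (0 : ℤ) ≤ e.1.card := by positivity
  have h4 : ((Fintype.card S : ℤ) + 1) * wS θ e.1 ≤ (Fintype.card S + 1) * ∑ s, |θ s| :=
    mul_le_mul_of_nonneg_left h1 (by positivity)
  omega

/-- `Fl c = 0` for large `c` -/
theorem Fl_eq_bot {c : ℤ} (hc : (Fintype.card S + 1) * (∑ s, |θ s|) + Fintype.card S < c) :
    Fl k a θ c = ⊥ := by
  unfold Fl
  rw [Ideal.span_eq_bot]
  rintro f ⟨e, _, h, rfl⟩
  have := ee_le θ e
  omega

/-- `Fl c` is everything for small `c` -/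
theorem Fl_eq_top {c : ℤ} (hc : c ≤ (Fintype.card S + 1) * wS θ univ) : Fl k a θ c = ⊤ := by
  rw [Ideal.eq_top_iff_one]
  apply Ideal.subset_span
  refine ⟨(univ, univ), diag_mem_Idx θ _, ?_, ?_⟩
  · unfold ee; simp only; omega
  · rw [KK_diag]; simp [KQ_empty_right]

end

end Vale.Agent.P066.Lab.HN
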