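import Vale.Agent.P066.Lab.Basic

/-!
# Functoriality of the definitions of `Lab/Defs.lean`

`e : S' → S` injective, `a'`, `θ'` pulled back.
-/

set_option autoImplicit false
set_option linter.unusedSectionVars false

open Finset MvPolynomial

namespace Vale.Agent.P066.Lab

noncomputable section

section Embedding

variable {S S' : Type} [Fintype S] [DecidableEq S] [Fintype S'] [DecidableEq S']
variable (k : Type) [Field k] {a : S → S → ℕ} {a' : S' → S' → ℕ} {θ : S → ℤ} {θ' : S' → ℤ}
variable {e : S' → S}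

theorem rename_QP (he : Function.Injective e) (ha : ∀ s t, a' s t = a (e s) (e t))
    (E : Finset (S' × S')) :
    rename e (QP k a' E) = QP k a (E.image (Prod.map e e)) := by
  unfold QP
  rw [map_prod, Finset.prod_image fun x _ y _ h => (he.prodMap he) h]
  refine Finset.prod_congr rfl fun p _ => ?_
  rw [map_pow, map_sub, rename_X, rename_X, ha]
  rfl

theorem wS_image (he : Function.Injective e) (hθ : ∀ s, θ' s = θ (e s)) (X : Finset S') :
    wS θ (X.image e) = wS θ' X := by
  unfold wS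
  rw [Finset.sum_image fun x _ y _ h => he h]
  exact Finset.sum_congr rfl fun s _ => (hθ s).symm

theorem ar_image (he : Function.Injective e) (ha : ∀ s t, a' s t = a (e s) (e t))
    (X Y : Finset S') : ar a (X.image e) (Y.image e) = ar a' X Y := by
  unfold ar
  rw [Finset.sum_image fun x _ y _ h => he h]
  refine Finset.sum_congr rfl fun s _ => ?_
  rw [Finset.sum_image fun x _ y _ h => he h]
  exact Finset.sum_congr rfl fun t _ => by rw [ha]

theorem SymZ_pull (he : Function.Injective e) (ha : ∀ s t, a' s t = a (e s) (e t))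
    (hθ : ∀ s, θ' s = θ (e s)) (h : SymZ a θ) : SymZ a' θ' := by
  intro X Y hXY hX hY
  rw [← ar_image he ha, ← ar_image he ha]
  refine h _ _ ?_ ?_ ?_
  · exact (Finset.disjoint_image he).mpr hXY
  · rw [wS_image he hθ, hX]
  · rw [wS_image he hθ, hY]

theorem rename_KX (he : Function.Injective e) (ha : ∀ s t, a' s t = a (e s) (e t))
    (B X : Finset S') :
    rename e (KX k a' B X) = KX k a (B.image e) (X.image e) := by
  unfold KX
  rw [rename_QP k he ha, Finset.image_sdiff _ _ he |>.symm, ← Finset.prodMap_image_product]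

theorem map_J0 (he : Function.Injective e) (ha : ∀ s t, a' s t = a (e s) (e t))
    (hθ : ∀ s, θ' s = θ (e s)) (B : Finset S') :
    Ideal.map (rename e) (J0 k a' θ' B) = J0 k a θ (B.image e) := by
  unfold J0
  rw [Ideal.map_span]
  congr 1
  ext f
  simp only [Set.mem_image, Set.mem_ofPred_eq]
  constructor
  · rintro ⟨g, ⟨X, hX, hw, rfl⟩, rfl⟩
    exact ⟨X.image e, Finset.image_subset_image hX, by rw [wS_image he hθ]; exact hw,
      rename_KX k he ha B X⟩
  · rintro ⟨Y, hY, hw, rfl⟩
    obtain ⟨X, hX, rfl⟩ := Finset.subset_image_iff.mp hY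
    refine ⟨KX k a' B X, ⟨X, by exact_mod_cast hX, ?_, rfl⟩, rename_KX k he ha B X⟩
    rw [wS_image he hθ] at hw
    exact hw

theorem map_Jp (he : Function.Injective e) (ha : ∀ s t, a' s t = a (e s) (e t))
    (hθ : ∀ s, θ' s = θ (e s)) (B : Finset S') :
    Ideal.map (rename e) (Jp k a' θ' B) = Jp k a θ (B.image e) := by
  unfold Jp
  rw [Ideal.map_span]
  congr 1
  ext f
  simp only [Set.mem_image, Set.mem_ofPred_eq]
  constructor
  · rintro ⟨g, ⟨X, hX, hne, hw, rfl⟩, rfl⟩
    refine ⟨X.image e, Finset.image_subset_image hX, ?_, ?_, rename_KX k he ha B X⟩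
    · intro h
      exact hne (Finset.image_injective he h)
    · rw [← Finset.image_sdiff _ _ he, wS_image he hθ]
      exact hw
  · rintro ⟨Y, hY, hne, hw, rfl⟩
    obtain ⟨X, hX, rfl⟩ := Finset.subset_image_iff.mp hY
    refine ⟨KX k a' B X, ⟨X, by exact_mod_cast hX, ?_, ?_, rfl⟩, rename_KX k he ha B X⟩
    · intro h
      exact hne (by rw [h])
    · rw [← Finset.image_sdiff _ _ he, wS_image he hθ] at hw
      exact hw

theorem map_Jm (he : Function.Injective e) (ha : ∀ s t, a' s t = a (e s) (e t))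
    (hθ : ∀ s, θ' s = θ (e s)) (B : Finset S') :
    Ideal.map (rename e) (Jm k a' θ' B) = Jm k a θ (B.image e) := by
  unfold Jm
  rw [Ideal.map_span]
  congr 1
  ext f
  simp only [Set.mem_image, Set.mem_ofPred_eq]
  constructor
  · rintro ⟨g, ⟨X, hX, hne, hw, rfl⟩, rfl⟩
    refine ⟨X.image e, Finset.image_subset_image hX, ?_, ?_, rename_KX k he ha B X⟩
    · intro h
      exact hne (Finset.image_eq_empty.mp h)
    · rw [wS_image he hθ]
      exact hw
  · rintro ⟨Y, hY, hne, hw, rfl⟩
    obtain ⟨X, hX, rfl⟩ := Finset.subset_image_iff.mp hY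
    refine ⟨KX k a' B X, ⟨X, by exact_mod_cast hX, ?_, ?_, rfl⟩, rename_KX k he ha B X⟩
    · intro h
      exact hne (by rw [h, Finset.image_empty])
    · rw [wS_image he hθ] at hw
      exact hw

/-- Contraction along an injective renaming. -/
theorem mem_of_rename_mem_map (he : Function.Injective e) (J : Ideal (MvPolynomial S' k))
    {f : MvPolynomial S' k} (hf : rename e f ∈ Ideal.map (rename e) J) : f ∈ J := by
  have h1 : (killCompl he) (rename e f) ∈
      Ideal.map (killCompl he : MvPolynomial S k →ₐ[k] MvPolynomial S' k)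
        (Ideal.map (rename e : MvPolynomial S' k →ₐ[k] MvPolynomial S k) J) :=
    Ideal.mem_map_of_mem _ hf
  rw [killCompl_rename_app] at h1
  have h2 : Ideal.map (killCompl he : MvPolynomial S k →ₐ[k] MvPolynomial S' k)
        (Ideal.map (rename e : MvPolynomial S' k →ₐ[k] MvPolynomial S k) J) ≤ J := by
    rw [Ideal.map_le_iff_le_comap, Ideal.map_le_iff_le_comap]
    intro g hg
    rw [Ideal.mem_comap, Ideal.mem_comap, killCompl_rename_app]
    exact hg
  exact h2 h1

theorem mem_J0_iff (he : Function.Injective e) (ha : ∀ s t, a' s t = a (e s) (e t))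
    (hθ : ∀ s, θ' s = θ (e s)) (B : Finset S') (f : MvPolynomial S' k) :
    rename e f ∈ J0 k a θ (B.image e) ↔ f ∈ J0 k a' θ' B := by
  rw [← map_J0 k he ha hθ]
  exact ⟨mem_of_rename_mem_map k he _, fun h => Ideal.mem_map_of_mem _ h⟩

theorem mem_Jp_iff (he : Function.Injective e) (ha : ∀ s t, a' s t = a (e s) (e t))
    (hθ : ∀ s, θ' s = θ (e s)) (B : Finset S') (f : MvPolynomial S' k) :
    rename e f ∈ Jp k a θ (B.image e) ↔ f ∈ Jp k a' θ' B := by
  rw [← map_Jp k he ha hθ]
  exact ⟨mem_of_rename_mem_map k he _, fun h => Ideal.mem_map_of_mem _ h⟩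

theorem mem_Jm_iff (he : Function.Injective e) (ha : ∀ s t, a' s t = a (e s) (e t))
    (hθ : ∀ s, θ' s = θ (e s)) (B : Finset S') (f : MvPolynomial S' k) :
    rename e f ∈ Jm k a θ (B.image e) ↔ f ∈ Jm k a' θ' B := by
  rw [← map_Jm k he ha hθ]
  exact ⟨mem_of_rename_mem_map k he _, fun h => Ideal.mem_map_of_mem _ h⟩

theorem Tc_rename (m : S → ℕ) (f : MvPolynomial S' k) :
    Tc k m (rename e f) = map (rename e : MvPolynomial S' k →ₐ[k] MvPolynomial S k).toRingHom
      (Tc k (m ∘ e) f) := by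
  induction f using MvPolynomial.induction_on with
  | C c => simp [Tc, MvPolynomial.algebraMap_apply]
  | add p q hp hq => rw [map_add, map_add, map_add, map_add, hp, hq]
  | mul_X p i hp =>
    rw [map_mul, map_mul, map_mul, map_mul, hp]
    congr 1
    simp [Tc]

theorem coeff_Tc_rename (m : S → ℕ) (f : MvPolynomial S' k) (α : ℕ →₀ ℕ) :
    coeff α (Tc k m (rename e f)) = rename e (coeff α (Tc k (m ∘ e) f)) := by
  rw [Tc_rename, coeff_map]
  rfl

/-! ### Blocks and colourings -/

theorem blk_comp_image (m : S → ℕ) (hsat : ∀ s s', m (e s') = m s → s ∈ Set.range e) {i : ℕ}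
    (hi : (blk (m ∘ e) i).Nonempty) : (blk (m ∘ e) i).image e = blk m i := by
  obtain ⟨s0, hs0⟩ := hi
  rw [mem_blk] at hs0
  ext s
  rw [Finset.mem_image, mem_blk]
  constructor
  · rintro ⟨t, ht, rfl⟩
    have h1 : (m ∘ e) t = i := mem_blk.mp ht
    exact h1
  · intro hs
    obtain ⟨t, rfl⟩ := hsat s s0 (by rw [hs]; exact hs0)
    exact ⟨t, mem_blk.mpr hs, rfl⟩

theorem J0_empty (a : S → S → ℕ) (θ : S → ℤ) : J0 k a θ ∅ = ⊥ := by
  unfold J0
  rw [Ideal.span_eq_bot]
  rintro f ⟨X, hX, hw, rfl⟩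
  rw [Finset.subset_empty.mp hX] at hw
  simp [wS] at hw

theorem map_JC_le (he : Function.Injective e) (ha : ∀ s t, a' s t = a (e s) (e t))
    (hθ : ∀ s, θ' s = θ (e s)) (m : S → ℕ) (hsat : ∀ s s', m (e s') = m s → s ∈ Set.range e) :
    Ideal.map (rename e) (JC k a' θ' (m ∘ e)) ≤ JC k a θ m := by
  unfold JC
  rw [Ideal.map_iSup, iSup_le_iff]
  intro i
  rcases (blk (m ∘ e) i).eq_empty_or_nonempty with h | h
  · rw [h, J0_empty, Ideal.map_bot]
    exact bot_le
  · rw [map_J0 k he ha hθ, blk_comp_image m hsat h]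
    exact le_iSup (fun i => J0 k a θ (blk m i)) i

end Embedding

section Bijection

variable {S S' : Type} [Fintype S] [DecidableEq S] [Fintype S'] [DecidableEq S']
variable (k : Type) [Field k] {a : S → S → ℕ} {a' : S' → S' → ℕ} {θ : S → ℤ} {θ' : S' → ℤ}
variable (e : S' ≃ S)

theorem blk_comp_equiv (m : S → ℕ) (i : ℕ) : (blk (m ∘ e) i).image e = blk m i := by
  ext s
  rw [Finset.mem_image, mem_blk]
  constructor
  · rintro ⟨t, ht, rfl⟩
    have h1 : (m ∘ e) t = i := mem_blk.mp ht
    exact h1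
  · intro hs
    exact ⟨e.symm s, mem_blk.mpr (by simp [hs]), by simp⟩

theorem map_JC_equiv (ha : ∀ s t, a' s t = a (e s) (e t)) (hθ : ∀ s, θ' s = θ (e s))
    (m : S → ℕ) : Ideal.map (rename e) (JC k a' θ' (m ∘ e)) = JC k a θ m := by
  unfold JC
  rw [Ideal.map_iSup]
  refine iSup_congr fun i => ?_
  rw [map_J0 k e.injective ha hθ, blk_comp_equiv e m]

theorem mem_JC_equiv (ha : ∀ s t, a' s t = a (e s) (e t)) (hθ : ∀ s, θ' s = θ (e s))
    (m : S → ℕ) (f : MvPolynomial S' k) :
    rename e f ∈ JC k a θ m ↔ f ∈ JC k a' θ' (m ∘ e) := by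
  rw [← map_JC_equiv k e ha hθ]
  exact ⟨mem_of_rename_mem_map k e.injective _, fun h => Ideal.mem_map_of_mem _ h⟩

theorem Zc_equiv (hθ : ∀ s, θ' s = θ (e s)) (m : S → ℕ) : Zc θ' (m ∘ e) ↔ Zc θ m := by
  unfold Zc
  refine forall_congr' fun i => ?_
  rw [← blk_comp_equiv e m, wS_image e.injective hθ]

theorem Ref_equiv (m c : S → ℕ) : Ref (m ∘ e) (c ∘ e) ↔ Ref m c := by
  constructor
  · intro h s t hst
    have := h (e.symm s) (e.symm t) (by simpa using hst)
    simpa using this
  · intro h s t hst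
    exact h _ _ hst

theorem nb_equiv (c : S → ℕ) : nb (c ∘ e) = nb c := by
  unfold nb
  congr 2
  ext i
  simp only [Finset.mem_image, mem_univ, true_and, Function.comp_apply]
  constructor
  · rintro ⟨s, hs⟩
    exact ⟨e s, hs⟩
  · rintro ⟨s, hs⟩
    exact ⟨e.symm s, by simpa using hs⟩

theorem CC_equiv (ha : ∀ s t, a' s t = a (e s) (e t)) (c : S → ℕ) :
    CC a' (c ∘ e) = CC a c := by
  unfold CC
  refine Finset.sum_nbij' (fun p => (e p.1, e p.2)) (fun p => (e.symm p.1, e.symm p.2)) ?_ ?_ ?_ ?_ ?_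
  · intro p hp
    simpa using hp
  · intro p hp
    simpa using hp
  · intro p _; simp
  · intro p _; simp
  · intro p _
    simp [ha]

theorem KC_equiv (ha : ∀ s t, a' s t = a (e s) (e t)) (c : S → ℕ) :
    rename e (KC k a' (c ∘ e)) = KC k a c := by
  unfold KC
  rw [rename_QP k e.injective ha]
  congr 1
  ext p
  simp only [Finset.mem_image, mem_filter, mem_univ, true_and, Function.comp_apply]
  constructor
  · rintro ⟨q, hq, rfl⟩
    exact hq
  · intro hp
    exact ⟨(e.symm p.1, e.symm p.2), by simpa using hp, by simp⟩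

theorem Lev_equiv (ha : ∀ s t, a' s t = a (e s) (e t)) (hθ : ∀ s, θ' s = θ (e s))
    (m : S → ℕ) (n : ℤ) (f : MvPolynomial S' k) :
    Lev k a θ m n (rename e f) ↔ Lev k a' θ' (m ∘ e) n f := by
  unfold Lev
  rw [nb_equiv, CC_equiv e ha]
  refine forall_congr' fun α => imp_congr_right fun _ => ?_
  rw [coeff_Tc_rename, mem_JC_equiv k e ha hθ]

theorem FilR_equiv (ha : ∀ s t, a' s t = a (e s) (e t)) (hθ : ∀ s, θ' s = θ (e s))
    (c : S → ℕ) (n : ℤ) (f : MvPolynomial S' k) :
    FilR k a θ c n (rename e f) ↔ FilR k a' θ' (c ∘ e) n f := by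
  unfold FilR
  constructor
  · intro h m hm hr
    have hm' : m = (m ∘ e.symm) ∘ e := by ext s; simp
    rw [hm'] at hm hr ⊢
    rw [← Lev_equiv k e ha hθ]
    exact h _ ((Zc_equiv e hθ _).mp hm) ((Ref_equiv e _ _).mp hr)
  · intro h m hm hr
    rw [Lev_equiv k e ha hθ]
    exact h _ ((Zc_equiv e hθ _).mpr hm) ((Ref_equiv e _ _).mpr hr)

theorem Fil_equiv (ha : ∀ s t, a' s t = a (e s) (e t)) (hθ : ∀ s, θ' s = θ (e s))
    (n : ℤ) (f : MvPolynomial S' k) :
    Fil k a θ n (rename e f) ↔ Fil k a' θ' n f := by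
  unfold Fil
  constructor
  · intro h m hm
    have hm' : m = (m ∘ e.symm) ∘ e := by ext s; simp
    rw [hm'] at hm ⊢
    rw [← Lev_equiv k e ha hθ]
    exact h _ ((Zc_equiv e hθ _).mp hm)
  · intro h m hm
    rw [Lev_equiv k e ha hθ]
    exact h _ ((Zc_equiv e hθ _).mpr hm)

theorem Gc_equiv (ha : ∀ s t, a' s t = a (e s) (e t)) (hθ : ∀ s, θ' s = θ (e s))
    (c : S → ℕ) (f : MvPolynomial S' k) :
    Gc k a θ c (rename e f) ↔ Gc k a' θ' (c ∘ e) f := by
  unfold Gc
  rw [FilR_equiv k e ha hθ, nb_equiv, CC_equiv e ha]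

theorem uk_equiv (c : S → ℕ) (i : ℕ) : rename e (uk k (c ∘ e) i) = uk k c i := by
  unfold uk
  rw [map_mul, rename_C, map_sum, ← blk_comp_equiv e c, Finset.card_image_of_injective _ e.injective,
    Finset.sum_image fun x _ y _ h => e.injective h]
  congr 1
  exact Finset.sum_congr rfl fun s _ => rename_X _ _

theorem PU_equiv (R : Type) [CommRing R] (ha : ∀ s t, a' s t = a (e s) (e t)) (c : S → ℕ) :
    PU a' R (c ∘ e) = PU a R c := by
  unfold PU
  refine Finset.prod_nbij' (fun p => (e p.1, e p.2)) (fun p => (e.symm p.1, e.symm p.2)) ?_ ?_ ?_ ?_ ?_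
  · intro p hp
    simpa using hp
  · intro p hp
    simpa using hp
  · intro p _; simp
  · intro p _; simp
  · intro p _
    simp [ha]

/-- The map of quotients induced by a renaming. -/
def qmap (ha : ∀ s t, a' s t = a (e s) (e t)) (hθ : ∀ s, θ' s = θ (e s)) (c : S → ℕ) :
    (MvPolynomial S' k ⧸ JC k a' θ' (c ∘ e)) →+* (MvPolynomial S k ⧸ JC k a θ c) :=
  Ideal.quotientMap _ (rename e : MvPolynomial S' k →ₐ[k] MvPolynomial S k).toRingHom
    (fun _ hf => (mem_JC_equiv k e ha hθ c _).mpr hf)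

theorem qmap_mk (ha : ∀ s t, a' s t = a (e s) (e t)) (hθ : ∀ s, θ' s = θ (e s)) (c : S → ℕ)
    (f : MvPolynomial S' k) :
    qmap k e ha hθ c (Ideal.Quotient.mk _ f) = Ideal.Quotient.mk _ (rename e f) := rfl

theorem qmap_injective (ha : ∀ s t, a' s t = a (e s) (e t)) (hθ : ∀ s, θ' s = θ (e s))
    (c : S → ℕ) : Function.Injective (qmap k e ha hθ c) := by
  rw [injective_iff_map_eq_zero]
  intro x hx
  obtain ⟨f, rfl⟩ := Ideal.Quotient.mk_surjective x
  rw [qmap_mk, Ideal.Quotient.eq_zero_iff_mem, mem_JC_equiv k e ha hθ] at hx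
  exact Ideal.Quotient.eq_zero_iff_mem.mpr hx

theorem Sb_equiv (ha : ∀ s t, a' s t = a (e s) (e t)) (hθ : ∀ s, θ' s = θ (e s))
    (c : S → ℕ) (d : ℕ) (f : MvPolynomial S' k) :
    Sb k a θ c d (rename e f) = map (qmap k e ha hθ c) (Sb k a' θ' (c ∘ e) d f) := by
  ext α
  unfold Sb
  rw [coeff_map, coeff_homogeneousComponent, coeff_homogeneousComponent, coeff_map, coeff_map,
    coeff_Tc_rename]
  split_ifs
  · rw [qmap_mk]
  · rw [map_zero]

end Bijection

/-! ### Change of colours -/

section Recolour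

variable {S : Type} [Fintype S] [DecidableEq S]
variable (k : Type) [Field k] {a : S → S → ℕ} {θ : S → ℤ}

/-- Two colourings with the same kernel differ by an injective map of the colours. -/
theorem exists_recolour (c c' : S → ℕ) (h : ∀ s t, c s = c t ↔ c' s = c' t) :
    ∃ σ : ℕ → ℕ, Function.Injective σ ∧ c' = σ ∘ c := by
  classical
  refine ⟨fun i => if hi : ∃ s, c s = i then c' hi.choose else univ.sup c' + 1 + i, ?_, ?_⟩
  · intro i j hij
    by_cases hi : ∃ s, c s = i <;> by_cases hj : ∃ s, c s = j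
    · simp only [dif_pos hi, dif_pos hj] at hij
      have := (h _ _).mpr hij
      rw [hi.choose_spec, hj.choose_spec] at this
      exact this
    · simp only [dif_pos hi, dif_neg hj] at hij
      have : c' hi.choose ≤ univ.sup c' := Finset.le_sup (mem_univ _)
      omega
    · simp only [dif_neg hi, dif_pos hj] at hij
      have : c' hj.choose ≤ univ.sup c' := Finset.le_sup (mem_univ _)
      omega
    · simp only [dif_neg hi, dif_neg hj] at hij
      omega
  · ext s
    have hs : ∃ t, c t = c s := ⟨s, rfl⟩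
    simp only [Function.comp_apply, dif_pos hs]
    exact ((h _ _).mp hs.choose_spec).symm

theorem blk_recolour {σ : ℕ → ℕ} (hσ : Function.Injective σ) (c : S → ℕ) (i : ℕ) :
    blk (σ ∘ c) (σ i) = blk c i := by
  ext s
  rw [mem_blk, mem_blk]
  exact hσ.eq_iff

theorem JC_recolour {σ : ℕ → ℕ} (hσ : Function.Injective σ) (c : S → ℕ) :
    JC k a θ (σ ∘ c) = JC k a θ c := by
  unfold JC
  apply le_antisymm
  · rw [iSup_le_iff]
    intro j
    rcases (blk (σ ∘ c) j).eq_empty_or_nonempty with h | ⟨s, hs⟩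
    · rw [h, J0_empty]
      exact bot_le
    · rw [mem_blk] at hs
      have : j = σ (c s) := hs.symm
      rw [this, blk_recolour hσ]
      exact le_iSup (fun i => J0 k a θ (blk c i)) _
  · rw [iSup_le_iff]
    intro i
    rw [← blk_recolour hσ]
    exact le_iSup (fun i => J0 k a θ (blk (σ ∘ c) i)) _

theorem Zc_recolour {σ : ℕ → ℕ} (hσ : Function.Injective σ) (c : S → ℕ) :
    Zc θ (σ ∘ c) ↔ Zc θ c := by
  unfold Zc
  constructor
  · intro h i
    rw [← blk_recolour hσ]
    exact h _
  · intro h j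
    rcases (blk (σ ∘ c) j).eq_empty_or_nonempty with h' | ⟨s, hs⟩
    · rw [h']; simp [wS]
    · rw [mem_blk] at hs
      have : j = σ (c s) := hs.symm
      rw [this, blk_recolour hσ]
      exact h _

theorem nb_recolour {σ : ℕ → ℕ} (hσ : Function.Injective σ) (c : S → ℕ) :
    nb (σ ∘ c) = nb c := by
  unfold nb
  rw [← Finset.image_image, Finset.card_image_of_injective _ hσ]

/-- Pairs of particles in different blocks. -/
theorem two_mul_CC (hs : SymZ a θ) (c : S → ℕ) (hc : Zc θ c) :
    2 * CC a c = ∑ p ∈ univ.filter (fun p : S × S => c p.1 ≠ c p.2), (a p.1 p.2 : ℤ) := by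
  have key : ∀ r : ℕ → ℕ → Prop, ∀ [DecidableRel r],
      ∑ p ∈ univ.filter (fun p : S × S => r (c p.1) (c p.2)), (a p.1 p.2 : ℤ) =
      ∑ i ∈ univ.image c, ∑ j ∈ univ.image c, if r i j then ar a (blk c i) (blk c j) else 0 := by
    intro r _
    rw [Finset.sum_filter, Fintype.sum_prod_type]
    rw [← Finset.sum_fiberwise_of_maps_to (s := univ) (t := univ.image c) (g := c)
      (fun s _ => Finset.mem_image_of_mem c (mem_univ s))]
    refine Finset.sum_congr rfl fun i _ => ?_
    have h2 : ∀ s : S, ∑ t, (if r (c s) (c t) then (a s t : ℤ) else 0) =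
        ∑ j ∈ univ.image c, ∑ t ∈ univ.filter (fun t => c t = j),
          if r (c s) (c t) then (a s t : ℤ) else 0 := by
      intro s
      rw [Finset.sum_fiberwise_of_maps_to (s := univ) (t := univ.image c) (g := c)
        (fun s _ => Finset.mem_image_of_mem c (mem_univ s))]
    rw [Finset.sum_congr rfl fun s _ => h2 s, Finset.sum_comm]
    refine Finset.sum_congr rfl fun j _ => ?_
    unfold ar blk
    split_ifs with h
    · refine Finset.sum_congr rfl fun s hs => Finset.sum_congr rfl fun t ht => ?_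
      rw [(mem_filter.mp hs).2, (mem_filter.mp ht).2, if_pos h]
    · refine Finset.sum_eq_zero fun s hs => Finset.sum_eq_zero fun t ht => ?_
      rw [(mem_filter.mp hs).2, (mem_filter.mp ht).2, if_neg h]
  have hlt := key (fun i j => i < j)
  have hgt := key (fun i j => j < i)
  have hne := key (fun i j => i ≠ j)
  have hswap : ∑ i ∈ univ.image c, ∑ j ∈ univ.image c,
      (if i < j then ar a (blk c i) (blk c j) else 0) =
      ∑ i ∈ univ.image c, ∑ j ∈ univ.image c,
      (if j < i then ar a (blk c i) (blk c j) else 0) := by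
    rw [Finset.sum_comm]
    refine Finset.sum_congr rfl fun j _ => Finset.sum_congr rfl fun i _ => ?_
    split_ifs with h
    · refine hs _ _ ?_ (hc _) (hc _)
      rw [Finset.disjoint_left]
      intro s h1 h2
      rw [mem_blk] at h1 h2
      omega
    · rfl
  unfold CC
  rw [two_mul, hne]
  nth_rewrite 2 [hlt]
  rw [hlt, hswap]
  nth_rewrite 1 [← hswap]
  rw [← Finset.sum_add_distrib]
  refine Finset.sum_congr rfl fun i _ => ?_
  rw [← Finset.sum_add_distrib]
  refine Finset.sum_congr rfl fun j _ => ?_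
  rcases lt_trichotomy i j with h | h | h
  · simp [h, h.ne, h.not_gt]
  · simp [h]
  · simp [h, h.ne', h.not_gt]

theorem CC_recolour (hs : SymZ a θ) {σ : ℕ → ℕ} (hσ : Function.Injective σ) (c : S → ℕ)
    (hc : Zc θ c) : CC a (σ ∘ c) = CC a c := by
  have h1 := two_mul_CC hs c hc
  have h2 := two_mul_CC hs (σ ∘ c) ((Zc_recolour hσ c).mpr hc)
  have h3 : (univ.filter fun p : S × S => (σ ∘ c) p.1 ≠ (σ ∘ c) p.2) =
      univ.filter fun p : S × S => c p.1 ≠ c p.2 := by
    apply Finset.filter_congr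
    intro p _
    simp [hσ.eq_iff]
  rw [h3, ← h1] at h2
  omega

theorem Tc_recolour (σ : ℕ → ℕ) (c : S → ℕ) (f : MvPolynomial S k) :
    Tc k (σ ∘ c) f = rename σ (Tc k c f) := by
  induction f using MvPolynomial.induction_on with
  | C c => simp [Tc, MvPolynomial.algebraMap_apply]
  | add p q hp hq => rw [map_add, map_add, map_add, hp, hq]
  | mul_X p i hp =>
    rw [map_mul, map_mul, map_mul, hp]
    congr 1
    simp [Tc]

theorem Lev_recolour (hs : SymZ a θ) {σ : ℕ → ℕ} (hσ : Function.Injective σ) (c : S → ℕ)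
    (hc : Zc θ c) (n : ℤ) (f : MvPolynomial S k) :
    Lev k a θ (σ ∘ c) n f ↔ Lev k a θ c n f := by
  unfold Lev
  rw [CC_recolour hs hσ c hc, nb_recolour hσ, JC_recolour k hσ, Tc_recolour]
  constructor
  · intro h α hα
    rw [← coeff_rename_mapDomain σ hσ]
    apply h
    rw [Finsupp.degree_mapDomain]
    exact hα
  · intro h α hα
    by_cases hr : ∃ β, Finsupp.mapDomain σ β = α
    · obtain ⟨β, rfl⟩ := hr
      rw [coeff_rename_mapDomain σ hσ]
      apply h
      rw [Finsupp.degree_mapDomain] at hα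
      exact hα
    · rw [coeff_rename_eq_zero]
      · exact zero_mem _
      · intro β hβ
        exact absurd ⟨β, hβ⟩ hr

end Recolour

end

end Vale.Agent.P066.Lab
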