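import Vale.Agent.P066.Lab.Basic

/-!
# LB1 (i): block derivations and the growth levels
-/

set_option autoImplicit false
set_option linter.unusedSectionVars false
set_option linter.unusedVariables false

open Finset MvPolynomial

namespace Vale.Agent.P066.Lab

noncomputable section

variable {S : Type} [Fintype S] [DecidableEq S] {k : Type} [Field k] {a : S → S → ℕ} {θ : S → ℤ}

/-- block derivation -/
def dc (k : Type) [Field k] (c : S → ℕ) (i : ℕ) (f : MvPolynomial S k) : MvPolynomial S k :=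
  ∑ s ∈ blk c i, pderiv s f

theorem dc_add (c : S → ℕ) (i : ℕ) (f g : MvPolynomial S k) :
    dc k c i (f + g) = dc k c i f + dc k c i g := by
  simp [dc, sum_add_distrib]

theorem dc_mul (c : S → ℕ) (i : ℕ) (f g : MvPolynomial S k) :
    dc k c i (f * g) = dc k c i f * g + f * dc k c i g := by
  simp only [dc, pderiv_mul, sum_add_distrib, sum_mul, mul_sum]

theorem dc_C (c : S → ℕ) (i : ℕ) (r : k) : dc k c i (C r) = 0 := by simp [dc]

theorem dc_X (c : S → ℕ) (i : ℕ) (s : S) :
    dc k c i (X s) = if c s = i then 1 else 0 := by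
  unfold dc
  simp only [pderiv_X, Pi.single_apply]
  rw [sum_ite_eq]
  simp

theorem Tc_dc (c : S → ℕ) (i : ℕ) (f : MvPolynomial S k) :
    Tc k c (dc k c i f) = pderiv i (Tc k c f) := by
  induction f using MvPolynomial.induction_on with
  | C r =>
    rw [dc_C, map_zero]
    have : Tc k c (C r) = C (C r) := by simp [Tc, MvPolynomial.algebraMap_apply]
    rw [this, pderiv_C]
  | add p q hp hq => rw [dc_add, map_add, map_add, map_add, hp, hq]
  | mul_X p s hp =>
    rw [dc_mul, map_add, map_mul, map_mul, map_mul, Derivation.leibniz, hp, dc_X, Tc_X]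
    have : pderiv i (C (X s) + X (c s) : MvPolynomial ℕ (MvPolynomial S k)) =
        Tc k c (if c s = i then 1 else 0) := by
      rw [map_add, pderiv_C, zero_add, pderiv_X]
      by_cases h : c s = i
      · simp [h]
      · simp [h]
    rw [this, smul_eq_mul, smul_eq_mul]
    ring

/-- coarse block derivations are sums of finer ones -/
theorem dc_eq_sum {m c : S → ℕ} (h : Ref m c) (i : ℕ) (f : MvPolynomial S k) :
    dc k c i f = ∑ j ∈ (blk c i).image m, dc k m j f := by
  unfold dc
  rw [← sum_fiberwise_of_maps_to (s := blk c i) (t := (blk c i).image m) (g := m)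
    (fun s hs => mem_image_of_mem m hs)]
  refine sum_congr rfl fun j hj => ?_
  obtain ⟨s0, hs0, rfl⟩ := mem_image.mp hj
  refine sum_congr ?_ fun _ _ => rfl
  ext s
  simp only [mem_filter, mem_blk] at hs0 ⊢
  constructor
  · exact fun hs => hs.2
  · exact fun hs => ⟨(h _ _ hs).trans hs0, hs⟩

theorem Lev.mono {c : S → ℕ} {n n' : ℤ} (hn : n ≤ n') {f : MvPolynomial S k}
    (h : Lev k a θ c n f) : Lev k a θ c n' f := fun α hα => h α (by omega)

theorem Lev.add {c : S → ℕ} {n : ℤ} {f g : MvPolynomial S k}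
    (hf : Lev k a θ c n f) (hg : Lev k a θ c n g) : Lev k a θ c n (f + g) := fun α hα => by
  rw [map_add, coeff_add]
  exact Ideal.add_mem _ (hf α hα) (hg α hα)

theorem Lev.sum {c : S → ℕ} {n : ℤ} {ι : Type*} {s : Finset ι} {f : ι → MvPolynomial S k}
    (hf : ∀ i ∈ s, Lev k a θ c n (f i)) : Lev k a θ c n (∑ i ∈ s, f i) := fun α hα => by
  rw [map_sum, coeff_sum]
  exact Ideal.sum_mem _ fun i hi => hf i hi α hα

theorem Lev.C_mul {c : S → ℕ} {n : ℤ} {f : MvPolynomial S k} (r : k)
    (hf : Lev k a θ c n f) : Lev k a θ c n (C r * f) := fun α hα => by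
  have : Tc k c (C r * f) = C (C r) * Tc k c f := by
    rw [map_mul]
    congr 1
    simp [Tc, MvPolynomial.algebraMap_apply]
  rw [this, coeff_C_mul]
  exact Ideal.mul_mem_left _ _ (hf α hα)

theorem Lev.of_mem {c : S → ℕ} (n : ℤ) {f : MvPolynomial S k} (hf : f ∈ JC k a θ c) :
    Lev k a θ c n f := fun α _ => coeff_Tc_mem hf α

/-- the derivation of a block lowers the level by `2` -/
theorem Lev.dc {c : S → ℕ} {n : ℤ} {f : MvPolynomial S k} (hf : Lev k a θ c n f) (i : ℕ) :
    Lev k a θ c (n - 2) (dc k c i f) := fun α hα => by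
  rw [Tc_dc, coeff_pderiv]
  refine Ideal.mul_mem_right _ _ (hf _ ?_)
  rw [map_add, Finsupp.degree_single]
  push_cast
  linarith

theorem Lev.dc_ref {m c : S → ℕ} (h : Ref m c) {n : ℤ} {f : MvPolynomial S k}
    (hf : Lev k a θ m n f) (i : ℕ) : Lev k a θ m (n - 2) (Lab.dc k c i f) := by
  rw [dc_eq_sum h]
  exact Lev.sum fun j _ => hf.dc j

variable [CharZero k]

/-- the coefficients of `T_c f` are (up to factorials) iterated block derivatives -/
theorem coeff_Tc_succ (c : S → ℕ) (f : MvPolynomial S k) (α : ℕ →₀ ℕ) (i : ℕ) :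
    coeff (α + Finsupp.single i 1) (Tc k c f) =
      C (((α i : k) + 1)⁻¹) * coeff α (Tc k c (dc k c i f)) := by
  rw [Tc_dc, coeff_pderiv]
  have h : (C (((α i : k) + 1)⁻¹) : MvPolynomial S k) * ((α i : MvPolynomial S k) + 1) = 1 := by
    have h2 : ((α i : MvPolynomial S k) + 1) = C ((α i : k) + 1) := by simp
    rw [h2, ← C_mul, inv_mul_cancel₀, C_1]
    exact_mod_cast Nat.succ_ne_zero (α i)
  calc coeff (α + Finsupp.single i 1) (Tc k c f)
      = (C (((α i : k) + 1)⁻¹) * ((α i : MvPolynomial S k) + 1)) *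
        coeff (α + Finsupp.single i 1) (Tc k c f) := by rw [h, one_mul]
    _ = _ := by ring

/-- LB1 (i): the coefficients of `T_c f` have lower level at every refinement of `c` -/
theorem Lev.coeff_Tc {m c : S → ℕ} (h : Ref m c) : ∀ (N : ℕ) (α : ℕ →₀ ℕ), α.degree = N →
    ∀ {n : ℤ} {f : MvPolynomial S k}, Lev k a θ m n f →
      Lev k a θ m (n - 2 * (N : ℤ)) (coeff α (Tc k c f)) := by
  intro N
  induction N with
  | zero =>
    intro α hα n f hf
    have : α = 0 := by
      rwa [Finsupp.degree_eq_zero_iff] at hα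
    subst this
    rw [coeff_zero_Tc]
    simpa using hf
  | succ N ih =>
    intro α hα n f hf
    have hne : α ≠ 0 := by
      rintro rfl
      simp at hα
    obtain ⟨i, hi⟩ := Finsupp.support_nonempty_iff.mpr hne
    have h1 : α = (α - Finsupp.single i 1) + Finsupp.single i 1 := by
      rw [tsub_add_cancel_of_le]
      rw [Finsupp.single_le_iff]
      exact Nat.one_le_iff_ne_zero.mpr (Finsupp.mem_support_iff.mp hi)
    have h2 : (α - Finsupp.single i 1).degree = N := by
      have := congrArg Finsupp.degree h1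
      rw [map_add, Finsupp.degree_single, hα] at this
      omega
    rw [h1, coeff_Tc_succ]
    refine Lev.C_mul _ ?_
    have h3 := ih _ h2 (hf.dc_ref h i)
    convert h3 using 1
    push_cast
    ring

theorem Lev.coeff_Tc' {m c : S → ℕ} (h : Ref m c) {n : ℤ} {f : MvPolynomial S k}
    (hf : Lev k a θ m n f) (α : ℕ →₀ ℕ) :
    Lev k a θ m (n - 2 * (α.degree : ℤ)) (coeff α (Tc k c f)) :=
  Lev.coeff_Tc h _ α rfl hf

/-- LB1 (i): the top coefficients at `c` of an element of level `n` lie in `G_c`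
(relative version: levels at all zero refinements of `c'`) -/
theorem Gc_coeff_Tc {c' c : S → ℕ} (h : Ref c c') {n : ℤ} {f : MvPolynomial S k}
    (hf : FilR k a θ c' n f) {α : ℕ →₀ ℕ} (hα : n + 2 * CC a c ≤ 2 * (α.degree : ℤ) + nb c) :
    Gc k a θ c (coeff α (Tc k c f)) := fun m hm hmc =>
  ((hf m hm (hmc.trans h)).coeff_Tc' hmc α).mono (by linarith)

theorem Gc_coeff_Tc_of_Fil {c : S → ℕ} {n : ℤ} {f : MvPolynomial S k}
    (hf : Fil k a θ n f) {α : ℕ →₀ ℕ} (hα : n + 2 * CC a c ≤ 2 * (α.degree : ℤ) + nb c) :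
    Gc k a θ c (coeff α (Tc k c f)) := fun m hm hmc =>
  ((hf m hm).coeff_Tc' hmc α).mono (by linarith)

end

end Vale.Agent.P066.Lab
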