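import Vale.Agent.P066.Lab.Kun

/-!
Kuenneth, second part: an element all of whose block slices lie in subspaces `V j` is, modulo the
sum of the ideals, a combination of products of elements of the `V j`.
-/

namespace Vale.Agent.P066.Lab

open MvPolynomial

variable {S : Type*} {k : Type*} [Field k]

theorem slice_mem_supported' (B : Set S) [DecidablePred (· ∈ B)] (l : MvPolynomial S k →ₗ[k] k)
    {T : Set S} {f : MvPolynomial S k} (hf : f ∈ supported k T) :
    slice B l f ∈ supported k (T ∩ Bᶜ) := by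
  rw [f.as_sum, map_sum]
  refine Subalgebra.sum_mem _ fun m hm => ?_
  have hsub := support_subset_of_supported hf hm
  rw [slice_monomial]
  refine Subalgebra.smul_mem _ (Subalgebra.smul_mem _ (monomial_mem_supported ?_ _) _) _
  intro s hs
  have hs' : s ∈ (m.filter (· ∉ B)).support := by exact_mod_cast hs
  rw [Finsupp.support_filter, Finset.mem_filter] at hs'
  exact ⟨hsub (by exact_mod_cast hs'.1), hs'.2⟩

variable {ι : Type*} {B : ι → Set S} [∀ j, DecidablePred (· ∈ B j)]
  {l : ι → MvPolynomial S k →ₗ[k] k}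

theorem sliceL_mem_supported {T : Set S} {f : MvPolynomial S k} (hf : f ∈ supported k T)
    (L : List ι) : sliceL B l L f ∈ supported k (T ∩ {s | ∀ j ∈ L, s ∉ B j}) := by
  induction L with
  | nil => simpa [sliceL_nil] using hf
  | cons j L ih =>
    rw [sliceL_cons]
    refine supported_mono ?_ (slice_mem_supported' (B j) (l j) ih)
    rintro s ⟨⟨h1, h2⟩, h3⟩
    refine ⟨h1, ?_⟩
    intro i hi
    rcases List.mem_cons.mp hi with rfl | hi
    · exact h3
    · exact h2 i hi

theorem sliceL_mem_of_iSup {G : ι → Set (MvPolynomial S k)}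
    (hB : Pairwise (Function.onFun Disjoint B)) (hG : ∀ j, G j ⊆ supported k (B j))
    (hl : ∀ j, ∀ f ∈ Ideal.span (G j), l j f = 0) {L : List ι} {j : ι} (hj : j ∉ L)
    (hL : ∀ i, i ≠ j → i ∈ L)
    {f : MvPolynomial S k} (hf : f ∈ ⨆ j, Ideal.span (G j)) :
    sliceL B l L f ∈ Ideal.span (G j) := by
  refine Submodule.iSup_induction (fun j => Ideal.span (G j))
    (motive := fun f => sliceL B l L f ∈ Ideal.span (G j)) hf ?_ ?_ ?_
  · intro i x hx
    by_cases hij : i = j
    · subst hij
      exact sliceL_mem hB hG hj hx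
    · rw [sliceL_eq_zero hB hG hl (hL i hij) hx]
      exact zero_mem _
  · rw [map_zero]; exact zero_mem _
  · intro x y hx hy
    rw [map_add]; exact add_mem hx hy

/-- Bases adapted to a subspace. -/
theorem exists_adapted (J : Ideal (MvPolynomial S k)) (T : Set S)
    (V : Submodule k (MvPolynomial S k)) :
    ∃ (b : Set (MvPolynomial S k ⧸ J)) (e : b → MvPolynomial S k) (N : Set b),
      (∀ i, e i ∈ supported k T) ∧ (∀ i ∈ N, e i ∈ V) ∧
      LinearIndependent k (fun i => Ideal.Quotient.mk J (e i)) ∧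
      (∀ f ∈ supported k T, ∃ g ∈ Submodule.span k (Set.range e), f - g ∈ J) ∧
      (∀ f ∈ supported k T, f ∈ V → ∃ g ∈ Submodule.span k (e '' N), f - g ∈ J) := by
  classical
  let q : MvPolynomial S k →ₗ[k] (MvPolynomial S k ⧸ J) := (Ideal.Quotient.mkₐ k J).toLinearMap
  let t : Set (MvPolynomial S k ⧸ J) := q '' (supported k T)
  let t' : Set (MvPolynomial S k ⧸ J) := q '' ((supported k T : Set (MvPolynomial S k)) ∩ V)
  obtain ⟨s, hst', hspan', hs⟩ := exists_linearIndependent k t'
  have htt' : t' ⊆ t := by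
    rintro _ ⟨f, hf, rfl⟩
    exact ⟨f, hf.1, rfl⟩
  obtain ⟨b, hbt, hsb, hspan, hb⟩ := exists_linearIndepOn_id_extension hs (hst'.trans htt')
  have hlift : ∀ x : b, ∃ f : MvPolynomial S k, f ∈ supported k T ∧ q f = x ∧
      ((x : MvPolynomial S k ⧸ J) ∈ s → f ∈ V) := by
    intro x
    by_cases hx : (x : MvPolynomial S k ⧸ J) ∈ s
    · obtain ⟨f, hf, hfx⟩ := hst' hx
      exact ⟨f, hf.1, hfx, fun _ => hf.2⟩
    · obtain ⟨f, hf, hfx⟩ := hbt x.2
      exact ⟨f, hf, hfx, fun h => absurd h hx⟩
  choose e he1 he2 he3 using hlift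
  have key : ∀ (N : Set b) (f : MvPolynomial S k), q f ∈ Submodule.span k (Subtype.val '' N) →
      ∃ g ∈ Submodule.span k (e '' N), f - g ∈ J := by
    intro N f hf
    have himg : Subtype.val '' N = q '' (e '' N) := by
      rw [← Set.image_comp]
      exact Set.image_congr fun x _ => (he2 x).symm
    rw [himg, ← Submodule.map_span] at hf
    obtain ⟨g, hg, hgf⟩ := hf
    refine ⟨g, hg, ?_⟩
    rw [← Ideal.Quotient.eq]
    exact hgf.symm
  refine ⟨b, e, {x | (x : MvPolynomial S k ⧸ J) ∈ s}, he1, fun i hi => he3 i hi, ?_, ?_, ?_⟩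
  · have : (fun i => Ideal.Quotient.mk J (e i)) = fun i : b => (i : MvPolynomial S k ⧸ J) := by
      funext i
      exact he2 i
    rw [this]
    exact hb
  · intro f hf
    have h1 : q f ∈ Submodule.span k b := hspan ⟨f, hf, rfl⟩
    have := key Set.univ f (by simpa using h1)
    rwa [Set.image_univ] at this
  · intro f hf hfV
    apply key
    have h1 : q f ∈ Submodule.span k t' := Submodule.subset_span ⟨f, ⟨hf, hfV⟩, rfl⟩
    rw [← hspan'] at h1
    have : Subtype.val '' {x : b | (x : MvPolynomial S k ⧸ J) ∈ s} = s := by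
      ext x
      constructor
      · rintro ⟨y, hy, rfl⟩; exact hy
      · intro hx; exact ⟨⟨x, hsb hx⟩, hx, rfl⟩
    rwa [this]

/-- (K2, abstract form) If all slices of `c` along all blocks but `j` lie in `V j`, for every `j`,
then `c` is a combination of products of elements of the `V j`, modulo the sum of the ideals. -/
theorem exists_span_of_slices [Fintype ι] [DecidableEq ι] {G : ι → Set (MvPolynomial S k)}
    (B : ι → Set S) [∀ j, DecidablePred (· ∈ B j)]
    (hB : Pairwise (Function.onFun Disjoint B)) (hG : ∀ j, G j ⊆ supported k (B j))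
    (V : ι → Submodule k (MvPolynomial S k)) {c : MvPolynomial S k}
    (hc : c ∈ supported k (⋃ j, B j))
    (hV : ∀ (j : ι) (l : ι → MvPolynomial S k →ₗ[k] k),
      (∀ i, ∀ f ∈ Ideal.span (G i), l i f = 0) →
      sliceL B l (Finset.univ.erase j).toList c ∈ V j) :
    ∃ g ∈ Submodule.span k {h | ∃ v : ι → MvPolynomial S k,
        (∀ j, v j ∈ V j ∧ v j ∈ supported k (B j)) ∧ h = ∏ j, v j},
      c - g ∈ ⨆ j, Ideal.span (G j) := by
  classical
  choose b e N he1 he2 he3 he4 he5 using
    fun j => exists_adapted (Ideal.span (G j)) (B j) (V j)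
  obtain ⟨g, hg, hcg⟩ := exists_span_prod (J := fun j => Ideal.span (G j)) hB e he4 hc
  refine ⟨g, ?_, hcg⟩
  obtain ⟨a, rfl⟩ := (Finsupp.mem_span_range_iff_exists_finsupp).mp hg
  rw [Finsupp.sum]
  refine Submodule.sum_mem _ fun f₀ hf₀ => Submodule.smul_mem _ _ (Submodule.subset_span ?_)
  refine ⟨fun j => e j (f₀ j), fun j => ⟨?_, he1 j _⟩, rfl⟩
  by_contra hnot
  have hjN : f₀ j ∉ N j := fun h => hnot (he2 j _ h)
  -- the dual functionals
  choose φ hφ1 hφ0 using fun i => exists_dual (he3 i) (f₀ i)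
  let l : ι → MvPolynomial S k →ₗ[k] k := fun i =>
    (φ i).comp (Ideal.Quotient.mkₐ k (Ideal.span (G i))).toLinearMap
  have hl : ∀ i, ∀ f ∈ Ideal.span (G i), l i f = 0 := by
    intro i f hf
    have : Ideal.Quotient.mk (Ideal.span (G i)) f = 0 := Ideal.Quotient.eq_zero_iff_mem.mpr hf
    simp [l, this]
  have hu := hV j l hl
  have hjL : j ∉ (Finset.univ.erase j).toList := by simp
  have hL : ∀ i, i ≠ j → i ∈ (Finset.univ.erase j).toList := by
    intro i hi; simpa using hi
  set Lj := (Finset.univ.erase j).toList with hLj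
  have hJ := sliceL_mem_of_iSup (B := B) (l := l) hB hG hl hjL hL hcg
  have husup : sliceL B l Lj c ∈ supported k (B j) := by
    refine supported_mono ?_ (sliceL_mem_supported (B := B) (l := l) hc Lj)
    rintro s ⟨h1, h2⟩
    obtain ⟨i, hi⟩ := Set.mem_iUnion.mp h1
    by_cases hij : i = j
    · exact hij ▸ hi
    · exact absurd hi (h2 i (hL i hij))
  obtain ⟨w, hw, hw'⟩ := he5 j _ husup hu
  -- the functional `l j` kills the slice
  have hlw : l j w = 0 := by
    have : ∀ x ∈ Submodule.span k (e j '' N j), l j x = 0 := by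
      intro x hx
      induction hx using Submodule.span_induction with
      | mem x hx =>
        obtain ⟨i, hi, rfl⟩ := hx
        exact hφ0 j i (fun h => hjN (h ▸ hi))
      | zero => exact map_zero _
      | add x y _ _ hx hy => rw [map_add, hx, hy, add_zero]
      | smul r x _ hx => rw [map_smul, hx, smul_zero]
    exact this w hw
  have h1 : l j (sliceL B l Lj c) = 0 := by
    have := hl j _ hw'
    rw [map_sub, sub_eq_zero] at this
    rw [this, hlw]
  have h2 : l j (sliceL B l Lj (a.sum fun i r => r • ∏ j, e j (i j))) = 0 := by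
    have := hl j _ hJ
    rw [map_sub, map_sub, h1, zero_sub, neg_eq_zero] at this
    exact this
  have hval : ∀ f : (∀ j, b j), l j (sliceL B l Lj (∏ i, e i (f i))) =
      ∏ i, l i (e i (f i)) := by
    intro f
    have hprod : (∏ i, e i (f i)) = e j (f j) * (Lj.map fun i => e i (f i)).prod := by
      rw [hLj, Finset.prod_map_toList]
      exact (Finset.mul_prod_erase Finset.univ (fun i => e i (f i)) (Finset.mem_univ j)).symm
    have hsup : ∀ i ∈ Lj, e j (f j) ∈ supported k (B i)ᶜ := by
      intro i hi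
      have hij : j ≠ i := fun h => hjL (h ▸ hi)
      exact supported_mono (hB hij).subset_compl_right (he1 j _)
    rw [hprod, sliceL_mul_left hsup,
      sliceL_prod hB (Finset.nodup_toList _) (v := fun i => e i (f i)) (fun i => he1 i _),
      mul_comm, ← smul_eq_C_mul, map_smul, smul_eq_mul, Finset.prod_map_toList]
    exact Finset.prod_erase_mul Finset.univ (fun i => l i (e i (f i))) (Finset.mem_univ j)
  rw [Finsupp.sum, map_sum, map_sum, Finset.sum_eq_single_of_mem f₀ hf₀] at h2
  · rw [map_smul, map_smul, hval] at h2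
    have : ∏ i, l i (e i (f₀ i)) = 1 := Finset.prod_eq_one fun i _ => hφ1 i
    rw [this, smul_eq_mul, mul_one] at h2
    exact (Finsupp.mem_support_iff.mp hf₀) h2
  · intro f _ hne
    obtain ⟨i, hi⟩ : ∃ i, f i ≠ f₀ i := by
      by_contra h
      push Not at h
      exact hne (funext h)
    have : l i (e i (f i)) = 0 := hφ0 i (f i) hi
    rw [map_smul, map_smul, hval, Finset.prod_eq_zero (Finset.mem_univ i) this, smul_zero]

end Vale.Agent.P066.Lab
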