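import Vale.Agent.P066.Lab.Deriv
import Vale.Agent.P066.Lab.Kun2

/-!
Kuenneth for the coefficient spaces `Gc c`: `Gc c = ⨂ V_block`.
-/

set_option autoImplicit false

open Finset MvPolynomial

namespace Vale.Agent.P066.Lab

noncomputable section

variable {S : Type} [Fintype S] [DecidableEq S]
variable {k : Type} [Field k] {a : S → S → ℕ} {θ : S → ℤ}

/-- `T_m` of a polynomial in the variables of `B` only involves the `U_{m s}`, `s ∈ B`. -/
theorem Tc_mem_supported (m : S → ℕ) {B : Set S} {u : MvPolynomial S k} (hu : u ∈ supported k B) :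
    Tc k m u ∈ supported (MvPolynomial S k) (m '' B) := by
  rw [supported_eq_adjoin_X] at hu
  induction hu using Algebra.adjoin_induction with
  | mem x hx =>
    obtain ⟨s, hs, rfl⟩ := hx
    rw [Tc_X]
    refine add_mem ?_ ?_
    · exact algebraMap_mem (supported (MvPolynomial S k) (m '' B)) (X s : MvPolynomial S k)
    · rw [X_mem_supported]
      exact ⟨s, hs, rfl⟩
  | algebraMap r =>
    rw [AlgHom.commutes]
    exact algebraMap_mem (supported (MvPolynomial S k) (m '' B)) (C r : MvPolynomial S k)
  | add x y _ _ hx hy => rw [map_add]; exact add_mem hx hy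
  | mul x y _ _ hx hy => rw [map_mul]; exact mul_mem hx hy

theorem coeff_Tc_eq_zero_sup (m : S → ℕ) {B : Set S} {u : MvPolynomial S k} (hu : u ∈ supported k B)
    {α : ℕ →₀ ℕ} {p : ℕ} (hp : α p ≠ 0) (hpB : p ∉ m '' B) : coeff α (Tc k m u) = 0 := by
  by_contra h
  have h1 := Tc_mem_supported m hu
  have h2 : α ∈ (Tc k m u).support := by rwa [mem_support_iff]
  apply hpB
  apply mem_supported.mp h1
  rw [Finset.mem_coe, mem_vars_iff_mem_support]
  exact ⟨α, h2, by simpa using hp⟩

theorem coeff_Tc_mem_supported (m : S → ℕ) {B : Set S} {u : MvPolynomial S k}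
    (hu : u ∈ supported k B) (α : ℕ →₀ ℕ) : coeff α (Tc k m u) ∈ supported k B := by
  classical
  rw [supported_eq_adjoin_X] at hu
  induction hu using Algebra.adjoin_induction generalizing α with
  | mem x hx =>
    obtain ⟨s, hs, rfl⟩ := hx
    rw [Tc_X, coeff_add, coeff_C, coeff_X]
    refine add_mem ?_ ?_
    · split_ifs
      · rw [X_mem_supported]; exact hs
      · exact zero_mem _
    · split_ifs
      · exact one_mem _
      · exact zero_mem _
  | algebraMap r =>
    rw [AlgHom.commutes]
    have : (algebraMap k (MvPolynomial ℕ (MvPolynomial S k))) r = C (C r) := rfl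
    rw [this, coeff_C]
    split_ifs
    · exact algebraMap_mem (supported k B) r
    · exact zero_mem _
  | add x y _ _ hx hy => rw [map_add, coeff_add]; exact add_mem (hx α) (hy α)
  | mul x y _ _ hx hy =>
    rw [map_mul, coeff_mul]
    exact Subalgebra.sum_mem _ fun q _ => mul_mem (hx _) (hy _)

/-- Slices commute with the coefficients of `T_m` in the variables of the other blocks. -/
theorem coeff_Tc_slice (m : S → ℕ) (B : Set S) [DecidablePred (· ∈ B)]
    (l : MvPolynomial S k →ₗ[k] k) {α : ℕ →₀ ℕ} (hα : ∀ p ∈ m '' B, α p = 0)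
    (f : MvPolynomial S k) :
    coeff α (Tc k m (slice B l f)) = slice B l (coeff α (Tc k m f)) := by
  classical
  induction f using induction_blocks (B := B) with
  | hadd f g hf hg =>
    rw [map_add, map_add, coeff_add, hf, hg, map_add, coeff_add, map_add]
  | h0 => simp
  | hmul u hu g hg =>
    rw [slice_mul_of_supported B l hu hg, map_mul, map_mul]
    have hC : Tc k m (C (l u)) = C (C (l u)) := by
      have : (C (l u) : MvPolynomial S k) = algebraMap k _ (l u) := rfl
      rw [this, AlgHom.commutes]
      rfl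
    rw [hC, coeff_C_mul, coeff_mul]
    rw [Finset.sum_eq_single (0, α)]
    · rw [coeff_zero_Tc, slice_mul_of_supported B l hu (coeff_Tc_mem_supported m hg α)]
    · rintro ⟨β, γ⟩ hβγ hne
      rw [HasAntidiagonal.mem_antidiagonal] at hβγ
      have hβ : β ≠ 0 := by
        rintro rfl
        apply hne
        rw [zero_add] at hβγ
        simp at hβγ
        rw [hβγ]
      obtain ⟨p, hp⟩ : ∃ p, β p ≠ 0 := by
        by_contra h
        push Not at h
        exact hβ (Finsupp.ext h)
      have hpB : p ∉ m '' B := by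
        intro h
        have h1 := hα p h
        have h2 := DFunLike.congr_fun hβγ p
        simp only [Finsupp.add_apply] at h2
        omega
      rw [coeff_Tc_eq_zero_sup m hu hp hpB, zero_mul]
    · intro h
      exact absurd (HasAntidiagonal.mem_antidiagonal.mpr (zero_add α)) h

/-- generators of the ideal of a block -/
def gensB (k : Type) [Field k] (a : S → S → ℕ) (θ : S → ℤ) (B : Finset S) :
    Set (MvPolynomial S k) :=
  {f | ∃ X ⊆ B, 0 < wS θ X ∧ f = KX k a B X}

theorem QP_mem_supported {B : Set S} {E : Finset (S × S)} (h : ∀ p ∈ E, p.1 ∈ B ∧ p.2 ∈ B) :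
    QP k a E ∈ supported k B := by
  unfold QP
  refine Subalgebra.prod_mem _ fun p hp => Subalgebra.pow_mem _ (sub_mem ?_ ?_) _
  · rw [X_mem_supported]; exact (h p hp).2
  · rw [X_mem_supported]; exact (h p hp).1

theorem gensB_supported (B : Finset S) : gensB k a θ B ⊆ supported k (B : Set S) := by
  rintro f ⟨X, hX, _, rfl⟩
  refine QP_mem_supported fun p hp => ?_
  rw [mem_product, mem_sdiff] at hp
  exact ⟨hX hp.1, hp.2.1⟩

theorem J0_eq_span (B : Finset S) : J0 k a θ B = Ideal.span (gensB k a θ B) := rfl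

theorem J0_emptyset : J0 k a θ ∅ = ⊥ := by
  rw [J0_eq_span, Ideal.span_eq_bot]
  rintro f ⟨X, hX, h0, _⟩
  rw [subset_empty] at hX
  subst hX
  simp [wS] at h0

/-- the finite set of colours -/
abbrev Col (c : S → ℕ) : Type := ↥(univ.image c)

theorem JC_eq_iSup_col (c : S → ℕ) :
    JC k a θ c = ⨆ i : Col c, J0 k a θ (blk c i) := by
  refine le_antisymm (iSup_le fun i => ?_) (iSup_le fun i => J0_le_JC c _)
  by_cases hi : i ∈ univ.image c
  · exact le_iSup (fun i : Col c => J0 k a θ (blk c i)) ⟨i, hi⟩
  · have : blk c i = ∅ := by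
      ext s
      simp only [mem_blk, notMem_empty, iff_false]
      rintro rfl
      exact hi (mem_image_of_mem c (mem_univ s))
    rw [this, J0_emptyset]
    exact bot_le

theorem blk_pairwise (c : S → ℕ) :
    Pairwise (Function.onFun Disjoint fun i : Col c => (↑(blk c i) : Set S)) := by
  intro i j hij
  rw [Function.onFun, Set.disjoint_left]
  intro s hs hs'
  apply hij
  apply Subtype.ext
  rw [Finset.mem_coe, mem_blk] at hs hs'
  rw [← hs, hs']

theorem iUnion_blk (c : S → ℕ) : (⋃ i : Col c, (↑(blk c i) : Set S)) = Set.univ := by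
  refine Set.eq_univ_of_forall fun s => Set.mem_iUnion.mpr
    ⟨⟨c s, mem_image_of_mem c (mem_univ s)⟩, ?_⟩
  simp

/-- The level condition for the refinements of the block `i` alone. -/
def VLev (k : Type) [Field k] (a : S → S → ℕ) (θ : S → ℤ) (c : S → ℕ) (i : ℕ)
    (f : MvPolynomial S k) : Prop :=
  ∀ m : S → ℕ, Zc θ m → Ref m c → (∀ s t, c s = c t → c s ≠ i → m s = m t) →
    Lev k a θ m (nb c - 2 * CC a c) f

/-- `V_B` for the block `B` of colour `i`, in place (polynomials in the variables of the block). -/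
def VBlk (k : Type) [Field k] (a : S → S → ℕ) (θ : S → ℤ) (c : S → ℕ) (i : ℕ)
    (f : MvPolynomial S k) : Prop :=
  f ∈ supported k (↑(blk c i) : Set S) ∧ VLev k a θ c i f

/-- `VLev` as a subspace -/
def VSub (k : Type) [Field k] (a : S → S → ℕ) (θ : S → ℤ) (c : S → ℕ) (i : ℕ) :
    Submodule k (MvPolynomial S k) where
  carrier := {f | VLev k a θ c i f}
  add_mem' hf hg := fun m h1 h2 h3 => (hf m h1 h2 h3).add (hg m h1 h2 h3)
  zero_mem' := fun _ _ _ _ => Lev.of_mem _ (zero_mem _)
  smul_mem' r _ hf := fun m h1 h2 h3 => by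
    rw [smul_eq_C_mul]
    exact (hf m h1 h2 h3).C_mul r

theorem mem_VSub {c : S → ℕ} {i : ℕ} {f : MvPolynomial S k} :
    f ∈ VSub k a θ c i ↔ VLev k a θ c i f := Iff.rfl

theorem sliceL_mem_span {ι : Type*} {B : ι → Set S} [∀ j, DecidablePred (· ∈ B j)]
    {l : ι → MvPolynomial S k →ₗ[k] k} {G : Set (MvPolynomial S k)} {L : List ι}
    (hG : ∀ j ∈ L, G ⊆ supported k (B j)ᶜ) {f : MvPolynomial S k} (hf : f ∈ Ideal.span G) :
    sliceL B l L f ∈ Ideal.span G := by
  induction L with
  | nil => exact hf
  | cons j L ih =>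
    rw [sliceL_cons]
    exact slice_mem_of_mem (B j) (l j) (hG j List.mem_cons_self)
      (ih fun i hi => hG i (List.mem_cons_of_mem _ hi))

/-- Slices along the blocks other than `i` preserve `JC m`, if `m` only refines the block `i`. -/
theorem sliceL_mem_JC {c m : S → ℕ} (href : Ref m c) {i : Col c}
    (htriv : ∀ s t, c s = c t → c s ≠ i → m s = m t)
    {l : Col c → MvPolynomial S k →ₗ[k] k}
    (hl : ∀ j : Col c, ∀ f ∈ J0 k a θ (blk c j), l j f = 0) {L : List (Col c)}
    (hi : i ∉ L) (hL : ∀ j, j ≠ i → j ∈ L) {f : MvPolynomial S k} (hf : f ∈ JC k a θ m) :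
    sliceL (fun j : Col c => (↑(blk c j) : Set S)) l L f ∈ JC k a θ m := by
  refine Submodule.iSup_induction (fun p => J0 k a θ (blk m p))
    (motive := fun f => sliceL (fun j : Col c => (↑(blk c j) : Set S)) l L f ∈ JC k a θ m)
    hf ?_ ?_ ?_
  · intro p x hx
    by_cases hp : (blk m p).Nonempty
    · obtain ⟨s, hs⟩ := hp
      rw [mem_blk] at hs
      by_cases hsi : c s = i
      · -- the block lies in the block `i` of `c`
        refine J0_le_JC m p ?_
        rw [J0_eq_span] at hx ⊢
        refine sliceL_mem_span (fun j hj => ?_) hx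
        refine (gensB_supported (blk m p)).trans (supported_mono ?_)
        intro t ht htj
        rw [Finset.mem_coe, mem_blk] at ht htj
        apply hi
        have h1 : c s = c t := href s t (hs.trans ht.symm)
        have : j = i := Subtype.ext (by rw [← htj, ← h1, hsi])
        exact this ▸ hj
      · -- the block is a block of `c`
        have hblk : blk m p = blk c (c s) := by
          ext t
          rw [mem_blk, mem_blk]
          constructor
          · intro ht
            exact (href s t (hs.trans ht.symm)).symm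
          · intro ht
            rw [← hs]
            exact (htriv s t ht.symm hsi).symm
        rw [hblk] at hx
        have hcs : c s ∈ univ.image c := mem_image_of_mem c (mem_univ s)
        have hz := sliceL_eq_zero (B := fun j : Col c => (↑(blk c j) : Set S)) (l := l)
          (G := fun j : Col c => gensB k a θ (blk c j)) (blk_pairwise c)
          (fun j => gensB_supported _) hl (i := ⟨c s, hcs⟩)
          (hL ⟨c s, hcs⟩ fun h => hsi (congrArg Subtype.val h)) hx
        rw [hz]
        exact zero_mem _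
    · rw [not_nonempty_iff_eq_empty] at hp
      rw [hp, J0_emptyset] at hx
      rw [(Submodule.mem_bot _).mp hx, map_zero]
      exact zero_mem _
  · rw [map_zero]; exact zero_mem _
  · intro x y hx hy
    rw [map_add]; exact add_mem hx hy

theorem coeff_Tc_sliceL {c m : S → ℕ} (href : Ref m c) {i : Col c}
    {l : Col c → MvPolynomial S k →ₗ[k] k} {L : List (Col c)} (hi : i ∉ L)
    {α : ℕ →₀ ℕ} (hα : ∀ p, α p ≠ 0 → p ∈ m '' (↑(blk c i) : Set S)) (f : MvPolynomial S k) :
    coeff α (Tc k m (sliceL (fun j : Col c => (↑(blk c j) : Set S)) l L f)) =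
      sliceL (fun j : Col c => (↑(blk c j) : Set S)) l L (coeff α (Tc k m f)) := by
  induction L with
  | nil => rfl
  | cons j L ih =>
    rw [List.mem_cons, not_or] at hi
    rw [sliceL_cons, sliceL_cons, coeff_Tc_slice, ih hi.2]
    intro p hp
    by_contra h
    obtain ⟨s, hs, rfl⟩ := hp
    obtain ⟨t, ht, hts⟩ := hα _ h
    rw [Finset.mem_coe, mem_blk] at hs ht
    exact hi.1 (Subtype.ext (by rw [← ht, ← hs]; exact href t s hts))

/-- (K2, first half) The slices of an element of `Gc c` lie in `V` of the block. -/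
theorem sliceL_VLev {c : S → ℕ} {f : MvPolynomial S k} (hf : Gc k a θ c f) {i : Col c}
    {l : Col c → MvPolynomial S k →ₗ[k] k}
    (hl : ∀ j : Col c, ∀ f ∈ J0 k a θ (blk c j), l j f = 0) {L : List (Col c)}
    (hi : i ∉ L) (hL : ∀ j, j ≠ i → j ∈ L) :
    VLev k a θ c i (sliceL (fun j : Col c => (↑(blk c j) : Set S)) l L f) := by
  intro m hm href htriv α hα
  by_cases h : ∀ p, α p ≠ 0 → p ∈ m '' (↑(blk c i) : Set S)
  · rw [coeff_Tc_sliceL href hi h]
    exact sliceL_mem_JC href htriv hl hi hL (hf m hm href α hα)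
  · push Not at h
    obtain ⟨p, hp, hpB⟩ := h
    have hsup : sliceL (fun j : Col c => (↑(blk c j) : Set S)) l L f ∈
        supported k (↑(blk c i) : Set S) := by
      refine supported_mono ?_ (sliceL_mem_supported (T := Set.univ) (by simp) L)
      rintro s ⟨-, hs⟩
      rw [Finset.mem_coe, mem_blk]
      by_contra hne
      have hcs : c s ∈ univ.image c := mem_image_of_mem c (mem_univ s)
      refine hs ⟨c s, hcs⟩ (hL _ fun h => hne (congrArg Subtype.val h)) ?_
      simp
    rw [coeff_Tc_eq_zero_sup m hsup hp hpB]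
    exact zero_mem _

/-- (K2, first half) `Gc c ⊆ span of products of elements of the V_block + JC c`. -/
theorem exists_span_of_Gc {c : S → ℕ} {f : MvPolynomial S k} (hf : Gc k a θ c f) :
    ∃ g ∈ Submodule.span k {h | ∃ v : Col c → MvPolynomial S k,
        (∀ i : Col c, VBlk k a θ c i (v i)) ∧ h = ∏ i, v i}, f - g ∈ JC k a θ c := by
  obtain ⟨g, hg, hg'⟩ := exists_span_of_slices
    (G := fun i : Col c => gensB k a θ (blk c i))
    (fun i : Col c => (↑(blk c i) : Set S)) (blk_pairwise c) (fun i => gensB_supported _)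
    (fun i => VSub k a θ c i) (c := f) (by rw [iUnion_blk]; simp)
    (fun j l hl => sliceL_VLev hf hl (by simp) (by intro i hi; simpa using hi))
  refine ⟨g, ?_, ?_⟩
  · refine Submodule.span_mono ?_ hg
    rintro h ⟨v, hv, rfl⟩
    exact ⟨v, fun i => ⟨(hv i).2, (hv i).1⟩, rfl⟩
  · rw [JC_eq_iSup_col]
    exact hg'

end

end Vale.Agent.P066.Lab
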