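import Vale.Agent.P066.Lab.Onl

/-!
# Additivity of `CC` and `nb` over the blocks, subtype form
-/

set_option autoImplicit false
set_option linter.unusedSectionVars false
set_option linter.unusedVariables false

open Finset MvPolynomial

namespace Vale.Agent.P066.Lab

noncomputable section

variable {S : Type} [Fintype S] [DecidableEq S] {k : Type} [Field k] {a : S → S → ℕ} {θ : S → ℤ}
variable {c m : S → ℕ}

/-- sums over the particles of a block -/
theorem sum_subtype_blk (c : S → ℕ) (i : ℕ) (f : S → ℤ) :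
    ∑ s : {s // c s = i}, f s = ∑ s ∈ blk c i, f s := by
  rw [← Finset.sum_subtype_of_mem (p := fun s => c s = i) f (fun s hs => mem_blk.1 hs)]
  refine Finset.sum_congr ?_ fun _ _ => rfl
  ext s
  simp [blk, s.2]

theorem wS_sub (i : ℕ) (X : Finset {s // c s = i}) :
    wS (fun s : {s // c s = i} => θ s) X = wS θ (X.map (Function.Embedding.subtype _)) := by
  unfold wS
  rw [sum_map]
  rfl

theorem SymZ_sub (hsym : SymZ a θ) (c : S → ℕ) (i : ℕ) :
    SymZ (fun s t : {s // c s = i} => a s t) (fun s => θ s) := by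
  intro X Y hd hX hY
  have h1 := hsym (X.map (Function.Embedding.subtype _)) (Y.map (Function.Embedding.subtype _))
    ((disjoint_map _).2 hd) (by rw [← wS_sub]; exact hX) (by rw [← wS_sub]; exact hY)
  unfold ar at h1 ⊢
  simp only [sum_map] at h1
  exact h1

theorem Zc_sub (hm : Zc θ m) (h : Ref m c) (i : ℕ) :
    Zc (fun s : {s // c s = i} => θ s) (fun s => m s) := by
  intro j
  rw [wS_sub]
  rcases (blk (fun s : {s // c s = i} => m s) j).eq_empty_or_nonempty with h0 | ⟨s, hs⟩
  · rw [h0]; simp [wS]
  · have h1 : (blk (fun s : {s // c s = i} => m s) j).map (Function.Embedding.subtype _) =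
        blk m j := by
      ext t
      simp only [mem_map, mem_blk, Function.Embedding.subtype_apply, Subtype.exists,
        exists_and_left, exists_prop, exists_eq_right_right]
      constructor
      · rintro ⟨h2, _⟩; exact h2
      · intro h2
        refine ⟨h2, ?_⟩
        have h3 : m s = j := (mem_blk (c := fun s : {s // c s = i} => m s)).1 hs
        rw [← s.2]
        exact h t s (h2.trans h3.symm)
    rw [h1]
    exact hm j

/-- the arrows between different blocks of `m` inside the same block of `c` -/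
theorem two_CC_sub (hsym : SymZ a θ) (hc : Zc θ c) (hm : Zc θ m) (h : Ref m c) :
    2 * (CC a m - CC a c) =
      ∑ p ∈ univ.filter (fun p : S × S => c p.1 = c p.2 ∧ m p.1 ≠ m p.2), (a p.1 p.2 : ℤ) := by
  have h1 := two_CC hsym hm
  have h2 := two_CC hsym hc
  have h3 : (univ.filter fun p : S × S => m p.1 ≠ m p.2) =
      (univ.filter fun p : S × S => c p.1 ≠ c p.2) ∪
      univ.filter fun p : S × S => c p.1 = c p.2 ∧ m p.1 ≠ m p.2 := by
    ext p
    simp only [mem_filter, mem_univ, true_and, mem_union]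
    have := h p.1 p.2
    tauto
  have h4 : Disjoint (univ.filter fun p : S × S => c p.1 ≠ c p.2)
      (univ.filter fun p : S × S => c p.1 = c p.2 ∧ m p.1 ≠ m p.2) := by
    rw [disjoint_left]
    intro p hp hp'
    exact (mem_filter.1 hp).2 (mem_filter.1 hp').2.1
  rw [h3, sum_union h4] at h1
  linarith

/-- (A1) -/
theorem CC_add_sum (hsym : SymZ a θ) (hc : Zc θ c) (hm : Zc θ m) (h : Ref m c) :
    CC a m = CC a c + ∑ i : ↥(univ.image c),
      CC (fun s t : {s // c s = (i : ℕ)} => a s t) (fun s => m s) := by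
  have h1 := two_CC_sub hsym hc hm h
  have h2 : ∀ i : ℕ, 2 * CC (fun s t : {s // c s = i} => a s t) (fun s => m s) =
      ∑ p ∈ (univ.filter (fun p : S × S => c p.1 = c p.2 ∧ m p.1 ≠ m p.2)).filter
        (fun p => c p.1 = i), (a p.1 p.2 : ℤ) := by
    intro i
    rw [two_CC (SymZ_sub hsym c i) (Zc_sub hm h i)]
    have h3 : (univ.filter (fun p : S × S => c p.1 = c p.2 ∧ m p.1 ≠ m p.2)).filter
        (fun p => c p.1 = i) = ((blk c i) ×ˢ (blk c i)).filter fun p => m p.1 ≠ m p.2 := by
      ext p
      simp only [mem_filter, mem_univ, true_and, mem_product, mem_blk]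
      constructor
      · rintro ⟨⟨h4, h5⟩, h6⟩
        exact ⟨⟨h6, h4 ▸ h6⟩, h5⟩
      · rintro ⟨⟨h4, h5⟩, h6⟩
        exact ⟨⟨h4.trans h5.symm, h6⟩, h4⟩
    rw [h3, sum_filter, sum_filter, Fintype.sum_prod_type, sum_product,
      ← sum_subtype_blk c i (fun s => ∑ t ∈ blk c i, if m s ≠ m t then (a s t : ℤ) else 0)]
    refine sum_congr rfl fun s _ => ?_
    rw [← sum_subtype_blk c i (fun t => if m s ≠ m t then (a s t : ℤ) else 0)]
  have h3 : ∑ i : ↥(univ.image c), 2 * CC (fun s t : {s // c s = (i : ℕ)} => a s t)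
      (fun s => m s) = 2 * (CC a m - CC a c) := by
    rw [h1, ← sum_fiberwise_of_maps_to (t := univ.image c) (g := fun p : S × S => c p.1)
      (fun p _ => mem_image_of_mem c (mem_univ p.1)), ← sum_coe_sort (univ.image c)]
    exact sum_congr rfl fun i _ => h2 i
  rw [← mul_sum] at h3
  linarith

/-- (A2) -/
theorem nb_eq_sum (h : Ref m c) :
    nb m = ∑ i : ↥(univ.image c), nb (fun s : {s // c s = (i : ℕ)} => m s) := by
  unfold nb
  rw [card_image_eq_sum h, ← sum_coe_sort (univ.image c)]
  push_cast
  refine sum_congr rfl fun i _ => ?_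
  congr 2
  ext x
  simp only [mem_image, mem_blk, mem_univ, true_and, Subtype.exists, exists_prop]

end

end Vale.Agent.P066.Lab
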