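import Vale.Agent.P066.Lab.KunGc
import Vale.Agent.P066.Lab.EQ
import Vale.Agent.P066.Lab.Onl2

/-!
Kuenneth for the coefficient spaces `Gc c`, with the blocks as subtypes.
-/

set_option autoImplicit false
set_option linter.unusedSectionVars false

open Finset MvPolynomial

namespace Vale.Agent.P066.Lab

noncomputable section

variable {S : Type} [Fintype S] [DecidableEq S]
variable {k : Type} [Field k] {a : S → S → ℕ} {θ : S → ℤ}

/-- the block of colour `i` as a type -/
abbrev BT (c : S → ℕ) (i : ℕ) : Type := {s : S // c s = i}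

/-- the arrows inside a block -/
abbrev aB (a : S → S → ℕ) (c : S → ℕ) (i : ℕ) : BT c i → BT c i → ℕ := fun s t => a s t

/-- the stability on a block -/
abbrev tB (θ : S → ℤ) (c : S → ℕ) (i : ℕ) : BT c i → ℤ := fun s => θ s

/-- a colouring of the block `i` extended by `c` -/
def extc (c : S → ℕ) (i : ℕ) (m' : BT c i → ℕ) : S → ℕ :=
  fun s => if h : c s = i then 2 * m' ⟨s, h⟩ else 2 * c s + 1

theorem extc_of_eq {c : S → ℕ} {i : ℕ} (m' : BT c i → ℕ) {s : S} (h : c s = i) :
    extc c i m' s = 2 * m' ⟨s, h⟩ := by simp [extc, h]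

theorem extc_of_ne {c : S → ℕ} {i : ℕ} (m' : BT c i → ℕ) {s : S} (h : c s ≠ i) :
    extc c i m' s = 2 * c s + 1 := by simp [extc, h]

theorem extc_comp (c : S → ℕ) (i : ℕ) (m' : BT c i → ℕ) :
    (fun s : BT c i => extc c i m' s) = (fun p => 2 * p) ∘ m' := by
  funext s
  rw [extc_of_eq m' s.2]
  rfl

theorem extc_ref (c : S → ℕ) (i : ℕ) (m' : BT c i → ℕ) : Ref (extc c i m') c := by
  intro s t hst
  by_cases hs : c s = i <;> by_cases ht : c t = i
  · rw [hs, ht]
  · rw [extc_of_eq m' hs, extc_of_ne m' ht] at hst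
    omega
  · rw [extc_of_ne m' hs, extc_of_eq m' ht] at hst
    omega
  · rw [extc_of_ne m' hs, extc_of_ne m' ht] at hst
    omega

theorem extc_triv (c : S → ℕ) (i : ℕ) (m' : BT c i → ℕ) (s t : S) (h : c s = c t)
    (hs : c s ≠ i) : extc c i m' s = extc c i m' t := by
  rw [extc_of_ne m' hs, extc_of_ne m' (h ▸ hs), h]

theorem extc_zc {c : S → ℕ} (hc : Zc θ c) (i : ℕ) {m' : BT c i → ℕ} (hm : Zc (tB θ c i) m') :
    Zc θ (extc c i m') := by
  intro j
  by_cases h : (blk (extc c i m') j).Nonempty
  · obtain ⟨s, hs⟩ := h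
    rw [mem_blk] at hs
    by_cases hsi : c s = i
    · rw [extc_of_eq m' hsi] at hs
      have : blk (extc c i m') j = (blk m' (m' ⟨s, hsi⟩)).image Subtype.val := by
        ext t
        rw [mem_blk, mem_image]
        constructor
        · intro ht
          have hti : c t = i := by
            by_contra hne
            rw [extc_of_ne m' hne] at ht
            omega
          rw [extc_of_eq m' hti] at ht
          refine ⟨⟨t, hti⟩, ?_, rfl⟩
          rw [mem_blk]
          omega
        · rintro ⟨⟨t', hti⟩, ht', rfl⟩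
          rw [mem_blk] at ht'
          rw [extc_of_eq m' hti]
          omega
      rw [this, wS_image (e := (Subtype.val : BT c i → S)) Subtype.val_injective (fun _ => rfl)]
      exact hm _
    · rw [extc_of_ne m' hsi] at hs
      have : blk (extc c i m') j = blk c (c s) := by
        ext t
        rw [mem_blk, mem_blk]
        constructor
        · intro ht
          exact (extc_ref c i m' s t (by rw [extc_of_ne m' hsi, hs, ht])).symm
        · intro ht
          rw [← extc_triv c i m' s t ht.symm hsi, extc_of_ne m' hsi, hs]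
      rw [this]
      exact hc _
  · rw [not_nonempty_iff_eq_empty] at h
    rw [h]
    simp [wS]

theorem val_sat {c m : S → ℕ} (href : Ref m c) (i : ℕ) :
    ∀ (s : S) (s' : BT c i), m s' = m s → s ∈ Set.range (Subtype.val : BT c i → S) := by
  intro s s' h
  exact ⟨⟨s, by rw [← href _ _ h, s'.2]⟩, rfl⟩

/-- Slices along the blocks other than `i` map `JC m` to the ideal of the block, if `m` only
refines the block `i`. -/
theorem sliceL_mem_map_JC {c m : S → ℕ} (href : Ref m c) {i : Col c}
    (htriv : ∀ s t, c s = c t → c s ≠ i → m s = m t)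
    {l : Col c → MvPolynomial S k →ₗ[k] k}
    (hl : ∀ j : Col c, ∀ f ∈ J0 k a θ (blk c j), l j f = 0) {L : List (Col c)}
    (hi : i ∉ L) (hL : ∀ j, j ≠ i → j ∈ L) {f : MvPolynomial S k} (hf : f ∈ JC k a θ m) :
    sliceL (fun j : Col c => (↑(blk c j) : Set S)) l L f ∈
      Ideal.map (rename (Subtype.val : BT c i → S))
        (JC k (aB a c i) (tB θ c i) fun s => m s) := by
  refine Submodule.iSup_induction (fun p => J0 k a θ (blk m p))
    (motive := fun f => sliceL (fun j : Col c => (↑(blk c j) : Set S)) l L f ∈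
      Ideal.map (rename (Subtype.val : BT c i → S))
        (JC k (aB a c i) (tB θ c i) fun s => m s))
    hf ?_ ?_ ?_
  · intro p x hx
    by_cases hp : (blk m p).Nonempty
    · obtain ⟨s, hs⟩ := hp
      rw [mem_blk] at hs
      by_cases hsi : c s = i
      · -- the block lies in the block `i` of `c`
        have hmem : sliceL (fun j : Col c => (↑(blk c j) : Set S)) l L x ∈
            J0 k a θ (blk m p) := by
          rw [J0_eq_span] at hx ⊢
          refine sliceL_mem_span (fun j hj => ?_) hx
          refine (gensB_supported (blk m p)).trans (supported_mono ?_)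
          intro t ht htj
          rw [Finset.mem_coe, mem_blk] at ht htj
          apply hi
          have h1 : c s = c t := href s t (hs.trans ht.symm)
          have : j = i := Subtype.ext (by rw [← htj, ← h1, hsi])
          exact this ▸ hj
        have hne : (blk (m ∘ (Subtype.val : BT c i → S)) p).Nonempty :=
          ⟨⟨s, hsi⟩, by rw [mem_blk]; exact hs⟩
        rw [← blk_comp_image m (val_sat href i) hne,
          ← map_J0 k (a' := aB a c i) (θ' := tB θ c i) Subtype.val_injective
            (fun _ _ => rfl) (fun _ => rfl)] at hmem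
        exact Ideal.map_mono (J0_le_JC _ p) hmem
      · -- the block is a block of `c`
        have hblk : blk m p = blk c (c s) := by
          ext t
          rw [mem_blk, mem_blk]
          constructor
          · intro ht
            exact (href s t (hs.trans ht.symm)).symm
          · intro ht
            rw [← hs]
            exact (htriv s t ht.symm hsi).symm
        rw [hblk] at hx
        have hcs : c s ∈ univ.image c := mem_image_of_mem c (mem_univ s)
        have hz := sliceL_eq_zero (B := fun j : Col c => (↑(blk c j) : Set S)) (l := l)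
          (G := fun j : Col c => gensB k a θ (blk c j)) (blk_pairwise c)
          (fun j => gensB_supported _) hl (i := ⟨c s, hcs⟩)
          (hL ⟨c s, hcs⟩ fun h => hsi (congrArg Subtype.val h)) hx
        rw [hz]
        exact zero_mem _
    · rw [not_nonempty_iff_eq_empty] at hp
      rw [hp, J0_emptyset] at hx
      rw [(Submodule.mem_bot _).mp hx, map_zero]
      exact zero_mem _
  · rw [map_zero]; exact zero_mem _
  · intro x y hx hy
    rw [map_add]; exact add_mem hx hy

/-- `V` of a block: polynomials on the block with all levels `≤ 1`, as a subspace of `k[S]`. -/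
def VB (k : Type) [Field k] (a : S → S → ℕ) (θ : S → ℤ) (c : S → ℕ) (i : ℕ) :
    Submodule k (MvPolynomial S k) where
  carrier := {f | ∃ g : MvPolynomial (BT c i) k, Fil k (aB a c i) (tB θ c i) 1 g ∧
    f = rename Subtype.val g}
  add_mem' := by
    rintro _ _ ⟨f, hf, rfl⟩ ⟨g, hg, rfl⟩
    exact ⟨f + g, fun m hm => (hf m hm).add (hg m hm), by rw [map_add]⟩
  zero_mem' := ⟨0, fun _ _ => Lev.of_mem _ (zero_mem _), by rw [map_zero]⟩
  smul_mem' := by
    rintro r _ ⟨f, hf, rfl⟩
    refine ⟨C r * f, fun m hm => (hf m hm).C_mul r, ?_⟩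
    rw [map_mul, rename_C, smul_eq_C_mul]

theorem mem_VB {c : S → ℕ} {i : ℕ} {f : MvPolynomial S k} :
    f ∈ VB k a θ c i ↔ ∃ g : MvPolynomial (BT c i) k, Fil k (aB a c i) (tB θ c i) 1 g ∧
      f = rename Subtype.val g := Iff.rfl

theorem two_mul_injective : Function.Injective (fun p : ℕ => 2 * p) :=
  fun x y h => by simpa using h

theorem coeff_Tc_extc (c : S → ℕ) (i : ℕ) (m' : BT c i → ℕ) (g : MvPolynomial (BT c i) k)
    (α : ℕ →₀ ℕ) :
    coeff (α.mapDomain fun p => 2 * p) (Tc k (extc c i m') (rename Subtype.val g)) =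
      rename Subtype.val (coeff α (Tc k m' g)) := by
  rw [coeff_Tc_rename]
  have : (extc c i m') ∘ (Subtype.val : BT c i → S) = (fun p => 2 * p) ∘ m' :=
    extc_comp c i m'
  rw [this, Tc_recolour, coeff_rename_mapDomain _ two_mul_injective]

theorem CC_const {S' : Type} [Fintype S'] [DecidableEq S'] (a' : S' → S' → ℕ) (m : S' → ℕ) (n : ℕ)
    (h : ∀ s, m s = n) : CC a' m = 0 := by
  unfold CC
  rw [Finset.filter_false_of_mem, sum_empty]
  intro p _
  rw [h, h]
  exact lt_irrefl _

theorem nb_const {S' : Type} [Fintype S'] [DecidableEq S'] [Nonempty S'] (m : S' → ℕ) (n : ℕ)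
    (h : ∀ s, m s = n) : nb m = 1 := by
  unfold nb
  have : univ.image m = {n} := by
    ext x
    simp only [mem_image, mem_univ, true_and, mem_singleton]
    constructor
    · rintro ⟨s, rfl⟩; exact h s
    · rintro rfl
      obtain ⟨s⟩ := ‹Nonempty S'›
      exact ⟨s, h s⟩
  rw [this, card_singleton]
  rfl

instance BT_nonempty (c : S → ℕ) (i : Col c) : Nonempty (BT c i) := by
  obtain ⟨s, _, hs⟩ := mem_image.mp i.2
  exact ⟨⟨s, hs⟩⟩

theorem card_Col (c : S → ℕ) : ((univ : Finset (Col c)).card : ℤ) = nb c := by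
  rw [card_univ, Fintype.card_coe]
  rfl

theorem CC_extc (hsym : SymZ a θ) {c : S → ℕ} (hc : Zc θ c) (i : Col c) {m' : BT c i → ℕ}
    (hm' : Zc (tB θ c i) m') :
    CC a (extc c i m') = CC a c + CC (aB a c i) m' := by
  rw [CC_add_sum hsym hc (extc_zc hc i hm') (extc_ref c i m'), Finset.sum_eq_single i]
  · have h := extc_comp c i m'
    rw [show (fun s : {s // c s = (i : ℕ)} => extc c i m' s) = (fun p => 2 * p) ∘ m' from h,
      CC_recolour (SymZ_sub hsym c i) two_mul_injective m' hm']
  · intro j _ hj
    refine CC_const _ _ (2 * (j : ℕ) + 1) fun s => ?_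
    have hs : c s ≠ i := by
      rw [s.2]
      exact fun h => hj (Subtype.ext h)
    rw [extc_of_ne m' hs, s.2]
  · intro h
    exact absurd (mem_univ i) h

theorem nb_extc (c : S → ℕ) (i : Col c) (m' : BT c i → ℕ) :
    nb (extc c i m') = nb c + nb m' - 1 := by
  rw [nb_eq_sum (extc_ref c i m'), ← card_Col c, ← Finset.add_sum_erase _ _ (mem_univ i)]
  have h1 : nb (fun s : {s // c s = (i : ℕ)} => extc c i m' s) = nb m' := by
    have h := extc_comp c i m'
    rw [show (fun s : {s // c s = (i : ℕ)} => extc c i m' s) = (fun p => 2 * p) ∘ m' from h,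
      nb_recolour two_mul_injective]
  have h2 : ∑ j ∈ univ.erase i, nb (fun s : {s // c s = (j : ℕ)} => extc c i m' s) =
      ∑ j ∈ univ.erase i, (1 : ℤ) := by
    refine Finset.sum_congr rfl fun j hj => ?_
    have hji : j ≠ i := (mem_erase.mp hj).1
    have : Nonempty {s // c s = (j : ℕ)} := BT_nonempty c j
    refine nb_const _ (2 * (j : ℕ) + 1) fun s => ?_
    have hs : c s ≠ i := by
      rw [s.2]
      exact fun h => hji (Subtype.ext h)
    rw [extc_of_ne m' hs, s.2]
  rw [h1, h2, sum_const, card_erase_of_mem (mem_univ i), nsmul_eq_mul, mul_one]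
  have hpos : 0 < (univ : Finset (Col c)).card := card_pos.mpr ⟨i, mem_univ i⟩
  rw [Nat.cast_sub (by omega)]
  push_cast
  ring

/-- (K2, first half) The slices of an element of `Gc c` lie in `V` of the block. -/
theorem sliceL_mem_VB (hsym : SymZ a θ) {c : S → ℕ} (hc : Zc θ c)
    {f : MvPolynomial S k} (hf : Gc k a θ c f) {i : Col c}
    {l : Col c → MvPolynomial S k →ₗ[k] k}
    (hl : ∀ j : Col c, ∀ f ∈ J0 k a θ (blk c j), l j f = 0) {L : List (Col c)}
    (hi : i ∉ L) (hL : ∀ j, j ≠ i → j ∈ L) :
    sliceL (fun j : Col c => (↑(blk c j) : Set S)) l L f ∈ VB k a θ c i := by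
  have hsup : sliceL (fun j : Col c => (↑(blk c j) : Set S)) l L f ∈
      supported k (↑(blk c i) : Set S) := by
    refine supported_mono ?_ (sliceL_mem_supported (T := Set.univ) (by simp) L)
    rintro s ⟨-, hs⟩
    rw [Finset.mem_coe, mem_blk]
    by_contra hne
    have hcs : c s ∈ univ.image c := mem_image_of_mem c (mem_univ s)
    refine hs ⟨c s, hcs⟩ (hL _ fun h => hne (congrArg Subtype.val h)) ?_
    simp
  obtain ⟨g, hg⟩ : ∃ g : MvPolynomial (BT c i) k, rename Subtype.val g =
      sliceL (fun j : Col c => (↑(blk c j) : Set S)) l L f := by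
    have hrange : (↑(blk c i) : Set S) = {s | c s = i} := by
      ext s; simp
    rw [hrange, supported_eq_range_rename] at hsup
    exact (AlgHom.mem_range _).mp hsup
  refine ⟨g, ?_, hg.symm⟩
  intro m' hm' α hα
  have hbig : nb c - 2 * CC a c + 2 * CC a (extc c i m') <
      2 * ((α.mapDomain fun p => 2 * p).degree : ℤ) + nb (extc c i m') := by
    rw [CC_extc hsym hc i hm', nb_extc c i m', Finsupp.degree_mapDomain]
    linarith
  by_cases hα' : ∀ p, (α.mapDomain fun p => 2 * p) p ≠ 0 →
      p ∈ extc c i m' '' (↑(blk c i) : Set S)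
  · have h1 : rename (Subtype.val : BT c i → S) (coeff α (Tc k m' g)) =
        sliceL (fun j : Col c => (↑(blk c j) : Set S)) l L
          (coeff (α.mapDomain fun p => 2 * p) (Tc k (extc c i m') f)) := by
      rw [← coeff_Tc_sliceL (extc_ref c i m') hi hα', ← hg, coeff_Tc_extc]
    have h3 : rename (Subtype.val : BT c i → S) (coeff α (Tc k m' g)) ∈
        Ideal.map (rename (Subtype.val : BT c i → S))
          (JC k (aB a c i) (tB θ c i) fun s => extc c i m' s) := by
      rw [h1]
      exact sliceL_mem_map_JC (extc_ref c i m') (extc_triv c i m') hl hi hL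
        (hf _ (extc_zc hc i hm') (extc_ref c i m') _ hbig)
    have h4 := mem_of_rename_mem_map k Subtype.val_injective _ h3
    rw [extc_comp c i m', JC_recolour k two_mul_injective] at h4
    exact h4
  · push Not at hα'
    obtain ⟨p, hp, hpB⟩ := hα'
    have h0 : rename (Subtype.val : BT c i → S) (coeff α (Tc k m' g)) = 0 := by
      rw [← coeff_Tc_extc, hg]
      exact coeff_Tc_eq_zero_sup _ hsup hp hpB
    have h0' : coeff α (Tc k m' g) = 0 := by
      apply rename_injective _ Subtype.val_injective
      rw [h0, map_zero]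
    rw [h0']
    exact zero_mem _

/-- (K2, first half) An element of `Gc c` is, modulo `JC c`, a combination of products of elements
of the `V` of the blocks. -/
theorem exists_span_VB (hsym : SymZ a θ) {c : S → ℕ} (hc : Zc θ c) {f : MvPolynomial S k}
    (hf : Gc k a θ c f) :
    ∃ g ∈ Submodule.span k {h | ∃ v : ∀ i : Col c, MvPolynomial (BT c i) k,
        (∀ i : Col c, Fil k (aB a c i) (tB θ c i) 1 (v i)) ∧
        h = ∏ i : Col c, rename Subtype.val (v i)}, f - g ∈ JC k a θ c := by
  obtain ⟨g, hg, hg'⟩ := exists_span_of_slices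
    (G := fun i : Col c => gensB k a θ (blk c i))
    (fun i : Col c => (↑(blk c i) : Set S)) (blk_pairwise c) (fun i => gensB_supported _)
    (fun i : Col c => VB k a θ c i) (c := f) (by rw [iUnion_blk]; simp)
    (fun j l hl => sliceL_mem_VB hsym hc hf hl (by simp) (by intro i hi; simpa using hi))
  refine ⟨g, ?_, ?_⟩
  · refine Submodule.span_mono ?_ hg
    rintro h ⟨v, hv, rfl⟩
    choose w hw hw' using fun i => mem_VB.mp (hv i).1
    exact ⟨w, hw, Finset.prod_congr rfl fun i _ => hw' i⟩
  · rw [JC_eq_iSup_col]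
    exact hg'

/-- degrees modulo an ideal add up in products -/
theorem coeff_prod_mem {A ι : Type*} [CommRing A] (J : Ideal A) (s : Finset ι)
    (P : ι → MvPolynomial ℕ A) (b : ι → ℤ)
    (h : ∀ i ∈ s, ∀ β : ℕ →₀ ℕ, b i < 2 * (β.degree : ℤ) → coeff β (P i) ∈ J)
    {α : ℕ →₀ ℕ} (hα : ∑ i ∈ s, b i < 2 * (α.degree : ℤ)) :
    coeff α (∏ i ∈ s, P i) ∈ J := by
  classical
  induction s using Finset.induction_on generalizing α with
  | empty =>
    rw [sum_empty] at hα
    rw [prod_empty, coeff_one, if_neg]
    · exact zero_mem _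
    · rintro rfl
      simp at hα
  | insert j s hj ih =>
    rw [prod_insert hj, coeff_mul]
    rw [sum_insert hj] at hα
    refine Ideal.sum_mem _ fun q hq => ?_
    rw [HasAntidiagonal.mem_antidiagonal] at hq
    have hdeg : (q.1.degree : ℤ) + q.2.degree = α.degree := by
      rw [← hq, map_add]; push_cast; ring
    by_cases h1 : b j < 2 * (q.1.degree : ℤ)
    · exact Ideal.mul_mem_right _ _ (h j (mem_insert_self _ _) _ h1)
    · refine Ideal.mul_mem_left _ _ (ih (fun i hi => h i (mem_insert_of_mem hi)) ?_)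
      omega

/-- (K2, second half) Products of elements of the `V` of the blocks lie in `Gc c`. -/
theorem Gc_prod (hsym : SymZ a θ) {c : S → ℕ} (hc : Zc θ c)
    {v : ∀ i : Col c, MvPolynomial (BT c i) k}
    (hv : ∀ i : Col c, Fil k (aB a c i) (tB θ c i) 1 (v i)) :
    Gc k a θ c (∏ i : Col c, rename Subtype.val (v i)) := by
  intro m hm href α hα
  rw [map_prod]
  refine coeff_prod_mem (JC k a θ m) univ _
    (fun i : Col c => 1 + 2 * CC (aB a c i) (fun s => m s) - nb (fun s : BT c i => m s)) ?_ ?_
  · intro i _ β hβ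
    rw [coeff_Tc_rename]
    refine map_JC_le (k := k) (a' := aB a c i) (θ' := tB θ c i) Subtype.val_injective
      (fun _ _ => rfl) (fun _ => rfl) m (val_sat href i) ?_
    refine Ideal.mem_map_of_mem _ (hv i _ ?_ β ?_)
    · exact Zc_sub hm href i
    · have : (m ∘ (Subtype.val : BT c i → S)) = (fun s : BT c i => m s) := rfl
      rw [this]
      linarith
  · rw [sum_sub_distrib, sum_add_distrib, ← mul_sum, sum_const, nsmul_eq_mul, mul_one]
    have h1 := CC_add_sum hsym hc hm href
    have h2 := nb_eq_sum href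
    have h3 := card_Col c
    linarith

/-- Everything in `JC c` lies in `Gc c`. -/
theorem Gc_of_mem {c : S → ℕ} {f : MvPolynomial S k} (hf : f ∈ JC k a θ c) : Gc k a θ c f :=
  fun _ _ href => Lev.of_mem _ (JC_le_of_ref href hf)

/-- (K2) `Gc c` = combinations of products of elements of the `V` of the blocks, plus `JC c`. -/
theorem Gc_iff (hsym : SymZ a θ) {c : S → ℕ} (hc : Zc θ c) {f : MvPolynomial S k} :
    Gc k a θ c f ↔
    ∃ g ∈ Submodule.span k {h | ∃ v : ∀ i : Col c, MvPolynomial (BT c i) k,
        (∀ i : Col c, Fil k (aB a c i) (tB θ c i) 1 (v i)) ∧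
        h = ∏ i : Col c, rename Subtype.val (v i)}, f - g ∈ JC k a θ c := by
  refine ⟨exists_span_VB hsym hc, ?_⟩
  rintro ⟨g, hg, hfg⟩
  have h1 : Gc k a θ c g := by
    clear hfg
    induction hg using Submodule.span_induction with
    | mem x hx =>
      obtain ⟨v, hv, rfl⟩ := hx
      exact Gc_prod hsym hc hv
    | zero => exact Gc_of_mem (zero_mem _)
    | add x y _ _ hx hy => exact fun m h1 h2 => (hx m h1 h2).add (hy m h1 h2)
    | smul r x _ hx =>
      rw [smul_eq_C_mul]
      exact fun m h1 h2 => (hx m h1 h2).C_mul r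
  have h2 := Gc_of_mem hfg
  have h3 : f = f - g + g := by ring
  rw [h3]
  exact fun m hm hr => (h2 m hm hr).add (h1 m hm hr)

theorem univ_image_val (c : S → ℕ) (i : ℕ) :
    (univ : Finset (BT c i)).image (Subtype.val : BT c i → S) = blk c i := by
  ext s
  rw [mem_image, mem_blk]
  constructor
  · rintro ⟨t, _, rfl⟩; exact t.2
  · intro h; exact ⟨⟨s, h⟩, mem_univ _, rfl⟩

theorem rename_mem_J0_blk {c : S → ℕ} {i : ℕ} {g : MvPolynomial (BT c i) k} :
    rename Subtype.val g ∈ J0 k a θ (blk c i) ↔ g ∈ J0 k (aB a c i) (tB θ c i) univ := by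
  rw [← univ_image_val]
  exact mem_J0_iff k Subtype.val_injective (fun _ _ => rfl) (fun _ => rfl) univ g

theorem rename_mem_supported_blk {c : S → ℕ} {i : ℕ} (g : MvPolynomial (BT c i) k) :
    rename Subtype.val g ∈ supported k (↑(blk c i) : Set S) := by
  have hrange : (↑(blk c i) : Set S) = {s | c s = i} := by
    ext s; simp
  rw [hrange, supported_eq_range_rename]
  exact (AlgHom.mem_range _).mpr ⟨g, rfl⟩

theorem exists_rename_of_supported {c : S → ℕ} {i : ℕ} {f : MvPolynomial S k}
    (hf : f ∈ supported k (↑(blk c i) : Set S)) :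
    ∃ g : MvPolynomial (BT c i) k, rename Subtype.val g = f := by
  have hrange : (↑(blk c i) : Set S) = {s | c s = i} := by
    ext s; simp
  rw [hrange, supported_eq_range_rename] at hf
  exact (AlgHom.mem_range _).mp hf

/-- (K1, subtype form, independence) -/
theorem linearIndependent_prod_BT {c : S → ℕ} {κ : Col c → Type*}
    (v : ∀ i : Col c, κ i → MvPolynomial (BT c i) k)
    (h : ∀ i : Col c, LinearIndependent k
      (fun x => Ideal.Quotient.mk (J0 k (aB a c i) (tB θ c i) univ) (v i x))) :
    LinearIndependent k (fun f : (∀ i : Col c, κ i) =>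
      Ideal.Quotient.mk (JC k a θ c) (∏ i : Col c, rename Subtype.val (v i (f i)))) := by
  classical
  have key := linearIndependent_prod (ι := Col c) (k := k)
    (G := fun i : Col c => gensB k a θ (blk c i))
    (B := fun i : Col c => (↑(blk c i) : Set S)) (blk_pairwise c) (fun i => gensB_supported _)
    (fun i x => rename Subtype.val (v i x)) (fun i x => rename_mem_supported_blk _) ?_
  · have hJ : (⨆ j : Col c, Ideal.span (gensB k a θ (blk c j))) = JC k a θ c :=
      (JC_eq_iSup_col c).symm
    rw [hJ] at key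
    exact key
  · intro i
    rw [linearIndependent_iff']
    intro s g hsum x hx
    refine (linearIndependent_iff'.mp (h i)) s g ?_ x hx
    have h1 : rename (Subtype.val : BT c i → S) (∑ x ∈ s, g x • v i x) ∈
        J0 k a θ (blk c i) := by
      rw [J0_eq_span, ← Ideal.Quotient.eq_zero_iff_mem, map_sum, map_sum, ← hsum]
      refine Finset.sum_congr rfl fun y _ => ?_
      rw [map_smul]
      exact map_smul (Ideal.Quotient.mkₐ k (Ideal.span (gensB k a θ (blk c i)))) (g y)
        (rename Subtype.val (v i y))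
    have h2 := rename_mem_J0_blk.mp h1
    rw [← Ideal.Quotient.eq_zero_iff_mem, map_sum] at h2
    rw [← h2]
    refine Finset.sum_congr rfl fun y _ => ?_
    exact (map_smul (Ideal.Quotient.mkₐ k (J0 k (aB a c i) (tB θ c i) univ)) (g y)
      (v i y)).symm

/-- (K1, subtype form, spanning) -/
theorem exists_span_prod_BT {c : S → ℕ} {κ : Col c → Type*}
    (v : ∀ i : Col c, κ i → MvPolynomial (BT c i) k)
    (h : ∀ i : Col c, ∀ f : MvPolynomial (BT c i) k,
      ∃ g ∈ Submodule.span k (Set.range (v i)), f - g ∈ J0 k (aB a c i) (tB θ c i) univ)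
    (f : MvPolynomial S k) :
    ∃ g ∈ Submodule.span k (Set.range fun f : (∀ i : Col c, κ i) =>
      ∏ i : Col c, rename Subtype.val (v i (f i))), f - g ∈ JC k a θ c := by
  have key : ∀ i : Col c, ∀ f ∈ supported k (↑(blk c i) : Set S),
      ∃ g ∈ Submodule.span k (Set.range fun x => rename Subtype.val (v i x)),
        f - g ∈ J0 k a θ (blk c i) := by
    intro i f hf
    obtain ⟨f', rfl⟩ := exists_rename_of_supported hf
    obtain ⟨g, hg, hg'⟩ := h i f'
    refine ⟨rename Subtype.val g, ?_, ?_⟩
    · have := Submodule.mem_map_of_mem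
        (f := (rename (R := k) (Subtype.val : BT c i → S)).toLinearMap) hg
      rw [Submodule.map_span, ← Set.range_comp] at this
      exact this
    · rw [← map_sub]
      exact rename_mem_J0_blk.mpr hg'
  obtain ⟨g, hg, hg'⟩ := exists_span_prod (ι := Col c) (k := k)
    (J := fun i : Col c => J0 k a θ (blk c i))
    (B := fun i : Col c => (↑(blk c i) : Set S)) (blk_pairwise c)
    (fun i x => rename Subtype.val (v i x)) key (f := f) (by rw [iUnion_blk]; simp)
  exact ⟨g, hg, by rw [JC_eq_iSup_col]; exact hg'⟩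

end

end Vale.Agent.P066.Lab
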