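import Vale.Agent.P066.Lab.Rel

/-!
# LB1: assembly of Theorem B

`Fil_expand`: an element of level `n` is, modulo level `n - 1`, a sum of elements
`K_c · ∑_α w_α u_c^α` with `w_α ∈ G_c`, over representatives `c` of the zero set partitions.
-/

set_option autoImplicit false
set_option linter.unusedSectionVars false

open Finset MvPolynomial

namespace Vale.Agent.P066.Lab

noncomputable section

/-! ### Killing variables -/

section Kill

variable {R : Type} [CommRing R]

/-- kill the variables outside `J` -/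
def kil (J : Finset ℕ) : MvPolynomial ℕ R →ₐ[R] MvPolynomial ℕ R :=
  bind₁ fun i => if i ∈ J then X i else 0

theorem kil_X {J : Finset ℕ} {i : ℕ} (h : i ∈ J) : kil J (X i : MvPolynomial ℕ R) = X i := by
  rw [kil, bind₁_X_right, if_pos h]

theorem kil_monomial (J : Finset ℕ) (β : ℕ →₀ ℕ) (r : R) :
    kil J (monomial β r) = if β.support ⊆ J then monomial β r else 0 := by
  rw [kil, bind₁_monomial]
  split_ifs with h
  · rw [monomial_eq]
    congr 1
    refine prod_congr rfl fun i hi => ?_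
    rw [if_pos (h hi)]
  · rw [not_subset] at h
    obtain ⟨i, hi, hiJ⟩ := h
    rw [prod_eq_zero hi, mul_zero]
    rw [if_neg hiJ, zero_pow (Finsupp.mem_support_iff.mp hi)]

theorem coeff_kil (J : Finset ℕ) (P : MvPolynomial ℕ R) (α : ℕ →₀ ℕ) :
    coeff α (kil J P) = if α.support ⊆ J then coeff α P else 0 := by
  classical
  induction P using MvPolynomial.induction_on' with
  | monomial β r =>
    rw [kil_monomial]
    by_cases h : β = α
    · subst h
      split_ifs <;> simp
    · have h1 : coeff α (monomial β r) = 0 := by rw [coeff_monomial, if_neg h]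
      rw [h1]
      split_ifs <;> simp [h1]
  | add P Q hP hQ =>
    rw [map_add, coeff_add, coeff_add, hP, hQ]
    split_ifs <;> simp

end Kill

variable {S : Type} [Fintype S] [DecidableEq S] {k : Type} [Field k] {a : S → S → ℕ} {θ : S → ℤ}

theorem kil_PU (R : Type) [CommRing R] (c : S → ℕ) :
    kil (univ.image c) (PU a R c) = PU a R c := by
  unfold PU
  rw [map_prod]
  refine prod_congr rfl fun p _ => ?_
  rw [map_pow, map_sub, kil_X (mem_image_of_mem c (mem_univ _)),
    kil_X (mem_image_of_mem c (mem_univ _))]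

theorem kil_Tc (c : S → ℕ) (f : MvPolynomial S k) :
    kil (univ.image c) (Tc k c f) = Tc k c f := by
  have h : (kil (R := MvPolynomial S k) (univ.image c)).toRingHom.comp (Tc k c).toRingHom =
      (Tc k c).toRingHom := by
    apply MvPolynomial.ringHom_ext
    · intro r
      simp [Tc]
    · intro s
      simp only [RingHom.comp_apply, AlgHom.toRingHom_eq_coe, RingHom.coe_coe, Tc_X, map_add]
      rw [kil_X (mem_image_of_mem c (mem_univ _))]
      congr 1
      rw [kil, bind₁_C_right]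
  exact congrArg (fun φ : MvPolynomial S k →+* _ => φ f) h

theorem coeff_Tc_of_not_subset (c : S → ℕ) (f : MvPolynomial S k) {α : ℕ →₀ ℕ}
    (h : ¬ α.support ⊆ univ.image c) : coeff α (Tc k c f) = 0 := by
  rw [← kil_Tc, coeff_kil, if_neg h]

theorem kil_Sb (c : S → ℕ) (d : ℕ) (f : MvPolynomial S k) :
    kil (univ.image c) (Sb k a θ c d f) = Sb k a θ c d f := by
  ext α
  rw [coeff_kil]
  split_ifs with h
  · rfl
  · rw [coeff_Sb, coeff_Tc_of_not_subset c f h, map_zero, ite_self]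

/-! ### One colouring -/

/-- the part of level `n` of `f` at `c` is that of `K_c · ∑_α w_α u_c^α` -/
theorem exists_lift [CharZero k] (hs : SymZ a θ) {c : S → ℕ} (hc : Zc θ c) {n : ℤ}
    {f : MvPolynomial S k} (hf : Fil k a θ n f) {n0 : ℕ} (hn0 : 2 * (n0 : ℤ) + nb c = n) :
    ∃ T : MvPolynomial ℕ (MvPolynomial S k), T.IsHomogeneous n0 ∧
      (∀ α ∈ T.support, ∀ i ∈ α.support, i ∈ univ.image c) ∧
      (∀ α, Gc k a θ c (coeff α T)) ∧
      Lev k a θ c (n - 1) (f - KC k a c * eval (uk k c) T) := by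
  classical
  have hCN := H749.CN_cast (a := a) c
  have hd : 2 * ((H749.CN a c + n0 : ℕ) : ℤ) + nb c = n + 2 * CC a c := by
    push_cast
    linarith
  obtain ⟨T', h1, h2, h3⟩ := Sb_eq_PU_mul hs hc hf hd (e := n0) (by push_cast; linarith)
  -- kill the unused variables
  have h4 : Sb k a θ c (H749.CN a c + n0) f =
      PU a (MvPolynomial S k ⧸ JC k a θ c) c * kil (univ.image c) T' := by
    rw [← kil_Sb, h1, map_mul, kil_PU]
  choose g hg1 hg2 using h3
  set T : MvPolynomial ℕ (MvPolynomial S k) :=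
    ∑ α ∈ T'.support.filter (fun α => α.support ⊆ univ.image c), monomial α (g α) with hT
  have hcoeff : ∀ α, coeff α T =
      if α ∈ T'.support.filter (fun α => α.support ⊆ univ.image c) then g α else 0 := by
    intro α
    rw [hT, coeff_sum]
    simp only [coeff_monomial]
    rw [sum_ite_eq' _ α]
  have hT1 : T.IsHomogeneous n0 := by
    intro α hα
    rw [hcoeff] at hα
    split_ifs at hα with h
    · have := h2 (mem_support_iff.mp (mem_filter.mp h).1)
      exact this
    · exact absurd rfl hα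
  have hT2 : ∀ α ∈ T.support, ∀ i ∈ α.support, i ∈ univ.image c := by
    intro α hα i hi
    rw [mem_support_iff, hcoeff] at hα
    split_ifs at hα with h
    · exact (mem_filter.mp h).2 hi
    · exact absurd rfl hα
  have hT3 : ∀ α, Gc k a θ c (coeff α T) := by
    intro α
    rw [hcoeff]
    split_ifs
    · exact hg1 α
    · exact Gc.zero
  have hT4 : map (Ideal.Quotient.mk (JC k a θ c)) T = kil (univ.image c) T' := by
    ext α
    rw [coeff_map, hcoeff, coeff_kil]
    by_cases h5 : α.support ⊆ univ.image c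
    · by_cases h6 : α ∈ T'.support
      · rw [if_pos (mem_filter.mpr ⟨h6, h5⟩), if_pos h5, hg2]
      · have h7 : α ∉ T'.support.filter (fun α => α.support ⊆ univ.image c) :=
          fun h => h6 (mem_filter.mp h).1
        rw [if_neg h7, if_pos h5, map_zero]
        rw [notMem_support_iff] at h6
        exact h6.symm
    · have h7 : α ∉ T'.support.filter (fun α => α.support ⊆ univ.image c) :=
        fun h => h5 (mem_filter.mp h).2
      rw [if_neg h7, if_neg h5, map_zero]
  refine ⟨T, hT1, hT2, hT3, ?_⟩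
  have h5 : Lev k a θ c n (f - KC k a c * eval (uk k c) T) := by
    have h6 := H749.Lev_KC_mul_eval hc hT1 hT2 hT3
    rw [hn0] at h6
    intro α hα
    rw [map_sub, coeff_sub]
    exact sub_mem (hf c hc α hα) (h6 α hα)
  have h6 : Sb k a θ c (H749.CN a c + n0) (f - KC k a c * eval (uk k c) T) = 0 := by
    rw [H749.Sb_sub, H749.Sb_KC_mul_eval hc hT1 hT2 hT3 (by push_cast; linarith), h4, hT4, sub_self]
  intro α hα
  by_cases h7 : n + 2 * CC a c < 2 * (α.degree : ℤ) + nb c
  · exact h5 α h7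
  · have h8 : α.degree = H749.CN a c + n0 := by omega
    have h9 := coeff_Sb (k := k) (a := a) (θ := θ) c (H749.CN a c + n0)
      (f - KC k a c * eval (uk k c) T) α
    rw [if_pos h8, h6, coeff_zero] at h9
    exact Ideal.Quotient.eq_zero_iff_mem.mp h9.symm

/-! ### Recolouring -/

/-- same partition -/
def Same (c c' : S → ℕ) : Prop := ∀ s t, c s = c t ↔ c' s = c' t

theorem Same.ref {c c' : S → ℕ} (h : Same c c') : Ref c c' := fun s t => (h s t).mp

theorem Same.symm {c c' : S → ℕ} (h : Same c c') : Same c' c := fun s t => (h s t).symm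

theorem Same.JC_eq {c c' : S → ℕ} (h : Same c c') : JC k a θ c = JC k a θ c' :=
  le_antisymm (JC_le_of_ref h.symm.ref) (JC_le_of_ref h.ref)

theorem Same.nb_eq {c c' : S → ℕ} (h : Same c c') : nb c = nb c' :=
  le_antisymm (nb_le_of_ref h.symm.ref) (nb_le_of_ref h.ref)

theorem Same.CC_eq (hs : SymZ a θ) {c c' : S → ℕ} (hc : Zc θ c) (h : Same c c') :
    CC a c = CC a c' := by
  have h1 := two_CC_ne hs hc
  have h2 := two_CC_ne hs (hc.of_ref h.ref)
  have h3 : univ.filter (fun p : S × S => c p.1 ≠ c p.2) =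
      univ.filter (fun p : S × S => c' p.1 ≠ c' p.2) := by
    ext p
    simp only [mem_filter, mem_univ, true_and, ne_eq, h p.1 p.2]
  rw [h3] at h1
  linarith

theorem Same.Lev (hs : SymZ a θ) {c c' : S → ℕ} (hc : Zc θ c) (h : Same c c') {n : ℤ}
    {f : MvPolynomial S k} (hf : Lev k a θ c n f) : Lev k a θ c' n f := by
  rw [lev_iff] at hf ⊢
  rw [← h.JC_eq, ← h.nb_eq, ← h.CC_eq hs hc]
  exact DL.of_ref h.ref hf

/-- the kernel of a colouring -/
def kr (c : S → ℕ) : Finset (S × S) := univ.filter fun p => c p.1 = c p.2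

theorem kr_eq_iff {c c' : S → ℕ} : kr c = kr c' ↔ Same c c' := by
  constructor
  · intro h s t
    have := congrArg (fun E => (s, t) ∈ E) h
    simpa [kr] using this
  · intro h
    ext p
    simp only [kr, mem_filter, mem_univ, true_and, h p.1 p.2]

/-- one representative of every partition in a class of colourings -/
theorem exists_reps (P : (S → ℕ) → Prop) : ∃ R : Finset (S → ℕ), (∀ c ∈ R, P c) ∧
    (∀ c, P c → ∃ c' ∈ R, Same c c') ∧ ∀ c ∈ R, ∀ c' ∈ R, Same c c' → c = c' := by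
  classical
  have hch : ∀ E : Finset (S × S), (∃ c, P c ∧ kr c = E) → ∃ c, P c ∧ kr c = E := fun _ h => h
  choose! rep hrep using hch
  refine ⟨((univ : Finset (Finset (S × S))).filter fun E => ∃ c, P c ∧ kr c = E).image rep,
    ?_, ?_, ?_⟩
  · intro c hc
    obtain ⟨E, hE, rfl⟩ := mem_image.mp hc
    exact (hrep E (mem_filter.mp hE).2).1
  · intro c hc
    refine ⟨rep (kr c), mem_image.mpr ⟨kr c, mem_filter.mpr ⟨mem_univ _, c, hc, rfl⟩, rfl⟩, ?_⟩
    exact (kr_eq_iff.mp (hrep (kr c) ⟨c, hc, rfl⟩).2).symm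
  · intro c hc c' hc' h
    obtain ⟨E, hE, rfl⟩ := mem_image.mp hc
    obtain ⟨E', hE', rfl⟩ := mem_image.mp hc'
    have h1 := (hrep E (mem_filter.mp hE).2).2
    have h2 := (hrep E' (mem_filter.mp hE').2).2
    have h3 := kr_eq_iff.mpr h
    rw [h1, h2] at h3
    rw [h3]

/-! ### The expansion -/

/-- the terms of an expansion -/
structure Term (k : Type) [Field k] (a : S → S → ℕ) (θ : S → ℤ) (n : ℤ) (c : S → ℕ) (n0 : ℕ)
    (T : MvPolynomial ℕ (MvPolynomial S k)) : Prop where
  zc : Zc θ c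
  lev : 2 * (n0 : ℤ) + nb c = n
  hom : T.IsHomogeneous n0
  sup : ∀ α ∈ T.support, ∀ i ∈ α.support, i ∈ univ.image c
  gc : ∀ α, Gc k a θ c (coeff α T)

/-- `∑_α w_α u_c^α` as a polynomial in the `u_c` -/
theorem eval_uk_eq (c : S → ℕ) (T : MvPolynomial ℕ (MvPolynomial S k)) :
    eval (uk k c) T = ∑ α ∈ T.support, coeff α T * um k c α := by
  rw [eval_eq]
  rfl

theorem Term.lev_at [CharZero k] (hs : SymZ a θ) {n : ℤ} {c : S → ℕ} {n0 : ℕ}
    {T : MvPolynomial ℕ (MvPolynomial S k)} (hT : Term k a θ n c n0 T) {m : S → ℕ}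
    (hm : Zc θ m) : Lev k a θ m n (KC k a c * eval (uk k c) T) := by
  rw [eval_uk_eq, mul_sum]
  refine Lev.sum fun α hα => ?_
  have h1 : α.degree = n0 := by
    by_contra hne
    exact (mem_support_iff.mp hα) (hT.hom.coeff_eq_zero hne)
  have h2 := lev_KC_mul hs hm hT.zc (hT.gc α) α
  rwa [h1, hT.lev] at h2

theorem Term.lev_lt [CharZero k] (hs : SymZ a θ) {n : ℤ} {c : S → ℕ} {n0 : ℕ}
    {T : MvPolynomial ℕ (MvPolynomial S k)} (hT : Term k a θ n c n0 T) {m : S → ℕ}
    (hm : Zc θ m) (hmc : ¬ Same m c) : Lev k a θ m (n - 1) (KC k a c * eval (uk k c) T) := by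
  rw [eval_uk_eq, mul_sum]
  refine Lev.sum fun α hα => ?_
  have h1 : α.degree = n0 := by
    by_contra hne
    exact (mem_support_iff.mp hα) (hT.hom.coeff_eq_zero hne)
  have h2 := lev_KC_mul' hs hm hT.zc (fun h => hmc fun s t => ⟨h.1 s t, h.2 s t⟩) (hT.gc α)
    (fun m' hm' hr hn => Gc_lev_lt hs (hT.gc α) hm' hr hn) α
  rwa [h1, hT.lev] at h2

theorem Term.fil [CharZero k] (hs : SymZ a θ) {n : ℤ} {c : S → ℕ} {n0 : ℕ}
    {T : MvPolynomial ℕ (MvPolynomial S k)} (hT : Term k a θ n c n0 T) :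
    Fil k a θ n (KC k a c * eval (uk k c) T) := fun _ hm => hT.lev_at hs hm

theorem fil_add {n : ℤ} {f g : MvPolynomial S k} (hf : Fil k a θ n f) (hg : Fil k a θ n g) :
    Fil k a θ n (f + g) := fun m hm => (hf m hm).add (hg m hm)

theorem lev_neg {c : S → ℕ} {n : ℤ} {f : MvPolynomial S k} (hf : Lev k a θ c n f) :
    Lev k a θ c n (-f) := fun α hα => by
  rw [map_neg, coeff_neg]
  exact neg_mem (hf α hα)

theorem lev_sub {c : S → ℕ} {n : ℤ} {f g : MvPolynomial S k} (hf : Lev k a θ c n f)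
    (hg : Lev k a θ c n g) : Lev k a θ c n (f - g) := by
  rw [sub_eq_add_neg]
  exact hf.add (lev_neg hg)

theorem fil_sub {n : ℤ} {f g : MvPolynomial S k} (hf : Fil k a θ n f) (hg : Fil k a θ n g) :
    Fil k a θ n (f - g) := fun m hm => lev_sub (hf m hm) (hg m hm)

theorem fil_mono {n n' : ℤ} (h : n ≤ n') {f : MvPolynomial S k} (hf : Fil k a θ n f) :
    Fil k a θ n' f := fun m hm => (hf m hm).mono h

theorem fil_of_mem {n : ℤ} {f : MvPolynomial S k} (hf : f ∈ J0 k a θ univ) :
    Fil k a θ n f := by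
  intro m _
  refine Lev.of_mem n (JC_le_of_ref (ref_const m 0) ?_)
  have : blk (fun _ : S => 0) 0 = univ := by ext s; simp
  rw [← this] at hf
  exact J0_le_JC _ _ hf

/-- **Theorem B, existence of the expansion.** -/
theorem Fil_expand [CharZero k] (hs : SymZ a θ) {n : ℤ} {f : MvPolynomial S k}
    (hf : Fil k a θ n f) : ∃ (R : Finset (S → ℕ)) (T : (S → ℕ) → MvPolynomial ℕ (MvPolynomial S k))
      (n0 : (S → ℕ) → ℕ), (∀ c ∈ R, Term k a θ n c (n0 c) (T c)) ∧
      (∀ c ∈ R, ∀ c' ∈ R, Same c c' → c = c') ∧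
      Fil k a θ (n - 1) (f - ∑ c ∈ R, KC k a c * eval (uk k c) (T c)) := by
  classical
  obtain ⟨R, hR1, hR2, hR3⟩ := exists_reps fun c : S → ℕ =>
    Zc θ c ∧ ∃ n0 : ℕ, 2 * (n0 : ℤ) + nb c = n
  have h1 : ∀ c : S → ℕ, ∃ (T : MvPolynomial ℕ (MvPolynomial S k)) (n0 : ℕ), c ∈ R →
      Term k a θ n c n0 T ∧ Lev k a θ c (n - 1) (f - KC k a c * eval (uk k c) T) := by
    intro c
    by_cases hc : c ∈ R
    · obtain ⟨h2, n0, h3⟩ := hR1 c hc
      obtain ⟨T, h4, h5, h6, h7⟩ := exists_lift hs h2 hf h3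
      exact ⟨T, n0, fun _ => ⟨⟨h2, h3, h4, h5, h6⟩, h7⟩⟩
    · exact ⟨0, 0, fun h => absurd h hc⟩
  choose T n0 hT using h1
  refine ⟨R, T, n0, fun c hc => (hT c hc).1, hR3, ?_⟩
  intro m hm
  by_cases h2 : ∃ n1 : ℕ, 2 * (n1 : ℤ) + nb m = n
  · obtain ⟨c, hc, hmc⟩ := hR2 m ⟨hm, h2⟩
    refine Same.Lev hs (hR1 c hc).1 hmc.symm ?_
    rw [← add_sum_erase R _ hc, ← sub_sub]
    refine lev_sub (hT c hc).2 (Lev.sum fun c' hc' => ?_)
    rw [mem_erase] at hc'
    exact (hT c' hc'.2).1.lev_lt hs (hR1 c hc).1 fun h => hc'.1 (hR3 c hc c' hc'.2 h).symm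
  · have h3 : Lev k a θ m (n - 1) f := by
      intro α hα
      by_cases h4 : n + 2 * CC a m < 2 * (α.degree : ℤ) + nb m
      · exact hf m hm α h4
      · have h5 : 2 * (α.degree : ℤ) + nb m = n + 2 * CC a m := by omega
        have h6 : (α.degree : ℤ) < CC a m := by
          by_contra h7
          refine h2 ⟨(α.degree - CC a m).toNat, ?_⟩
          omega
        have h7 := Sb_eq_zero_of_lt hs hm hf h5 h6
        have h8 := coeff_Sb (k := k) (a := a) (θ := θ) m α.degree f α
        rw [if_pos rfl, h7, coeff_zero] at h8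
        exact Ideal.Quotient.eq_zero_iff_mem.mp h8.symm
    refine lev_sub h3 (Lev.sum fun c hc => ?_)
    refine (hT c hc).1.lev_lt hs hm fun h => h2 ?_
    obtain ⟨n1, hn1⟩ := (hR1 c hc).2
    exact ⟨n1, by rw [h.nb_eq]; exact hn1⟩

end

end Vale.Agent.P066.Lab
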