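import Vale.Agent.P066.Lab.HN2
import Vale.Agent.P066.Lab.EQ
import Vale.Agent.P066.Theta.H422.HS

/-!
# The labelled HN recursion: the antisymmetric part

`c : S → I` types; `a`, `θ` only depend on the types.  The antisymmetric polynomials of degree `n`
have a basis `Az (KK (τ i) * b)`, `τ i` representatives of the pairs `e ∈ Idx θ` modulo type
preserving permutations, `b` in a basis of the polynomials of degree `n - deg KK (τ i)`,
antisymmetric for the stabiliser of `τ i`, modulo `II (τ i)`.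
-/

set_option autoImplicit false
set_option linter.unusedSectionVars false
set_option linter.unusedDecidableInType false
set_option linter.unusedFintypeInType false

open Finset MvPolynomial

namespace Vale.Agent.P066.Lab.HN

open Vale.Agent.P066.Theta.H422 (TP mem_TP Alt mem_Alt)

noncomputable section

variable {S : Type} [Fintype S] [DecidableEq S] {I : Type} [Fintype I] [DecidableEq I]
variable (k : Type) [Field k]

/-! ### the antisymmetrizer -/

/-- sign in the field -/
abbrev sg (σ : Equiv.Perm S) : k := ((Equiv.Perm.sign σ : ℤ) : k)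

theorem sg_mul (σ τ : Equiv.Perm S) : sg k (σ * τ) = sg k σ * sg k τ := by
  simp [sg, Equiv.Perm.sign_mul]

theorem sg_inv (σ : Equiv.Perm S) : sg k σ⁻¹ = sg k σ := by
  simp [sg, Equiv.Perm.sign_inv]

theorem sg_sq (σ : Equiv.Perm S) : sg k σ * sg k σ = 1 := by
  have : ((Equiv.Perm.sign σ : ℤˣ) : ℤ) * ((Equiv.Perm.sign σ : ℤˣ) : ℤ) = 1 := by
    rw [← Units.val_mul, Int.units_mul_self, Units.val_one]
  unfold sg
  rw [← Int.cast_mul, this, Int.cast_one]

theorem rename_mul (σ τ : Equiv.Perm S) (f : MvPolynomial S k) :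
    rename σ (rename τ f) = rename (σ * τ : Equiv.Perm S) f := by
  rw [rename_rename]; rfl

theorem one_mem_TP (c : S → I) : (1 : Equiv.Perm S) ∈ TP c := by
  rw [mem_TP]; intro s; rfl

theorem mul_mem_TP {c : S → I} {σ τ : Equiv.Perm S} (hσ : σ ∈ TP c) (hτ : τ ∈ TP c) :
    σ * τ ∈ TP c := by
  rw [mem_TP] at *
  intro s
  rw [Equiv.Perm.mul_apply, hσ, hτ]

theorem inv_mem_TP {c : S → I} {σ : Equiv.Perm S} (hσ : σ ∈ TP c) : σ⁻¹ ∈ TP c := by
  rw [mem_TP] at *
  intro s
  have := hσ (σ⁻¹ s)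
  rw [← this]
  simp

/-- the antisymmetrizer (not normalised) -/
def Az (c : S → I) : MvPolynomial S k →ₗ[k] MvPolynomial S k :=
  ∑ σ ∈ TP c, sg k σ • (rename σ : MvPolynomial S k →ₐ[k] MvPolynomial S k).toLinearMap

theorem Az_apply (c : S → I) (f : MvPolynomial S k) :
    Az k c f = ∑ σ ∈ TP c, sg k σ • rename σ f := by
  simp [Az, LinearMap.sum_apply]

theorem Az_rename {c : S → I} {τ : Equiv.Perm S} (hτ : τ ∈ TP c) (f : MvPolynomial S k) :
    Az k c (rename τ f) = sg k τ • Az k c f := by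
  rw [Az_apply, Az_apply, Finset.smul_sum]
  refine Finset.sum_bij' (fun σ _ => σ * τ) (fun σ _ => σ * τ⁻¹) ?_ ?_ ?_ ?_ ?_
  · intro σ hσ; exact mul_mem_TP hσ hτ
  · intro σ hσ; exact mul_mem_TP hσ (inv_mem_TP hτ)
  · intro σ _; simp
  · intro σ _; simp
  · intro σ _
    rw [rename_mul, smul_smul, sg_mul, mul_left_comm, sg_sq, mul_one]

theorem Az_mem (c : S → I) (f : MvPolynomial S k) : Az k c f ∈ Alt k c := by
  rw [mem_Alt]
  intro τ hτ
  have hτ' : τ ∈ TP c := (mem_TP c τ).2 hτ
  rw [Az_apply, map_sum, Finset.smul_sum]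
  refine Finset.sum_bij' (fun σ _ => τ * σ) (fun σ _ => τ⁻¹ * σ) ?_ ?_ ?_ ?_ ?_
  · intro σ hσ; exact mul_mem_TP hτ' hσ
  · intro σ hσ; exact mul_mem_TP (inv_mem_TP hτ') hσ
  · intro σ _; simp
  · intro σ _; simp
  · intro σ _
    rw [map_smul, rename_mul, smul_smul, sg_mul, ← mul_assoc]
    change sg k σ • _ = (sg k τ * sg k τ * sg k σ) • _
    rw [sg_sq, one_mul]

theorem Az_of_mem {c : S → I} {f : MvPolynomial S k} (hf : f ∈ Alt k c) :
    Az k c f = ((TP c).card : k) • f := by
  rw [Az_apply]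
  have : ∀ σ ∈ TP c, sg k σ • rename σ f = f := by
    intro σ hσ
    rw [(mem_Alt k c f).1 hf σ ((mem_TP c σ).1 hσ), smul_smul]
    change (sg k σ * sg k σ) • f = f
    rw [sg_sq, one_smul]
  rw [Finset.sum_congr rfl this, Finset.sum_const, Nat.cast_smul_eq_nsmul]

theorem card_TP_ne_zero [CharZero k] (c : S → I) : ((TP c).card : k) ≠ 0 := by
  rw [Nat.cast_ne_zero]
  exact Finset.card_ne_zero.2 ⟨1, one_mem_TP c⟩

theorem Az_Az {I' : Type} [Fintype I'] [DecidableEq I'] {c : S → I} {c' : S → I'} (h : TP c' ⊆ TP c)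
    (f : MvPolynomial S k) :
    Az k c (Az k c' f) = ((TP c').card : k) • Az k c f := by
  rw [Az_apply k c', map_sum]
  have : ∀ σ ∈ TP c', Az k c (sg k σ • rename σ f) = Az k c f := by
    intro σ hσ
    rw [map_smul, Az_rename k (h hσ), smul_smul, sg_sq, one_smul]
  rw [Finset.sum_congr rfl this, Finset.sum_const, Nat.cast_smul_eq_nsmul]

theorem Az_hom (c : S → I) {f : MvPolynomial S k} {m : ℕ} (hf : f.IsHomogeneous m) :
    (Az k c f).IsHomogeneous m := by
  rw [Az_apply]
  refine MvPolynomial.IsHomogeneous.sum _ _ _ fun σ _ => ?_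
  exact (homogeneousSubmodule S k m).smul_mem _ (hf.rename_isHomogeneous)

/-- polynomials of degree `m`, antisymmetric under the type preserving permutations -/
def PA (c : S → I) (m : ℕ) : Submodule k (MvPolynomial S k) :=
  Alt k c ⊓ homogeneousSubmodule S k m

/-- dimension of the image of `PA c m` modulo `J` -/
def hd (c : S → I) (J : Ideal (MvPolynomial S k)) (m : ℕ) : ℕ :=
  Module.finrank k ↥((PA k c m).map (J.restrictScalars k).mkQ)

theorem mem_PA {c : S → I} {m : ℕ} {f : MvPolynomial S k} :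
    f ∈ PA k c m ↔ f ∈ Alt k c ∧ f.IsHomogeneous m := Iff.rfl

/-! ### action of the type preserving permutations -/

variable (a : S → S → ℕ) (θ : S → ℤ)

/-- action of permutations on pairs of sets -/
def act (σ : Equiv.Perm S) (e : Finset S × Finset S) : Finset S × Finset S :=
  (e.1.image σ, e.2.image σ)

theorem image_compl' (σ : Equiv.Perm S) (X : Finset S) : Xᶜ.image σ = (X.image σ)ᶜ := by
  ext s
  simp only [mem_image, mem_compl, not_exists, not_and]
  constructor
  · rintro ⟨t, ht, rfl⟩ x hx h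
    exact ht (σ.injective h ▸ hx)
  · intro h
    exact ⟨σ⁻¹ s, fun hs => h _ hs (by simp), by simp⟩

/-- types compatible with `a` and `θ` -/
structure Comp (c : S → I) : Prop where
  ha : ∀ s t s' t', c s = c s' → c t = c t' → a s t = a s' t'
  hθ : ∀ s s', c s = c s' → θ s = θ s'

variable {a θ}

theorem Comp.ha' {c : S → I} (h : Comp a θ c) {σ : Equiv.Perm S} (hσ : σ ∈ TP c) (s t : S) :
    a s t = a (σ s) (σ t) := by
  rw [mem_TP] at hσ
  exact h.ha _ _ _ _ (hσ s).symm (hσ t).symm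

theorem Comp.hθ' {c : S → I} (h : Comp a θ c) {σ : Equiv.Perm S} (hσ : σ ∈ TP c) (s : S) :
    θ s = θ (σ s) := by
  rw [mem_TP] at hσ
  exact h.hθ _ _ (hσ s).symm

theorem rename_KQ {c : S → I} (h : Comp a θ c) {σ : Equiv.Perm S} (hσ : σ ∈ TP c)
    (X Y : Finset S) : rename σ (KQ k a X Y) = KQ k a (X.image σ) (Y.image σ) := by
  unfold KQ
  rw [rename_QP k σ.injective (h.ha' hσ), ← Finset.prodMap_image_product]

theorem rename_KK {c : S → I} (h : Comp a θ c) {σ : Equiv.Perm S} (hσ : σ ∈ TP c)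
    (e : Finset S × Finset S) : rename σ (KK k a e) = KK k a (act σ e) := by
  unfold KK act
  rw [map_mul, rename_KQ k h hσ, rename_KQ k h hσ, image_compl', image_compl',
    Finset.image_sdiff _ _ σ.injective]

theorem wS_act {c : S → I} (h : Comp a θ c) {σ : Equiv.Perm S} (hσ : σ ∈ TP c)
    (X : Finset S) : wS θ (X.image σ) = wS θ X :=
  wS_image σ.injective (h.hθ' hσ) X

theorem ee_act {c : S → I} (h : Comp a θ c) {σ : Equiv.Perm S} (hσ : σ ∈ TP c)
    (e : Finset S × Finset S) : ee θ (act σ e) = ee θ e := by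
  unfold ee act
  simp only
  rw [wS_act h hσ, Finset.card_image_of_injective _ σ.injective,
    Finset.card_image_of_injective _ σ.injective]

theorem act_mem_Idx {c : S → I} (h : Comp a θ c) {σ : Equiv.Perm S} (hσ : σ ∈ TP c)
    {e : Finset S × Finset S} (he : e ∈ Idx θ) : act σ e ∈ Idx θ := by
  rw [mem_Idx] at *
  unfold act
  simp only
  refine ⟨Finset.image_subset_image he.1, ?_⟩
  rw [← Finset.image_sdiff _ _ σ.injective, wS_act h hσ, he.2]

theorem rename_mem_Fl {c : S → I} (h : Comp a θ c) {σ : Equiv.Perm S} (hσ : σ ∈ TP c) {L : ℤ}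
    {f : MvPolynomial S k} (hf : f ∈ Fl k a θ L) : rename σ f ∈ Fl k a θ L := by
  have h1 : Ideal.map (rename σ : MvPolynomial S k →ₐ[k] MvPolynomial S k) (Fl k a θ L) ≤
      Fl k a θ L := by
    rw [Ideal.map_le_iff_le_comap]
    unfold Fl
    rw [Ideal.span_le]
    rintro g ⟨e, he, hL, rfl⟩
    rw [SetLike.mem_coe, Ideal.mem_comap]
    refine Ideal.subset_span ⟨act σ e, act_mem_Idx h hσ he, ?_, rename_KK k h hσ e⟩
    rwa [ee_act h hσ]
  exact h1 (Ideal.mem_map_of_mem _ hf)

theorem smul_mem_ideal (J : Ideal (MvPolynomial S k)) (x : k) {f : MvPolynomial S k}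
    (hf : f ∈ J) : x • f ∈ J := by
  rw [MvPolynomial.smul_eq_C_mul]
  exact J.mul_mem_left _ hf

theorem Az_mem_Fl {c : S → I} (h : Comp a θ c) {L : ℤ}
    {f : MvPolynomial S k} (hf : f ∈ Fl k a θ L) : Az k c f ∈ Fl k a θ L := by
  rw [Az_apply]
  exact Ideal.sum_mem _ fun σ hσ => smul_mem_ideal k _ _ (rename_mem_Fl k h hσ hf)

/-- the type map of the stabiliser of a pair -/
def cE (c : S → I) (e : Finset S × Finset S) (s : S) : I × Bool × Bool :=
  (c s, decide (s ∈ e.1), decide (s ∈ e.2))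

theorem mem_TP_cE {c : S → I} {e : Finset S × Finset S} {σ : Equiv.Perm S} (hσ : σ ∈ TP c)
    (h : act σ e = e) : σ ∈ TP (cE c e) := by
  rw [mem_TP] at *
  intro s
  unfold cE
  unfold act at h
  have h1 : e.1.image σ = e.1 := congrArg Prod.fst h
  have h2 : e.2.image σ = e.2 := congrArg Prod.snd h
  have h1' : σ s ∈ e.1 ↔ s ∈ e.1 := by
    conv_lhs => rw [← h1]
    exact σ.injective.mem_finset_image
  have h2' : σ s ∈ e.2 ↔ s ∈ e.2 := by
    conv_lhs => rw [← h2]
    exact σ.injective.mem_finset_image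
  rw [hσ s, decide_eq_decide.2 h1', decide_eq_decide.2 h2']

theorem TP_cE_subset (c : S → I) (e : Finset S × Finset S) : TP (cE c e) ⊆ TP c := by
  intro σ hσ
  rw [mem_TP] at *
  intro s
  exact congrArg Prod.fst (hσ s)

theorem act_of_mem_TP_cE {c : S → I} {e : Finset S × Finset S} {σ : Equiv.Perm S}
    (hσ : σ ∈ TP (cE c e)) : act σ e = e := by
  rw [mem_TP] at hσ
  have h1 : ∀ s, σ s ∈ e.1 ↔ s ∈ e.1 := fun s =>
    decide_eq_decide.1 (congrArg (fun p => p.2.1) (hσ s))
  have h2 : ∀ s, σ s ∈ e.2 ↔ s ∈ e.2 := fun s =>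
    decide_eq_decide.1 (congrArg (fun p => p.2.2) (hσ s))
  have key : ∀ X : Finset S, (∀ s, σ s ∈ X ↔ s ∈ X) → X.image σ = X := by
    intro X hX
    ext s
    rw [mem_image]
    constructor
    · rintro ⟨t, ht, rfl⟩; exact (hX t).2 ht
    · intro hs
      refine ⟨σ⁻¹ s, ?_, by simp⟩
      rw [← hX]; simpa using hs
  unfold act
  rw [key _ h1, key _ h2]

theorem act_mul (σ τ : Equiv.Perm S) (e : Finset S × Finset S) :
    act (σ * τ) e = act σ (act τ e) := by
  unfold act
  simp only [Finset.image_image, Equiv.Perm.coe_mul]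

theorem act_one (e : Finset S × Finset S) : act (1 : Equiv.Perm S) e = e := by
  unfold act
  simp [Equiv.Perm.coe_one]

/-! ### injectivity -/

theorem key_zero [CharZero k] {c : S → I} (h : Comp a θ c) {ι : Type} [Fintype ι]
    (τ : ι → Finset S × Finset S) (hτ : ∀ i, τ i ∈ Idx θ)
    (hd : ∀ i j, ∀ σ ∈ TP c, act σ (τ i) = τ j → i = j)
    (g : ι → MvPolynomial S k) (hg : ∀ i, g i ∈ Alt k (cE c (τ i))) (i₀ : ι)
    (hmin : ∀ i, g i ≠ 0 → ee θ (τ i₀) ≤ ee θ (τ i))
    (h0 : ∑ i, Az k c (KK k a (τ i) * g i) ∈ II k a θ (τ i₀)) : g i₀ ∈ II k a θ (τ i₀) := by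
  classical
  -- all terms but those with `σ τ_i = τ_{i₀}` are in `II`
  have h1 : ∀ i, i ≠ i₀ → Az k c (KK k a (τ i) * g i) ∈ II k a θ (τ i₀) := by
    intro i hi
    by_cases hgi : g i = 0
    · rw [hgi, mul_zero, map_zero]; exact Ideal.zero_mem _
    · rw [Az_apply]
      refine Ideal.sum_mem _ fun σ hσ => smul_mem_ideal k _ _ ?_
      rw [map_mul, rename_KK k h hσ]
      refine Ideal.mul_mem_right _ _ (KK_mem_II k a θ (hτ i₀) (act_mem_Idx h hσ (hτ i)) ?_ ?_)
      · intro hh; exact hi (hd i i₀ σ hσ hh)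
      · rw [ee_act h hσ]; exact hmin i hgi
  rw [← Finset.add_sum_erase _ _ (mem_univ i₀)] at h0
  have h2 : Az k c (KK k a (τ i₀) * g i₀) ∈ II k a θ (τ i₀) :=
    (Ideal.add_mem_iff_left _ (Ideal.sum_mem _ fun i hi => h1 i (ne_of_mem_erase hi))).1 h0
  rw [Az_apply, ← Finset.sum_filter_add_sum_filter_not _ (fun σ => act σ (τ i₀) = τ i₀)] at h2
  have h3 : ∑ σ ∈ (TP c).filter (fun σ => ¬ act σ (τ i₀) = τ i₀),
      sg k σ • rename σ (KK k a (τ i₀) * g i₀) ∈ II k a θ (τ i₀) := by
    refine Ideal.sum_mem _ fun σ hσ => smul_mem_ideal k _ _ ?_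
    rw [mem_filter] at hσ
    rw [map_mul, rename_KK k h hσ.1]
    refine Ideal.mul_mem_right _ _ (KK_mem_II k a θ (hτ i₀) (act_mem_Idx h hσ.1 (hτ i₀)) hσ.2 ?_)
    rw [ee_act h hσ.1]
  have h4 := (Ideal.add_mem_iff_left _ h3).1 h2
  have h5 : ∀ σ ∈ (TP c).filter (fun σ => act σ (τ i₀) = τ i₀),
      sg k σ • rename σ (KK k a (τ i₀) * g i₀) = KK k a (τ i₀) * g i₀ := by
    intro σ hσ
    rw [mem_filter] at hσ
    have h6 := mem_TP_cE hσ.1 hσ.2
    rw [map_mul, rename_KK k h hσ.1, hσ.2,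
      (mem_Alt k _ _).1 (hg i₀) σ ((mem_TP _ _).1 h6), Algebra.mul_smul_comm, smul_smul]
    change (sg k σ * sg k σ) • _ = _
    rw [sg_sq, one_smul]
  rw [Finset.sum_congr rfl h5, Finset.sum_const, ← Nat.cast_smul_eq_nsmul k] at h4
  have h7 : (((TP c).filter (fun σ => act σ (τ i₀) = τ i₀)).card : k) ≠ 0 := by
    rw [Nat.cast_ne_zero]
    exact Finset.card_ne_zero.2 ⟨1, mem_filter.2 ⟨one_mem_TP c, act_one _⟩⟩
  have h8 := smul_mem_ideal k _ ((((TP c).filter (fun σ => act σ (τ i₀) = τ i₀)).card : k)⁻¹) h4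
  rw [smul_smul, inv_mul_cancel₀ h7, one_smul] at h8
  exact nz_KK k a θ ((mem_Idx θ).1 (hτ i₀)).1 h8

/-! ### adapted bases -/

/-- `b` is a basis of `PA c m` modulo `J` -/
structure Adapted (c : S → I) (J : Ideal (MvPolynomial S k)) (m : ℕ) {κ : Type}
    (b : κ → MvPolynomial S k) : Prop where
  mem : ∀ i, b i ∈ PA k c m
  indep : LinearIndependent k fun i => (J.restrictScalars k).mkQ (b i)
  span : ∀ f ∈ PA k c m, ∃ g ∈ Submodule.span k (Set.range b), f - g ∈ J

theorem Adapted.card_eq {c : S → I} {J : Ideal (MvPolynomial S k)} {m : ℕ} {κ : Type}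
    [Fintype κ] {b : κ → MvPolynomial S k} (h : Adapted k c J m b) :
    hd k c J m = Fintype.card κ := by
  unfold hd
  have h1 : (PA k c m).map (J.restrictScalars k).mkQ =
      Submodule.span k (Set.range fun i => (J.restrictScalars k).mkQ (b i)) := by
    apply le_antisymm
    · rintro _ ⟨f, hf, rfl⟩
      obtain ⟨g, hg, hfg⟩ := h.span f hf
      have h2 : (J.restrictScalars k).mkQ f = (J.restrictScalars k).mkQ g := by
        rw [← sub_eq_zero, ← map_sub]
        exact (Submodule.Quotient.mk_eq_zero _).2 hfg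
      rw [h2, Set.range_comp' (J.restrictScalars k).mkQ b, ← Submodule.map_span]
      exact Submodule.mem_map_of_mem hg
    · rw [Submodule.span_le]
      rintro _ ⟨i, rfl⟩
      exact Submodule.mem_map_of_mem (h.mem i)
  rw [h1]
  exact finrank_span_eq_card h.indep

theorem exists_adapted [CharZero k] (c : S → I) (J : Ideal (MvPolynomial S k)) (m : ℕ) :
    ∃ b : Fin (hd k c J m) → MvPolynomial S k, Adapted k c J m b := by
  unfold hd
  have : Module.Finite k ↥(PA k c m) :=
    inferInstanceAs (Module.Finite k ↥(Alt k c ⊓ homogeneousSubmodule S k m))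
  let W := (PA k c m).map (J.restrictScalars k).mkQ
  have hW : Module.Finite k ↥W := Module.Finite.map _ _
  let B := Module.finBasis k ↥W
  have h1 : ∀ i, ∃ f ∈ PA k c m, (J.restrictScalars k).mkQ f = (B i : _) := fun i => (B i).2
  choose b hb hb2 using h1
  refine ⟨b, ⟨hb, ?_, ?_⟩⟩
  · have h2 : (fun i => (J.restrictScalars k).mkQ (b i)) = fun i => (W.subtype (B i)) := by
      funext i; exact hb2 i
    rw [h2]
    exact B.linearIndependent.map' W.subtype (Submodule.ker_subtype _)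
  · intro f hf
    let w : ↥W := ⟨(J.restrictScalars k).mkQ f, Submodule.mem_map_of_mem hf⟩
    refine ⟨∑ i, B.repr w i • b i, Submodule.sum_mem _ fun i _ =>
      Submodule.smul_mem _ _ (Submodule.subset_span ⟨i, rfl⟩), ?_⟩
    have h3 : (J.restrictScalars k).mkQ (∑ i, B.repr w i • b i) = (w : _) := by
      conv_rhs => rw [← B.sum_repr w, AddSubmonoidClass.coe_finsetSum]
      rw [map_sum]
      simp only [map_smul, hb2, SetLike.val_smul]
    have h4 : (J.restrictScalars k).mkQ (f - ∑ i, B.repr w i • b i) = 0 := by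
      rw [map_sub, h3]
      exact sub_self _
    exact (Submodule.Quotient.mk_eq_zero _).1 h4

/-! ### surjectivity -/

/-- conjugating a generator -/
theorem Az_conj {c : S → I} (h : Comp a θ c) {σ : Equiv.Perm S} (hσ : σ ∈ TP c)
    {e : Finset S × Finset S} (g : MvPolynomial S k) :
    Az k c (KK k a (act σ e) * g) = sg k σ • Az k c (KK k a e * rename (σ⁻¹ : Equiv.Perm S) g) := by
  have h1 : KK k a (act σ e) * g =
      rename σ (KK k a e * rename (σ⁻¹ : Equiv.Perm S) g) := by
    rw [map_mul, rename_KK k h hσ, rename_mul, mul_inv_cancel]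
    congr 1
    rw [Equiv.Perm.coe_one, rename_id_apply]
  rw [h1, Az_rename k hσ]

theorem Az_stab [CharZero k] {c : S → I} (h : Comp a θ c) (e : Finset S × Finset S)
    (g : MvPolynomial S k) :
    Az k c (KK k a e * g) = ((TP (cE c e)).card : k)⁻¹ • Az k c (KK k a e * Az k (cE c e) g) := by
  have h1 : KK k a e * Az k (cE c e) g = Az k (cE c e) (KK k a e * g) := by
    rw [Az_apply, Az_apply, Finset.mul_sum]
    refine Finset.sum_congr rfl fun σ hσ => ?_
    rw [map_mul, rename_KK k h (TP_cE_subset c e hσ), act_of_mem_TP_cE hσ,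
      Algebra.mul_smul_comm]
  rw [h1, Az_Az k (TP_cE_subset c e), smul_smul, inv_mul_cancel₀ (card_TP_ne_zero k _), one_smul]

theorem dK_act {c : S → I} (h : Comp a θ c) {σ : Equiv.Perm S} (hσ : σ ∈ TP c)
    (e : Finset S × Finset S) : dK a (act σ e) = dK a e := by
  have key : ∀ X Y : Finset S, ∑ p ∈ X.image σ ×ˢ Y.image σ, a p.1 p.2 =
      ∑ p ∈ X ×ˢ Y, a p.1 p.2 := by
    intro X Y
    rw [← Finset.prodMap_image_product,
      Finset.sum_image fun x _ y _ hxy => (σ.injective.prodMap σ.injective) hxy]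
    exact Finset.sum_congr rfl fun p _ => (h.ha' hσ p.1 p.2).symm
  unfold dK act
  simp only
  rw [← image_compl', ← image_compl', ← Finset.image_sdiff _ _ σ.injective, key, key]

theorem exists_step [CharZero k] {c : S → I} (h : Comp a θ c) {ι : Type} [Fintype ι]
    (τ : ι → Finset S × Finset S)
    (hs : ∀ e ∈ Idx θ, ∃ i, ∃ σ ∈ TP c, act σ (τ i) = e) {n : ℕ} {L : ℤ}
    {f : MvPolynomial S k} (hf : f ∈ PA k c n) (hL : f ∈ Fl k a θ L) :
    ∃ g : ι → MvPolynomial S k, (∀ i, g i ∈ PA k (cE c (τ i)) (n - dK a (τ i))) ∧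
      (∀ i, n < dK a (τ i) → g i = 0) ∧ (∀ i, ee θ (τ i) ≠ L → g i = 0) ∧
      f - ∑ i, Az k c (KK k a (τ i) * g i) ∈ Fl k a θ (L + 1) := by
  classical
  obtain ⟨G, hG1, hG2, hG3⟩ := exists_hom_sum k a θ hL hf.2
  have hs' : ∀ e, ∃ i, ∃ σ, e ∈ Idx θ → σ ∈ TP c ∧ act σ (τ i) = e := by
    intro e
    by_cases he : e ∈ Idx θ
    · obtain ⟨i, σ, h1, h2⟩ := hs e he
      exact ⟨i, σ, fun _ => ⟨h1, h2⟩⟩
    · obtain ⟨i, _⟩ := hs (∅, ∅) (diag_mem_Idx θ ∅)
      exact ⟨i, 1, fun h => absurd h he⟩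
  choose i0 σ0 h0 using hs'
  let N : k := (TP c).card
  have hN : N ≠ 0 := card_TP_ne_zero k c
  let M : ι → k := fun i => (TP (cE c (τ i))).card
  have hM : ∀ i, M i ≠ 0 := fun i => card_TP_ne_zero k _
  let g : ι → MvPolynomial S k := fun i => ∑ e ∈ (lev θ L).filter (fun e => i0 e = i),
    (N⁻¹ * sg k (σ0 e) * (M i)⁻¹) • Az k (cE c (τ i)) (rename ((σ0 e)⁻¹ : Equiv.Perm S) (G e))
  have hdK : ∀ e ∈ Idx θ, dK a e = dK a (τ (i0 e)) := by
    intro e he
    have := dK_act h (h0 e he).1 (τ (i0 e))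
    rw [(h0 e he).2] at this
    exact this
  refine ⟨g, ?_, ?_, ?_, ?_⟩
  · intro i
    refine Submodule.sum_mem _ fun e he => Submodule.smul_mem _ _ ?_
    rw [mem_filter, mem_lev] at he
    refine ⟨Az_mem k _ _, Az_hom k _ ?_⟩
    have := hG1 e
    rw [hdK e he.1.1, he.2] at this
    exact this.rename_isHomogeneous
  · intro i hi
    refine Finset.sum_eq_zero fun e he => ?_
    rw [mem_filter, mem_lev] at he
    rw [hG2 e (by rw [hdK e he.1.1, he.2]; exact hi), map_zero, map_zero, smul_zero]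
  · intro i hi
    refine Finset.sum_eq_zero fun e he => ?_
    rw [mem_filter, mem_lev] at he
    refine absurd ?_ hi
    have h1 := ee_act h (h0 e he.1.1).1 (τ (i0 e))
    rw [(h0 e he.1.1).2] at h1
    rw [← he.1.2, h1, he.2]
  · have h1 : ∑ i, Az k c (KK k a (τ i) * g i) = ∑ e ∈ lev θ L, N⁻¹ • Az k c (KK k a e * G e) := by
      rw [← Finset.sum_fiberwise (lev θ L) i0]
      refine Finset.sum_congr rfl fun i _ => ?_
      rw [Finset.mul_sum, map_sum]
      refine Finset.sum_congr rfl fun e he => ?_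
      rw [mem_filter, mem_lev] at he
      have h2 := h0 e he.1.1
      have h3 : Az k c (KK k a e * G e) = sg k (σ0 e) • (M i)⁻¹ •
          Az k c (KK k a (τ i) * Az k (cE c (τ i)) (rename ((σ0 e)⁻¹ : Equiv.Perm S) (G e))) := by
        have h4 := Az_conj k h h2.1 (e := τ (i0 e)) (G e)
        rw [h2.2] at h4
        rw [h4, Az_stab k h, he.2]
      rw [h3, Algebra.mul_smul_comm, map_smul, smul_smul, smul_smul, mul_assoc]
    have h4 : f = ∑ e ∈ (Idx θ).filter (fun e => L ≤ ee θ e), N⁻¹ • Az k c (KK k a e * G e) := by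
      have h5 := Az_of_mem k hf.1
      rw [← Finset.smul_sum, ← map_sum, ← hG3, h5, smul_smul, inv_mul_cancel₀ hN, one_smul]
    rw [h1]
    have h6 : lev θ L ⊆ (Idx θ).filter (fun e => L ≤ ee θ e) := by
      intro e he
      rw [mem_lev] at he
      rw [mem_filter]
      exact ⟨he.1, he.2.ge⟩
    have h7 : f - ∑ e ∈ lev θ L, N⁻¹ • Az k c (KK k a e * G e) =
        ∑ e ∈ (Idx θ).filter (fun e => L ≤ ee θ e) \ lev θ L,
          N⁻¹ • Az k c (KK k a e * G e) := by
      rw [sub_eq_iff_eq_add, Finset.sum_sdiff h6]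
      exact h4
    rw [h7]
    refine Ideal.sum_mem _ fun e he => smul_mem_ideal k _ _ (Az_mem_Fl k h ?_)
    rw [mem_sdiff, mem_filter, mem_lev] at he
    refine mem_Fl_of_dvd k a θ he.1.1 ?_ ⟨_, rfl⟩
    have h8 : ee θ e ≠ L := fun h => he.2 ⟨he.1.1, h⟩
    have h9 := he.1.2
    omega

/-! ### the basis -/

/-- **Labelled HN, antisymmetric part: dimension formula.** -/
theorem finrank_PA [CharZero k] {c : S → I} (h : Comp a θ c) {ι : Type} [Fintype ι]
    (τ : ι → Finset S × Finset S) (hτ : ∀ i, τ i ∈ Idx θ)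
    (hs : ∀ e ∈ Idx θ, ∃ i, ∃ σ ∈ TP c, act σ (τ i) = e)
    (hinj : ∀ i j, ∀ σ ∈ TP c, act σ (τ i) = τ j → i = j) (n : ℕ) :
    Module.finrank k ↥(PA k c n) = ∑ i ∈ univ.filter (fun i => dK a (τ i) ≤ n),
      hd k (cE c (τ i)) (II k a θ (τ i)) (n - dK a (τ i)) := by
  classical
  have hex := fun i => exists_adapted k (cE c (τ i)) (II k a θ (τ i)) (n - dK a (τ i))
  choose b hb using hex
  let ι' := {i : ι // dK a (τ i) ≤ n}
  let κ := Σ i : ι', Fin (hd k (cE c (τ i.1)) (II k a θ (τ i.1)) (n - dK a (τ i.1)))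
  let B : κ → MvPolynomial S k := fun p => Az k c (KK k a (τ p.1.1) * b p.1.1 p.2)
  have hBmem : ∀ p, B p ∈ PA k c n := by
    intro p
    refine ⟨Az_mem k _ _, Az_hom k _ ?_⟩
    have h1 := (KK_hom k a (τ p.1.1)).mul ((hb p.1.1).mem p.2).2
    rwa [Nat.add_sub_cancel' p.1.2] at h1
  have hindep : LinearIndependent k B := by
    rw [Fintype.linearIndependent_iff]
    intro x hx
    by_contra hcon
    push Not at hcon
    obtain ⟨p0, hp0⟩ := hcon
    let g : ι' → MvPolynomial S k := fun i => ∑ j, x ⟨i, j⟩ • b i.1 j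
    let bad : Finset ι' := univ.filter fun i => g i ≠ 0
    have hgx : ∀ i : ι', g i ∈ II k a θ (τ i.1) → ∀ j, x ⟨i, j⟩ = 0 := by
      intro i hi
      have h1 := (hb i.1).indep
      rw [Fintype.linearIndependent_iff] at h1
      refine h1 (fun j => x ⟨i, j⟩) ?_
      have h2 : ((II k a θ (τ i.1)).restrictScalars k).mkQ (g i) = 0 :=
        (Submodule.Quotient.mk_eq_zero _).2 hi
      rw [← h2, map_sum]
      simp only [map_smul]
    have hbad : bad.Nonempty := by
      refine ⟨p0.1, ?_⟩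
      rw [mem_filter]
      refine ⟨mem_univ _, fun h1 => hp0 ?_⟩
      exact hgx p0.1 (by rw [h1]; exact Ideal.zero_mem _) p0.2
    obtain ⟨i₀, hi₀, hmin⟩ := bad.exists_min_image (fun i => ee θ (τ i.1)) hbad
    have h2 : g i₀ ∈ II k a θ (τ i₀.1) := by
      refine key_zero k h (fun i : ι' => τ i.1) (fun i => hτ i.1)
        (fun i j σ hσ hact => Subtype.ext (hinj i.1 j.1 σ hσ hact)) g ?_ i₀ ?_ ?_
      · intro i
        exact Submodule.sum_mem _ fun j _ => Submodule.smul_mem _ _ ((hb i.1).mem j).1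
      · intro i hi
        exact hmin i (by rw [mem_filter]; exact ⟨mem_univ _, hi⟩)
      · have h3 : ∑ i : ι', Az k c (KK k a (τ i.1) * g i) = 0 := by
          rw [← hx, Fintype.sum_sigma]
          refine Finset.sum_congr rfl fun i _ => ?_
          rw [Finset.mul_sum, map_sum]
          refine Finset.sum_congr rfl fun j _ => ?_
          rw [Algebra.mul_smul_comm, map_smul]
        rw [h3]
        exact Ideal.zero_mem _
    have h3 := hgx i₀ h2
    rw [mem_filter] at hi₀
    refine hi₀.2 (Finset.sum_eq_zero fun j _ => ?_)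
    rw [h3 j, zero_smul]
  have hspan : PA k c n = Submodule.span k (Set.range B) := by
    apply le_antisymm
    · -- downward induction on the level
      obtain ⟨Lmax, hmax⟩ : ∃ Lmax : ℤ, Fl k a θ Lmax = ⊥ := ⟨_, Fl_eq_bot k a θ (lt_add_one _)⟩
      obtain ⟨Lmin, hLmin⟩ : ∃ Lmin : ℤ, Fl k a θ Lmin = ⊤ := ⟨_, Fl_eq_top k a θ le_rfl⟩
      have key : ∀ (t : ℕ), ∀ f ∈ PA k c n, f ∈ Fl k a θ (Lmax - t) →
          f ∈ Submodule.span k (Set.range B) := by
        intro t
        induction t with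
        | zero =>
          intro f _ hfL
          rw [Nat.cast_zero, sub_zero, hmax, Ideal.mem_bot] at hfL
          rw [hfL]; exact Submodule.zero_mem _
        | succ t ih =>
          intro f hf hfL
          obtain ⟨g, hg1, hg2, hg3, hg4⟩ := exists_step k h τ hs hf hfL
          have hex2 : ∀ i, ∃ h' : MvPolynomial S k, (n < dK a (τ i) → h' = 0) ∧
              (ee θ (τ i) ≠ Lmax - (t + 1 : ℕ) → h' = 0) ∧
              h' ∈ Submodule.span k (Set.range (b i)) ∧ g i - h' ∈ II k a θ (τ i) := by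
            intro i
            by_cases h1 : g i = 0
            · refine ⟨0, fun _ => rfl, fun _ => rfl, Submodule.zero_mem _, ?_⟩
              rw [h1, sub_zero]; exact Ideal.zero_mem _
            · obtain ⟨h', hh1, hh2⟩ := (hb i).span (g i) (hg1 i)
              exact ⟨h', fun h2 => absurd (hg2 i h2) h1, fun h2 => absurd (hg3 i h2) h1, hh1, hh2⟩
          choose h' h1 h2 h3 h4 using hex2
          have h5 : ∀ i, Az k c (KK k a (τ i) * h' i) ∈ Submodule.span k (Set.range B) := by
            intro i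
            by_cases h6 : dK a (τ i) ≤ n
            · obtain ⟨x, hx⟩ := (Submodule.mem_span_range_iff_exists_fun k).1 (h3 i)
              rw [← hx, Finset.mul_sum, map_sum]
              refine Submodule.sum_mem _ fun j _ => ?_
              rw [Algebra.mul_smul_comm, map_smul]
              exact Submodule.smul_mem _ _ (Submodule.subset_span ⟨⟨⟨i, h6⟩, j⟩, rfl⟩)
            · rw [h1 i (not_le.1 h6), mul_zero, map_zero]
              exact Submodule.zero_mem _
          have h7 : f - ∑ i, Az k c (KK k a (τ i) * h' i) ∈ Fl k a θ (Lmax - t) := by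
            have h8 : f - ∑ i, Az k c (KK k a (τ i) * h' i) =
                (f - ∑ i, Az k c (KK k a (τ i) * g i)) +
                  ∑ i, Az k c (KK k a (τ i) * (g i - h' i)) := by
              simp only [mul_sub, map_sub, Finset.sum_sub_distrib]
              abel
            have h9 : (Lmax - t : ℤ) = Lmax - (t + 1 : ℕ) + 1 := by push_cast; ring
            rw [h8, h9]
            refine add_mem hg4 (Ideal.sum_mem _ fun i _ => ?_)
            by_cases h10 : ee θ (τ i) = Lmax - (t + 1 : ℕ)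
            · refine Az_mem_Fl k h ?_
              rw [← h10]
              exact KK_mul_mem k a θ (hτ i) (h4 i)
            · rw [hg3 i h10, h2 i h10, sub_zero, mul_zero, map_zero]
              exact Ideal.zero_mem _
          have h8 : f - ∑ i, Az k c (KK k a (τ i) * h' i) ∈ PA k c n := by
            refine Submodule.sub_mem _ hf (Submodule.sum_mem _ fun i _ => ?_)
            have h9 := h5 i
            refine (Submodule.span_le.2 ?_ : Submodule.span k (Set.range B) ≤ PA k c n) h9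
            rintro _ ⟨p, rfl⟩
            exact hBmem p
          have h9 := ih _ h8 h7
          have h10 : f = (f - ∑ i, Az k c (KK k a (τ i) * h' i)) +
              ∑ i, Az k c (KK k a (τ i) * h' i) := by abel
          rw [h10]
          exact Submodule.add_mem _ h9 (Submodule.sum_mem _ fun i _ => h5 i)
      intro f hf
      refine key (Lmax - Lmin).toNat f hf ?_
      have h1 : Lmax - ((Lmax - Lmin).toNat : ℤ) ≤ Lmin := by
        have := Int.self_le_toNat (Lmax - Lmin)
        omega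
      have h2 := Fl_mono k a θ h1
      rw [hLmin] at h2
      exact h2 trivial
    · rw [Submodule.span_le]
      rintro _ ⟨p, rfl⟩
      exact hBmem p
  rw [hspan, finrank_span_eq_card hindep, Fintype.card_sigma]
  simp only [Fintype.card_fin]
  rw [Finset.sum_subtype (univ.filter fun i => dK a (τ i) ≤ n) (p := fun i => dK a (τ i) ≤ n)
    (by intro i; simp) (fun i => hd k (cE c (τ i)) (II k a θ (τ i)) (n - dK a (τ i)))]

end

end Vale.Agent.P066.Lab.HN
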