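import Vale.Agent.P066.Lab.Slice

/-!
Kuenneth: independence and spanning of products of polynomials in disjoint blocks of variables,
modulo the sum of ideals generated by polynomials in the blocks.
-/

namespace Vale.Agent.P066.Lab

open MvPolynomial

variable {S : Type*} {k : Type*} [Field k] {ι : Type*}
variable (B : ι → Set S) [∀ j, DecidablePred (· ∈ B j)] (l : ι → MvPolynomial S k →ₗ[k] k)

/-- Iterated slice along the blocks of a list. -/
noncomputable def sliceL : List ι → MvPolynomial S k →ₗ[k] MvPolynomial S k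
  | [] => LinearMap.id
  | j :: L => (slice (B j) (l j)).comp (sliceL L)

theorem sliceL_nil (f : MvPolynomial S k) : sliceL B l [] f = f := rfl

theorem sliceL_cons (j : ι) (L : List ι) (f : MvPolynomial S k) :
    sliceL B l (j :: L) f = slice (B j) (l j) (sliceL B l L f) := rfl

variable {B l}

theorem sliceL_mem {G : ι → Set (MvPolynomial S k)} (hB : Pairwise (Function.onFun Disjoint B))
    (hG : ∀ j, G j ⊆ supported k (B j)) {i : ι} {L : List ι} (hi : i ∉ L)
    {f : MvPolynomial S k} (hf : f ∈ Ideal.span (G i)) : sliceL B l L f ∈ Ideal.span (G i) := by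
  induction L with
  | nil => exact hf
  | cons j L ih =>
    rw [List.mem_cons, not_or] at hi
    rw [sliceL_cons]
    apply slice_mem_of_mem (B j) (l j) (G := G i) _ (ih hi.2)
    intro x hx
    have hsub : B i ⊆ (B j)ᶜ := by
      have := hB hi.1
      exact this.subset_compl_right
    exact supported_mono hsub (hG i hx)

theorem sliceL_eq_zero {G : ι → Set (MvPolynomial S k)} (hB : Pairwise (Function.onFun Disjoint B))
    (hG : ∀ j, G j ⊆ supported k (B j))
    (hl : ∀ j, ∀ f ∈ Ideal.span (G j), l j f = 0) {i : ι} {L : List ι} (hi : i ∈ L)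
    {f : MvPolynomial S k} (hf : f ∈ Ideal.span (G i)) : sliceL B l L f = 0 := by
  classical
  induction L with
  | nil => simp at hi
  | cons j L ih =>
    rw [sliceL_cons]
    by_cases hiL : i ∈ L
    · rw [ih hiL, map_zero]
    · have hij : i = j := by
        rcases List.mem_cons.mp hi with h | h
        · exact h
        · exact absurd h hiL
      subst hij
      exact slice_eq_zero_of_mem (B i) (l i) (hG i) (fun f hf _ => hl i f hf)
        (sliceL_mem hB hG hiL hf)

theorem sliceL_mul_left {L : List ι} {g : MvPolynomial S k}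
    (hg : ∀ j ∈ L, g ∈ supported k (B j)ᶜ) (f : MvPolynomial S k) :
    sliceL B l L (g * f) = g * sliceL B l L f := by
  induction L with
  | nil => rfl
  | cons j L ih =>
    rw [sliceL_cons, sliceL_cons, ih fun i hi => hg i (List.mem_cons_of_mem _ hi),
      slice_mul_left _ _ (hg j List.mem_cons_self)]

theorem sliceL_prod (hB : Pairwise (Function.onFun Disjoint B)) {L : List ι} (hL : L.Nodup)
    {v : ι → MvPolynomial S k} (hv : ∀ j, v j ∈ supported k (B j)) :
    sliceL B l L ((L.map v).prod) = C ((L.map fun j => l j (v j)).prod) := by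
  induction L with
  | nil => simp [sliceL_nil]
  | cons j L ih =>
    rw [List.nodup_cons] at hL
    have hvj : ∀ i ∈ L, v j ∈ supported k (B i)ᶜ := by
      intro i hi
      have hij : j ≠ i := fun h => hL.1 (h ▸ hi)
      have : B j ⊆ (B i)ᶜ := (hB hij).subset_compl_right
      exact supported_mono this (hv j)
    rw [List.map_cons, List.prod_cons, sliceL_cons, sliceL_mul_left hvj, ih hL.2, mul_comm,
      slice_mul_left _ _ (by exact algebraMap_mem (supported k (B j)ᶜ) _),
      slice_of_supported _ _ (hv j), List.map_cons, List.prod_cons, map_mul, mul_comm]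

theorem sliceL_eq_zero_of_iSup {G : ι → Set (MvPolynomial S k)}
    (hB : Pairwise (Function.onFun Disjoint B)) (hG : ∀ j, G j ⊆ supported k (B j))
    (hl : ∀ j, ∀ f ∈ Ideal.span (G j), l j f = 0) {L : List ι} (hL : ∀ i, i ∈ L)
    {f : MvPolynomial S k} (hf : f ∈ ⨆ j, Ideal.span (G j)) : sliceL B l L f = 0 := by
  refine Submodule.iSup_induction (fun j => Ideal.span (G j))
    (motive := fun f => sliceL B l L f = 0) hf ?_ ?_ ?_
  · intro i x hx
    exact sliceL_eq_zero hB hG hl (hL i) hx
  · exact map_zero _
  · intro x y hx hy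
    rw [map_add, hx, hy, add_zero]

theorem exists_dual {M κ : Type*} [AddCommGroup M] [Module k M] {v : κ → M}
    (hv : LinearIndependent k v) (i₀ : κ) :
    ∃ φ : M →ₗ[k] k, φ (v i₀) = 1 ∧ ∀ i, i ≠ i₀ → φ (v i) = 0 := by
  classical
  obtain ⟨g, hg⟩ := LinearMap.exists_leftInverse_of_injective
    (Finsupp.linearCombination k v) (LinearMap.ker_eq_bot.mpr hv)
  have h1 : ∀ i, g (v i) = Finsupp.single i 1 := by
    intro i
    have := LinearMap.congr_fun hg (Finsupp.single i 1)
    simpa using this
  refine ⟨(Finsupp.lapply i₀).comp g, ?_, ?_⟩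
  · simp [h1]
  · intro i hi
    simp [h1, hi]

/-- (K1, independence) Products of families of polynomials in disjoint blocks of variables, each
independent modulo an ideal generated by polynomials of the block, are independent modulo the sum
of the ideals. -/
theorem linearIndependent_prod [Fintype ι] {G : ι → Set (MvPolynomial S k)}
    {B : ι → Set S} (hB : Pairwise (Function.onFun Disjoint B))
    (hG : ∀ j, G j ⊆ supported k (B j))
    {κ : ι → Type*} (v : ∀ j, κ j → MvPolynomial S k) (hv : ∀ j i, v j i ∈ supported k (B j))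
    (hind : ∀ j, LinearIndependent k (fun i => Ideal.Quotient.mk (Ideal.span (G j)) (v j i))) :
    LinearIndependent k
      (fun f : (∀ j, κ j) => Ideal.Quotient.mk (⨆ j, Ideal.span (G j)) (∏ j, v j (f j))) := by
  classical
  rw [linearIndependent_iff']
  intro s g hsum f₀ hf₀
  choose φ hφ1 hφ0 using fun j => exists_dual (hind j) (f₀ j)
  let l : ι → MvPolynomial S k →ₗ[k] k := fun j =>
    (φ j).comp (Ideal.Quotient.mkₐ k (Ideal.span (G j))).toLinearMap
  have hl : ∀ j, ∀ f ∈ Ideal.span (G j), l j f = 0 := by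
    intro j f hf
    have : Ideal.Quotient.mk (Ideal.span (G j)) f = 0 := Ideal.Quotient.eq_zero_iff_mem.mpr hf
    simp [l, this]
  have hmem : (∑ f ∈ s, g f • ∏ j, v j (f j)) ∈ ⨆ j, Ideal.span (G j) := by
    rw [← Ideal.Quotient.eq_zero_iff_mem, map_sum]
    rw [← hsum]
    refine Finset.sum_congr rfl fun f _ => ?_
    exact map_smul (Ideal.Quotient.mkₐ k (⨆ j, Ideal.span (G j))) (g f) (∏ j, v j (f j))
  have hzero := sliceL_eq_zero_of_iSup (B := B) (l := l) hB hG hl
    (L := Finset.univ.toList) (by intro i; simp) hmem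
  rw [map_sum] at hzero
  have hval : ∀ f : (∀ j, κ j), sliceL B l Finset.univ.toList (∏ j, v j (f j)) =
      C (∏ j, l j (v j (f j))) := by
    intro f
    have := sliceL_prod (B := B) (l := l) hB (L := Finset.univ.toList) (Finset.nodup_toList _)
      (v := fun j => v j (f j)) (fun j => hv j (f j))
    rw [Finset.prod_map_toList, Finset.prod_map_toList] at this
    exact this
  have hsum2 : (∑ f ∈ s, g f • ∏ j, l j (v j (f j))) = 0 := by
    apply C_injective S k
    rw [map_sum, map_zero, ← hzero]
    refine Finset.sum_congr rfl fun f _ => ?_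
    rw [LinearMap.map_smul, hval, smul_eq_mul, C_mul, smul_eq_C_mul]
  rw [Finset.sum_eq_single_of_mem f₀ hf₀] at hsum2
  · have : ∏ j, l j (v j (f₀ j)) = 1 := Finset.prod_eq_one fun j _ => by
      simpa [l] using hφ1 j
    rw [this, smul_eq_mul, mul_one] at hsum2
    exact hsum2
  · intro f _ hne
    obtain ⟨j, hj⟩ : ∃ j, f j ≠ f₀ j := by
      by_contra h
      push Not at h
      exact hne (funext h)
    have : l j (v j (f j)) = 0 := by simpa [l] using hφ0 j (f j) hj
    rw [Finset.prod_eq_zero (Finset.mem_univ j) this, smul_zero]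

/-- A polynomial in the variables of the union of the blocks is a combination of products of
polynomials in the blocks. -/
theorem mem_span_prod_of_supported [Fintype ι] {B : ι → Set S}
    (hB : Pairwise (Function.onFun Disjoint B)) {f : MvPolynomial S k}
    (hf : f ∈ supported k (⋃ j, B j)) :
    f ∈ Submodule.span k {h | ∃ v : ι → MvPolynomial S k, (∀ j, v j ∈ supported k (B j)) ∧
      h = ∏ j, v j} := by
  classical
  rw [f.as_sum]
  refine Submodule.sum_mem _ fun m hm => ?_
  have hsub := support_subset_of_supported hf hm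
  have : monomial m (coeff m f) =
      coeff m f • ∏ j, monomial (m.filter (· ∈ B j)) (1 : k) := by
    rw [← monomial_sum_one, smul_monomial, smul_eq_mul, mul_one]
    suffices h : m = ∑ j, m.filter (· ∈ B j) by rw [← h]
    ext s
    rw [Finsupp.finsetSum_apply]
    by_cases hs : m s = 0
    · rw [hs, eq_comm]
      refine Finset.sum_eq_zero fun j _ => ?_
      by_cases hsj : s ∈ B j
      · rw [Finsupp.filter_apply_pos _ _ hsj, hs]
      · rw [Finsupp.filter_apply_neg _ _ hsj]
    · have hs' : s ∈ ⋃ j, B j := hsub (by simpa using hs)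
      obtain ⟨j, hj⟩ := Set.mem_iUnion.mp hs'
      rw [Finset.sum_eq_single j]
      · rw [Finsupp.filter_apply_pos _ _ hj]
      · intro i _ hij
        rw [Finsupp.filter_apply_neg]
        intro hsi
        exact Set.disjoint_left.mp (hB hij) hsi hj
      · simp
  rw [this]
  refine Submodule.smul_mem _ _ (Submodule.subset_span ⟨_, fun j => ?_, rfl⟩)
  apply monomial_mem_supported
  intro s hs
  have hs' : s ∈ (m.filter (· ∈ B j)).support := by exact_mod_cast hs
  rw [Finsupp.support_filter, Finset.mem_filter] at hs'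
  exact hs'.2

theorem prod_sub_prod_mem [Fintype ι] {J : ι → Ideal (MvPolynomial S k)}
    {v w : ι → MvPolynomial S k} (h : ∀ j, v j - w j ∈ J j) :
    (∏ j, v j) - ∏ j, w j ∈ ⨆ j, J j := by
  have : Ideal.Quotient.mk (⨆ j, J j) (∏ j, v j) = Ideal.Quotient.mk (⨆ j, J j) (∏ j, w j) := by
    rw [map_prod, map_prod]
    refine Finset.prod_congr rfl fun j _ => ?_
    rw [Ideal.Quotient.eq]
    exact (le_iSup J j) (h j)
  rwa [Ideal.Quotient.eq] at this

theorem prod_mem_prod' {A : Type*} [CommRing A] [Algebra k A] (s : Finset ι)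
    {M : ι → Submodule k A} {w : ι → A} (hw : ∀ j ∈ s, w j ∈ M j) :
    (∏ j ∈ s, w j) ∈ ∏ j ∈ s, M j := by
  classical
  induction s using Finset.induction_on with
  | empty => exact Submodule.mem_one.mpr ⟨1, by simp⟩
  | insert a s ha ih =>
    rw [Finset.prod_insert ha, Finset.prod_insert ha]
    exact Submodule.mul_mem_mul (hw a (Finset.mem_insert_self _ _))
      (ih fun j hj => hw j (Finset.mem_insert_of_mem hj))

theorem prod_mem_span_prod [Fintype ι] {κ : ι → Type*} (v : ∀ j, κ j → MvPolynomial S k)
    {w : ι → MvPolynomial S k} (hw : ∀ j, w j ∈ Submodule.span k (Set.range (v j))) :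
    (∏ j, w j) ∈ Submodule.span k (Set.range fun f : (∀ j, κ j) => ∏ j, v j (f j)) := by
  classical
  have h1 : (∏ j, w j) ∈ ∏ j, Submodule.span k (Set.range (v j)) :=
    prod_mem_prod' _ fun j _ => hw j
  rw [Submodule.prod_span] at h1
  refine Submodule.span_mono ?_ h1
  intro x hx
  rw [Set.mem_fintype_prod] at hx
  obtain ⟨g, hg, rfl⟩ := hx
  choose f hf using hg
  exact ⟨f, Finset.prod_congr rfl fun j _ => hf j⟩

/-- (K1, spanning) -/
theorem exists_span_prod [Fintype ι] {J : ι → Ideal (MvPolynomial S k)}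
    {B : ι → Set S} (hB : Pairwise (Function.onFun Disjoint B))
    {κ : ι → Type*} (v : ∀ j, κ j → MvPolynomial S k)
    (hspan : ∀ j, ∀ f ∈ supported k (B j), ∃ g ∈ Submodule.span k (Set.range (v j)), f - g ∈ J j)
    {f : MvPolynomial S k} (hf : f ∈ supported k (⋃ j, B j)) :
    ∃ g ∈ Submodule.span k (Set.range fun f : (∀ j, κ j) => ∏ j, v j (f j)),
      f - g ∈ ⨆ j, J j := by
  have h := mem_span_prod_of_supported hB hf
  clear hf
  induction h using Submodule.span_induction with
  | mem x hx =>
    obtain ⟨w, hw, rfl⟩ := hx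
    choose g hg hg' using fun j => hspan j (w j) (hw j)
    exact ⟨∏ j, g j, prod_mem_span_prod v hg, prod_sub_prod_mem hg'⟩
  | zero => exact ⟨0, zero_mem _, by simp⟩
  | add x y _ _ hx hy =>
    obtain ⟨g, hg, hg'⟩ := hx
    obtain ⟨h, hh, hh'⟩ := hy
    refine ⟨g + h, add_mem hg hh, ?_⟩
    rw [add_sub_add_comm]
    exact add_mem hg' hh'
  | smul a x _ hx =>
    obtain ⟨g, hg, hg'⟩ := hx
    refine ⟨a • g, Submodule.smul_mem _ a hg, ?_⟩
    rw [← smul_sub, smul_eq_C_mul]
    exact Ideal.mul_mem_left _ _ hg'

end Vale.Agent.P066.Lab
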