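import Vale.Agent.P066.Lab.HN6
import Vale.Agent.P066.Lab.H99.HN5b
import Vale.Agent.P066.Lab.H180.HN4

/-!
# Block LA: the numeric Harder–Narasimhan identity `LAout`
-/

set_option autoImplicit false

open Finset MvPolynomial

namespace Vale.Agent.P066.Lab.HN

open Vale.Agent.P066.Theta.H422 (TP mem_TP Alt mem_Alt)

theorem kunProp : KunProp := by
  intro A B I I' _ _ _ _ _ _ _ _ cA cB JA JB hJA hJB m
  exact HN4.hd_sum cA cB hJA hJB m

theorem tauφ_phi {n : ℕ} {d d₁ d₀ d₂ : Fin n →₀ ℕ} (h : d₁ + (d₀ + d₂) = d) :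
    tauφ (H99.phi h) = H99.std d d₁ d₀ := by
  have hle1 : ∀ i, (fun _ : Fin n => 0) i + d₁ i ≤ d i := fun i => by
    rw [← h]; simp only [Finsupp.add_apply]; omega
  have hle0 : ∀ i, (fun i : Fin n => d₁ i) i + d₀ i ≤ d i := fun i => by
    rw [← h]; simp only [Finsupp.add_apply]; omega
  have e1 : (univ.image fun s => H99.phi h (Sum.inl s)) =
      univ.image (H99.emb (fun _ => 0) hle1) := rfl
  have e0 : (univ.image fun s => H99.phi h (Sum.inr (Sum.inl s))) =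
      univ.image (H99.emb (fun i => d₁ i) hle0) := rfl
  unfold tauφ
  rw [e1, e0]
  refine Prod.ext ?_ ?_
  · ext s
    rw [H99.image_emb, H99.mem_std1]
    simp
  · ext s
    rw [mem_union, H99.image_emb, H99.image_emb, H99.mem_std2]
    omega

theorem stdProp : StdProp := by
  intro n d
  refine ⟨fun d1 d0 d2 h => H99.phi h, ?_, ?_, ?_⟩
  · intro d1 d0 d2 h
    exact ⟨fun _ => rfl, fun _ => rfl, fun _ => rfl⟩
  · intro e he
    have h1 : e ∈ Idx (θP (0 : Fin n → ℤ) d) := by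
      rw [mem_Idx]
      refine ⟨he, ?_⟩
      unfold wS θP
      simp
    obtain ⟨x, hx, σ, hσ, h2, h3⟩ := H99.exists_tau h1
    rw [H99.mem_TT] at hx
    have h4 : x.1.1 + (x.2.1 + x.2.2) = d := by rw [hx.2.1, hx.1]
    refine ⟨x.1.1, x.2.1, x.2.2, h4, σ, (mem_TP _ _).2 hσ, ?_⟩
    rw [tauφ_phi h4]
    exact Prod.ext h2 h3
  · intro d1 d0 d2 h d1' d0' d2' h' σ hσ hact
    rw [tauφ_phi h, tauφ_phi h'] at hact
    have hx : (⟨(d1, d0 + d2), (d0, d2)⟩ : Σ _ : (Fin n →₀ ℕ) × (Fin n →₀ ℕ),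
        (Fin n →₀ ℕ) × (Fin n →₀ ℕ)) ∈ H99.TT (0 : Fin n → ℤ) d := by
      rw [H99.mem_TT]
      exact ⟨h, rfl, by simp [Theta.wt]⟩
    have hy : (⟨(d1', d0' + d2'), (d0', d2')⟩ : Σ _ : (Fin n →₀ ℕ) × (Fin n →₀ ℕ),
        (Fin n →₀ ℕ) × (Fin n →₀ ℕ)) ∈ H99.TT (0 : Fin n → ℤ) d := by
      rw [H99.mem_TT]
      exact ⟨h', rfl, by simp [Theta.wt]⟩
    have h1 := H99.tau_unique hx hy σ ((mem_TP _ _).1 hσ) (congrArg Prod.fst hact)
      (congrArg Prod.snd hact)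
    have h2 := congrArg (fun z => z.1.1) h1
    have h3 := congrArg (fun z => z.2.1) h1
    have h4 := congrArg (fun z => z.2.2) h1
    exact ⟨h2, h3, h4⟩

/-- **Block LA.** -/
theorem laout : LAout := laout_of kunProp stdProp

end Vale.Agent.P066.Lab.HN
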