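import Vale.Agent.P066.Lab.QTDefs

/-!
# The ordered product of the vertex dilogarithms
-/

set_option autoImplicit false

open Finset

namespace Vale.Agent.P066.Lab

open Vale.Agent.P066.Theta

noncomputable section

variable {n : ℕ}

theorem epsCoeff_zero (e : Bool) : epsCoeff e 0 = 1 := by
  cases e <;> simp [epsCoeff, psi]

theorem omega_single_left (B : Matrix (Fin n) (Fin n) ℤ) (i : Fin n) (k : ℕ) (q : Fin n → ℤ) :
    omega B (Theta.toZ (Finsupp.single i k)) q = ∑ j, (k : ℤ) * B i j * q j := by
  unfold omega Theta.toZ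
  rw [Finset.sum_eq_single i]
  · refine Finset.sum_congr rfl fun j _ => ?_
    simp
  · intro j _ hj
    refine Finset.sum_eq_zero fun j' _ => ?_
    rw [Finsupp.single_apply, if_neg (Ne.symm hj)]
    simp
  · intro h
    exact absurd (mem_univ i) h

theorem vtx_single (a : Fin n → Fin n → ℕ) (i : Fin n) (k : ℕ) :
    vtx a i (Finsupp.single i k) = epsCoeff (decide (a i i = 1)) k := by
  simp [vtx]

theorem vtx_eq_zero (a : Fin n → Fin n → ℕ) (i : Fin n) (γ : Fin n →₀ ℕ)
    (h : γ ≠ Finsupp.single i (γ i)) : vtx a i γ = 0 := by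
  simp [vtx, h]

/-- multiplication by a vertex dilogarithm from the left -/
theorem vtx_mul_apply (a : Fin n → Fin n → ℕ) (i : Fin n) (F : QSeries (Bq a))
    (hF : ∀ γ, F γ ≠ 0 → γ i = 0) (d : Fin n →₀ ℕ) :
    (vtx a i * F) d =
      v ^ (∑ j, (d i : ℤ) * Bq a i j * (Theta.toZ (d.erase i)) j) *
        epsCoeff (decide (a i i = 1)) (d i) * F (d.erase i) := by
  rw [QSeries.mul_apply, Finset.sum_eq_single (Finsupp.single i (d i), d.erase i)]
  · rw [vtx_single, omega_single_left]
  · rintro ⟨p, q⟩ hpq hne
    rw [HasAntidiagonal.mem_antidiagonal] at hpq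
    simp only at hpq
    by_cases h1 : p = Finsupp.single i (p i)
    · by_cases h2 : F q = 0
      · simp [h2]
      · exfalso
        have h3 := hF q h2
        apply hne
        have h4 : d i = p i := by
          rw [← hpq, Finsupp.add_apply, h3, add_zero]
        have h5 : q = d.erase i := by
          ext j
          by_cases hj : j = i
          · subst hj
            rw [h3, Finsupp.erase_same]
          · rw [Finsupp.erase_ne hj, ← hpq, Finsupp.add_apply]
            have : p j = 0 := by
              rw [h1, Finsupp.single_apply, if_neg (Ne.symm hj)]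
            rw [this, zero_add]
        rw [h4, ← h1, h5]
    · rw [vtx_eq_zero a i p h1]
      simp
  · intro h
    exfalso
    apply h
    rw [HasAntidiagonal.mem_antidiagonal]
    exact Finsupp.single_add_erase i d

/-- the exponent of the ordered product over the vertices of `s` -/
def expS (a : Fin n → Fin n → ℕ) (s : Finset (Fin n)) (d : Fin n →₀ ℕ) : ℤ :=
  ∑ i ∈ s, ∑ j ∈ s.filter (fun j => i < j), Bq a i j * d i * d j

theorem expS_insert (a : Fin n → Fin n → ℕ) (s : Finset (Fin n)) (i : Fin n)
    (hi : ∀ j ∈ s, i < j) (d : Fin n →₀ ℕ) :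
    expS a (insert i s) d = (∑ j ∈ s, Bq a i j * d i * d j) + expS a s d := by
  have hmem : i ∉ s := fun h => lt_irrefl _ (hi i h)
  unfold expS
  rw [Finset.sum_insert hmem]
  congr 1
  · refine Finset.sum_congr ?_ fun _ _ => rfl
    ext j
    simp only [mem_filter, mem_insert]
    constructor
    · rintro ⟨rfl | h, h'⟩
      · exact absurd h' (lt_irrefl _)
      · exact h
    · intro h
      exact ⟨Or.inr h, hi j h⟩
  · refine Finset.sum_congr rfl fun i' hi' => Finset.sum_congr ?_ fun _ _ => rfl
    ext j
    simp only [mem_filter, mem_insert]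
    constructor
    · rintro ⟨rfl | h, h'⟩
      · exact absurd (hi i' hi') (not_lt.2 h'.le)
      · exact ⟨h, h'⟩
    · rintro ⟨h, h'⟩
      exact ⟨Or.inr h, h'⟩

theorem list_prod_apply (a : Fin n → Fin n → ℕ) (l : List (Fin n)) (hl : l.Pairwise (· < ·))
    (d : Fin n →₀ ℕ) :
    ((l.map (vtx a)).prod : QSeries (Bq a)) d =
      if d.support ⊆ l.toFinset then
        v ^ expS a l.toFinset d * ∏ i ∈ l.toFinset, epsCoeff (decide (a i i = 1)) (d i)
      else 0 := by
  induction l generalizing d with
  | nil =>
    simp only [List.map_nil, List.prod_nil, List.toFinset_nil, subset_empty,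
      Finsupp.support_eq_empty, QSeries.one_apply]
    by_cases h : d = 0
    · simp [h, expS]
    · simp [h]
  | cons i l ih =>
    rw [List.pairwise_cons] at hl
    obtain ⟨hi, hl⟩ := hl
    have hi' : ∀ j ∈ l.toFinset, i < j := fun j hj => hi j (List.mem_toFinset.1 hj)
    have hmem : i ∉ l.toFinset := fun h => lt_irrefl _ (hi' i h)
    rw [List.map_cons, List.prod_cons, vtx_mul_apply]
    · rw [ih hl, List.toFinset_cons]
      have hsupp : ((d.erase i).support ⊆ l.toFinset) ↔ (d.support ⊆ insert i l.toFinset) := by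
        rw [Finsupp.support_erase, Finset.subset_insert_iff]
      by_cases h : d.support ⊆ insert i l.toFinset
      · rw [if_pos h, if_pos (hsupp.2 h), expS_insert a _ i hi', Finset.prod_insert hmem]
        have h1 : ∏ j ∈ l.toFinset, epsCoeff (decide (a j j = 1)) ((d.erase i) j) =
            ∏ j ∈ l.toFinset, epsCoeff (decide (a j j = 1)) (d j) := by
          refine Finset.prod_congr rfl fun j hj => ?_
          rw [Finsupp.erase_ne]
          rintro rfl
          exact hmem hj
        have h2 : expS a l.toFinset (d.erase i) = expS a l.toFinset d := by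
          unfold expS
          refine Finset.sum_congr rfl fun j hj => Finset.sum_congr rfl fun j' hj' => ?_
          rw [Finsupp.erase_ne, Finsupp.erase_ne]
          · rintro rfl
            exact hmem (mem_filter.1 hj').1
          · rintro rfl
            exact hmem hj
        have h3 : (∑ j, (d i : ℤ) * Bq a i j * (Theta.toZ (d.erase i)) j) =
            ∑ j ∈ l.toFinset, Bq a i j * d i * d j := by
          rw [← Finset.sum_subset (Finset.subset_univ l.toFinset)]
          · refine Finset.sum_congr rfl fun j hj => ?_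
            have : j ≠ i := by
              rintro rfl
              exact hmem hj
            unfold Theta.toZ
            rw [Finsupp.erase_ne this]
            ring
          · intro j _ hj
            have : (d.erase i) j = 0 := by
              by_contra h0
              exact hj ((hsupp.2 h) (Finsupp.mem_support_iff.2 h0))
            unfold Theta.toZ
            rw [this]
            simp
        rw [h1, h2, h3, zpow_add₀ v_ne_zero]
        ring
      · rw [if_neg h, if_neg (fun h' => h (hsupp.1 h')), mul_zero]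
    · intro γ hγ
      rw [ih hl] at hγ
      by_contra h0
      apply hγ
      rw [if_neg]
      intro h
      exact hmem (h (Finsupp.mem_support_iff.2 h0))

/-- coefficients of the ordered product -/
theorem Aq_apply (a : Fin n → Fin n → ℕ) (d : Fin n →₀ ℕ) :
    Aq a d = v ^ expS a univ d * ∏ i, epsCoeff (decide (a i i = 1)) (d i) := by
  have h := list_prod_apply a (List.finRange n) (List.pairwise_lt_finRange n) d
  rw [List.toFinset_finRange, if_pos (Finset.subset_univ _)] at h
  rw [← h]
  unfold Aq
  rw [List.ofFn_eq_map]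

/-- `c(d) = ∑ (d_i - a_ii d_i²) - (exponent of the ordered product)` if `a i j = 0` for `i < j` -/
theorem cq_eq (a : Fin n → Fin n → ℕ) (hab : ∀ i j, i < j → a i j = 0) (d : Fin n →₀ ℕ) :
    cq a d = -expS a univ d + ∑ i, ((d i : ℤ) - (a i i : ℤ) * (d i : ℤ) ^ 2) := by
  unfold cq aq expS deg
  have h1 : ∀ i : Fin n, ∑ j, (d i : ℤ) * (a i j : ℤ) * (d j : ℤ) =
      (a i i : ℤ) * (d i : ℤ) ^ 2 +
        ∑ j ∈ univ.filter (fun j => j < i), (d i : ℤ) * (a i j : ℤ) * (d j : ℤ) := by
    intro i
    rw [← Finset.sum_filter_add_sum_filter_not univ (fun j => j < i), add_comm]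
    congr 1
    rw [Finset.sum_eq_single i]
    · ring
    · intro j hj hne
      rw [mem_filter, not_lt] at hj
      rw [hab i j (lt_of_le_of_ne hj.2 (Ne.symm hne))]
      simp
    · intro h
      simp at h
  rw [Finset.sum_congr rfl fun i _ => h1 i, Finset.sum_add_distrib, Finset.sum_sub_distrib]
  have h2 : ∑ i : Fin n, ∑ j ∈ univ.filter (fun j => j < i), (d i : ℤ) * (a i j : ℤ) * (d j : ℤ) =
      ∑ i : Fin n, ∑ j ∈ univ.filter (fun j => i < j), Bq a i j * d i * d j := by
    simp only [Finset.sum_filter]
    rw [Finset.sum_comm]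
    refine Finset.sum_congr rfl fun i _ => Finset.sum_congr rfl fun j _ => ?_
    by_cases h : i < j
    · rw [if_pos h, if_pos h]
      unfold Bq
      rw [hab i j h]
      push_cast
      ring
    · rw [if_neg h, if_neg h]
  rw [h2]
  push_cast
  ring

/-- expansion of the ordered product at `u = 1/v = 0` -/
theorem toL_Aq (a : Fin n → Fin n → ℕ) (hab : ∀ i j, i < j → a i j = 0) (h1 : ∀ i, a i i ≤ 1)
    (SG : ℕ → LaurentSeries ℚ)
    (hf : ∀ m : ℕ, toL (epsCoeff false m) = uL ^ (m : ℤ) * SG m)
    (ht : ∀ m : ℕ, toL (epsCoeff true m) = uL ^ ((m : ℤ) - (m : ℤ) ^ 2) * SG m)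
    (d : Fin n →₀ ℕ) :
    toL (Aq a d) = uL ^ cq a d * ∏ i, SG (d i) := by
  rw [Aq_apply, map_mul, toL_v_zpow, map_prod, cq_eq a hab, zpow_add₀ uL_ne_zero, mul_assoc]
  congr 1
  have h2 : uL ^ ∑ i, ((d i : ℤ) - (a i i : ℤ) * (d i : ℤ) ^ 2) =
      ∏ i, uL ^ ((d i : ℤ) - (a i i : ℤ) * (d i : ℤ) ^ 2) := by
    induction (univ : Finset (Fin n)) using Finset.induction_on with
    | empty => simp
    | insert i s hi ih => rw [sum_insert hi, prod_insert hi, zpow_add₀ uL_ne_zero, ih]
  rw [h2, ← Finset.prod_mul_distrib]
  refine Finset.prod_congr rfl fun i _ => ?_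
  have h3 := h1 i
  interval_cases h : a i i
  · simp [hf]
  · simp [ht]

end

end Vale.Agent.P066.Lab
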