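import Vale.Agent.P066.Theta.H747.QuiverStatement

/-!
# From the numeric Harder-Narasimhan identity to the triple in the quantum torus

`hilb f = ∑_k f k u^{2k}`, `u = v⁻¹`.  If `F d = u^{c(d)} hilb (P d)`, `c(d) = |d| - a(d,d)`, and the
numbers `P d k` satisfy the Harder-Narasimhan identity with `rp`, `r0`, `rm`, then the triple of `F`
has the coefficients `u^{c(d)} hilb (rp d)`, `u^{c(d)} hilb (r0 d)`, `u^{c(d)} hilb (rm d)`.
-/

set_option autoImplicit false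

open Finset

namespace Vale.Agent.P066.Lab.QT2

open Vale.Agent.P066.Theta

noncomputable section

/-! ### uniqueness of a twisted triple product -/

section Conv

variable {n : ℕ} {R : Type*} [CommRing R] (T : (Fin n →₀ ℕ) → (Fin n →₀ ℕ) → R)

/-- twisted convolution -/
def tconv (f g : (Fin n →₀ ℕ) → R) (γ : Fin n →₀ ℕ) : R :=
  ∑ p ∈ antidiagonal γ, T p.1 p.2 * f p.1 * g p.2

theorem tconv_zero {f g : (Fin n →₀ ℕ) → R} (hT : ∀ γ, T 0 γ = 1) :
    tconv T f g 0 = f 0 * g 0 := by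
  simp [tconv, hT]

theorem tconv_congr {f g f' g' : (Fin n →₀ ℕ) → R} {γ : Fin n →₀ ℕ}
    (hf : ∀ δ, δ ≤ γ → f δ = f' δ) (hg : ∀ δ, δ ≤ γ → g δ = g' δ) :
    tconv T f g γ = tconv T f' g' γ := by
  refine sum_congr rfl fun p hp => ?_
  rw [HasAntidiagonal.mem_antidiagonal] at hp
  rw [hf p.1 (hp ▸ le_self_add), hg p.2 (hp ▸ le_add_self)]

/-- the inner part of the convolution -/
def inner (f g : (Fin n →₀ ℕ) → R) (γ : Fin n →₀ ℕ) : R :=
  ∑ p ∈ (antidiagonal γ).filter (fun p => p.1 ≠ 0 ∧ p.2 ≠ 0), T p.1 p.2 * f p.1 * g p.2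

theorem tconv_eq_inner {f g : (Fin n →₀ ℕ) → R} {γ : Fin n →₀ ℕ} (hγ : γ ≠ 0)
    (hT : ∀ γ, T 0 γ = 1) (hT' : ∀ γ, T γ 0 = 1) (hf : f 0 = 1) (hg : g 0 = 1) :
    tconv T f g γ = f γ + g γ + inner T f g γ := by
  classical
  have h1 : (antidiagonal γ).filter (fun p => ¬ (p.1 ≠ 0 ∧ p.2 ≠ 0)) = {(γ, 0), (0, γ)} := by
    ext ⟨x, y⟩
    simp only [mem_filter, HasAntidiagonal.mem_antidiagonal, mem_insert, mem_singleton,
      Prod.mk.injEq]
    constructor
    · rintro ⟨h, h'⟩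
      by_cases hx : x = 0
      · right
        subst hx
        exact ⟨rfl, by simpa using h⟩
      · left
        have hy : y = 0 := by
          by_contra hy
          exact h' ⟨hx, hy⟩
        subst hy
        exact ⟨by simpa using h, rfl⟩
    · rintro (⟨rfl, rfl⟩ | ⟨rfl, rfl⟩)
      · exact ⟨add_zero _, fun h => h.2 rfl⟩
      · exact ⟨zero_add _, fun h => h.1 rfl⟩
  have h2 : ((γ, 0) : (Fin n →₀ ℕ) × (Fin n →₀ ℕ)) ≠ (0, γ) := fun h => hγ (Prod.ext_iff.1 h).1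
  unfold tconv inner
  rw [← sum_filter_add_sum_filter_not (antidiagonal γ) (fun p => p.1 ≠ 0 ∧ p.2 ≠ 0), h1,
    sum_pair h2]
  simp only [hT, hT', hf, hg]
  ring

theorem inner_congr {f g f' g' : (Fin n →₀ ℕ) → R} {γ : Fin n →₀ ℕ}
    (hf : ∀ δ, δ < γ → f δ = f' δ) (hg : ∀ δ, δ < γ → g δ = g' δ) :
    inner T f g γ = inner T f' g' γ := by
  refine sum_congr rfl fun p hp => ?_
  rw [mem_filter, HasAntidiagonal.mem_antidiagonal] at hp
  obtain ⟨h, h1, h2⟩ := hp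
  have e1 : p.1 < γ := by
    rw [← h]
    exact lt_add_of_pos_right _ (pos_iff_ne_zero.2 h2)
  have e2 : p.2 < γ := by
    rw [← h]
    exact lt_add_of_pos_left _ (pos_iff_ne_zero.2 h1)
  rw [hf _ e1, hg _ e2]

/-- the factors of a triple product with supports separated by the sign of a linear form are
unique -/
theorem triple_unique (hT : ∀ γ, T 0 γ = 1) (hT' : ∀ γ, T γ 0 = 1) (θ : Fin n → ℤ)
    {p z m p' z' m' : (Fin n →₀ ℕ) → R}
    (hp : p 0 = 1) (hz : z 0 = 1) (hm : m 0 = 1) (hp' : p' 0 = 1) (hz' : z' 0 = 1)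
    (hm' : m' 0 = 1)
    (sp : ∀ γ, γ ≠ 0 → wt θ γ ≤ 0 → p γ = 0) (sz : ∀ γ, wt θ γ ≠ 0 → z γ = 0)
    (sm : ∀ γ, γ ≠ 0 → 0 ≤ wt θ γ → m γ = 0)
    (sp' : ∀ γ, γ ≠ 0 → wt θ γ ≤ 0 → p' γ = 0) (sz' : ∀ γ, wt θ γ ≠ 0 → z' γ = 0)
    (sm' : ∀ γ, γ ≠ 0 → 0 ≤ wt θ γ → m' γ = 0)
    (h : ∀ γ, tconv T (tconv T p z) m γ = tconv T (tconv T p' z') m' γ) (γ : Fin n →₀ ℕ) :
    p γ = p' γ ∧ z γ = z' γ ∧ m γ = m' γ := by
  induction γ using WellFoundedLT.induction with
  | ind γ ih =>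
    by_cases hγ : γ = 0
    · subst hγ
      exact ⟨hp.trans hp'.symm, hz.trans hz'.symm, hm.trans hm'.symm⟩
    · have e := h γ
      have pz : tconv T p z 0 = 1 := by rw [tconv_zero T hT, hp, hz, one_mul]
      have pz' : tconv T p' z' 0 = 1 := by rw [tconv_zero T hT, hp', hz', one_mul]
      rw [tconv_eq_inner T hγ hT hT' pz hm, tconv_eq_inner T hγ hT hT' pz' hm',
        tconv_eq_inner T hγ hT hT' hp hz, tconv_eq_inner T hγ hT hT' hp' hz'] at e
      have i1 : inner T p z γ = inner T p' z' γ :=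
        inner_congr T (fun δ hδ => (ih δ hδ).1) fun δ hδ => (ih δ hδ).2.1
      have i2 : inner T (tconv T p z) m γ = inner T (tconv T p' z') m' γ :=
        inner_congr T (fun δ hδ => tconv_congr T (fun ε hε => (ih ε (hε.trans_lt hδ)).1)
          fun ε hε => (ih ε (hε.trans_lt hδ)).2.1) fun δ hδ => (ih δ hδ).2.2
      rw [i1, i2] at e
      rcases lt_trichotomy (wt θ γ) 0 with hw | hw | hw
      · have a1 := sp γ hγ hw.le
        have a2 := sz γ hw.ne
        have a1' := sp' γ hγ hw.le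
        have a2' := sz' γ hw.ne
        rw [a1, a2, a1', a2'] at e
        refine ⟨a1.trans a1'.symm, a2.trans a2'.symm, ?_⟩
        linear_combination e
      · have a1 := sp γ hγ hw.le
        have a2 := sm γ hγ hw.ge
        have a1' := sp' γ hγ hw.le
        have a2' := sm' γ hγ hw.ge
        rw [a1, a2, a1', a2'] at e
        refine ⟨a1.trans a1'.symm, ?_, a2.trans a2'.symm⟩
        linear_combination e
      · have a1 := sz γ hw.ne'
        have a2 := sm γ hγ hw.le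
        have a1' := sz' γ hw.ne'
        have a2' := sm' γ hγ hw.le
        rw [a1, a2, a1', a2'] at e
        refine ⟨?_, a1.trans a1'.symm, a2.trans a2'.symm⟩
        linear_combination e

end Conv

/-! ### Hilbert series in `q = u²` -/

/-- `u` -/
def uu : LaurentSeries ℚ := HahnSeries.single 1 1

/-- `X ↦ u²` -/
def hilbHom : PowerSeries ℚ →+* LaurentSeries ℚ :=
  (HahnSeries.embDomainRingHom (⟨⟨fun n : ℕ => 2 * (n : ℤ), by simp⟩, by
      intro x y; push_cast; ring⟩ : ℕ →+ ℤ) (by intro x y h; simpa using h)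
    (by intro x y; simp)).comp
    (HahnSeries.toPowerSeries (R := ℚ)).symm.toRingHom

/-- `∑_k f k u^{2k}` -/
def hilb (f : ℕ → ℕ) : LaurentSeries ℚ := hilbHom (PowerSeries.mk fun k => (f k : ℚ))

theorem coeff_hilbHom (f : PowerSeries ℚ) (k : ℕ) :
    (hilbHom f).coeff (2 * (k : ℤ)) = PowerSeries.coeff k f := by
  unfold hilbHom
  have := HahnSeries.embDomain_mk_coeff (f := fun n : ℕ => 2 * (n : ℤ))
    (by intro x y h; simpa using h) (by intro x y; simp)
    (x := (HahnSeries.toPowerSeries (R := ℚ)).symm f) (a := k)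
  rw [HahnSeries.coeff_toPowerSeries_symm] at this
  exact this

theorem coeff_hilbHom_of_not (f : PowerSeries ℚ) {m : ℤ} (h : ∀ k : ℕ, m ≠ 2 * (k : ℤ)) :
    (hilbHom f).coeff m = 0 := by
  unfold hilbHom
  refine HahnSeries.embDomain_of_notMem_range ?_
  rintro ⟨k, hk⟩
  exact h k hk.symm

theorem coeff_hilb (f : ℕ → ℕ) (k : ℕ) : (hilb f).coeff (2 * (k : ℤ)) = f k := by
  rw [hilb, coeff_hilbHom, PowerSeries.coeff_mk]

theorem coeff_hilb_of_not (f : ℕ → ℕ) {m : ℤ} (h : ∀ k : ℕ, m ≠ 2 * (k : ℤ)) :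
    (hilb f).coeff m = 0 := coeff_hilbHom_of_not _ h

theorem hilbHom_X : hilbHom PowerSeries.X = uu ^ 2 := by
  ext m
  have e : (uu ^ 2 : LaurentSeries ℚ) = HahnSeries.single 2 1 := by
    rw [uu, HahnSeries.single_pow]
    simp
  rw [e]
  by_cases h : ∃ k : ℕ, m = 2 * (k : ℤ)
  · obtain ⟨k, rfl⟩ := h
    rw [coeff_hilbHom, PowerSeries.coeff_X, HahnSeries.coeff_single]
    by_cases hk : k = 1
    · subst hk
      simp
    · rw [if_neg hk, if_neg]
      intro h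
      apply hk
      exact_mod_cast (by linarith : (k : ℤ) = 1)
  · push Not at h
    rw [coeff_hilbHom_of_not _ h, HahnSeries.coeff_single_of_ne]
    exact_mod_cast h 1

theorem uu_ne_zero : uu ≠ 0 := by
  unfold uu
  simp

theorem hilb_sum {ι : Type*} (s : Finset ι) (f : ι → ℕ → ℕ) :
    hilb (fun k => ∑ i ∈ s, f i k) = ∑ i ∈ s, hilb (f i) := by
  unfold hilb
  rw [← map_sum]
  congr 1
  ext k
  rw [map_sum]
  simp

theorem hilb_delta : hilb (fun k => if k = 0 then 1 else 0) = 1 := by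
  unfold hilb
  rw [show (PowerSeries.mk fun k => (((if k = 0 then 1 else 0 : ℕ)) : ℚ)) = 1 by
    ext k
    rw [PowerSeries.coeff_mk, PowerSeries.coeff_one]
    split_ifs <;> simp]
  exact map_one _

theorem hilb_zero : hilb (fun _ => 0) = 0 := by
  unfold hilb
  rw [show (PowerSeries.mk fun _ => ((0 : ℕ) : ℚ)) = 0 by
    ext k
    simp]
  exact map_zero _

theorem hilb_injective {f g : ℕ → ℕ} (h : hilb f = hilb g) : f = g := by
  funext k
  have := congrArg (fun x : LaurentSeries ℚ => x.coeff (2 * (k : ℤ))) h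
  simp only [coeff_hilb] at this
  exact_mod_cast this

/-- the triples `(k₁, k₂, k₃)` with `k₁ + k₂ + k₃ + A = k` -/
def tri (A k : ℕ) : Finset (ℕ × ℕ × ℕ) :=
  (range (k + 1) ×ˢ (range (k + 1) ×ˢ range (k + 1))).filter
    fun t => t.1 + t.2.1 + t.2.2 + A = k

theorem mem_tri {A k : ℕ} {t : ℕ × ℕ × ℕ} : t ∈ tri A k ↔ t.1 + t.2.1 + t.2.2 + A = k := by
  simp only [tri, mem_filter, mem_product, mem_range]
  exact ⟨fun h => h.2, fun h => ⟨⟨by lia, by lia, by lia⟩, h⟩⟩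

theorem hilb_triple (A : ℕ) (f g h : ℕ → ℕ) :
    uu ^ (2 * A) * (hilb f * hilb g * hilb h) =
      hilb (fun k => ∑ t ∈ tri A k, f t.1 * g t.2.1 * h t.2.2) := by
  rw [pow_mul, ← hilbHom_X]
  unfold hilb
  rw [← map_pow, ← map_mul, ← map_mul, ← map_mul]
  congr 1
  ext k
  rw [PowerSeries.coeff_X_pow_mul', PowerSeries.coeff_mk]
  split_ifs with hA
  · rw [PowerSeries.coeff_mul, Nat.cast_sum]
    simp only [PowerSeries.coeff_mul, PowerSeries.coeff_mk, sum_mul]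
    rw [sum_sigma']
    refine sum_nbij' (fun x => (x.2.1, x.2.2, x.1.2))
      (fun t => ⟨(t.1 + t.2.1, t.2.2), (t.1, t.2.1)⟩) ?_ ?_ ?_ ?_ ?_
    · rintro ⟨⟨i, j⟩, ⟨i1, i2⟩⟩ hx
      simp only [mem_sigma, HasAntidiagonal.mem_antidiagonal] at hx
      rw [mem_tri]
      simp only
      lia
    · rintro ⟨t1, t2, t3⟩ ht
      rw [mem_tri] at ht
      simp only at ht
      simp only [mem_sigma, HasAntidiagonal.mem_antidiagonal, and_true]
      lia
    · rintro ⟨⟨i, j⟩, ⟨i1, i2⟩⟩ hx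
      simp only [mem_sigma, HasAntidiagonal.mem_antidiagonal] at hx
      obtain ⟨-, rfl⟩ := hx
      rfl
    · rintro ⟨t1, t2, t3⟩ ht
      rfl
    · rintro ⟨⟨i, j⟩, ⟨i1, i2⟩⟩ hx
      push_cast
      rfl
  · have : tri A k = ∅ := eq_empty_of_forall_notMem fun t ht => by
      rw [mem_tri] at ht
      lia
    simp [this]

/-! ### the arrow form -/

section Arrow

variable {n : ℕ} (a : Fin n → Fin n → ℕ)

/-- number of arrows from `x` to `y` -/
def aN (x y : Fin n →₀ ℕ) : ℕ := ∑ i, ∑ j, x i * a i j * y j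

/-- `c(d) = |d| - a(d,d)` -/
def cN (d : Fin n →₀ ℕ) : ℤ := (deg d : ℤ) - aN a d d

theorem aN_add_left (x x' y : Fin n →₀ ℕ) : aN a (x + x') y = aN a x y + aN a x' y := by
  simp only [aN, Finsupp.add_apply, add_mul, sum_add_distrib]

theorem aN_add_right (x y y' : Fin n →₀ ℕ) : aN a x (y + y') = aN a x y + aN a x y' := by
  simp only [aN, Finsupp.add_apply, mul_add, sum_add_distrib]

@[simp] theorem aN_zero_left (y : Fin n →₀ ℕ) : aN a 0 y = 0 := by simp [aN]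

@[simp] theorem aN_zero_right (x : Fin n →₀ ℕ) : aN a x 0 = 0 := by simp [aN]

@[simp] theorem cN_zero : cN a 0 = 0 := by simp [cN, deg]

theorem cN_add (x y : Fin n →₀ ℕ) :
    cN a (x + y) = cN a x + cN a y - aN a x y - aN a y x := by
  have h : deg (x + y) = deg x + deg y := by simp [deg, sum_add_distrib]
  simp only [cN, h, aN_add_left, aN_add_right]
  push_cast
  ring

theorem omega_quivB (x y : Fin n →₀ ℕ) :
    omega (quivB a) (toZ x) (toZ y) = (aN a y x : ℤ) - aN a x y := by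
  simp only [omega, quivB, Theta.toZ, aN, mul_sub, sub_mul, sum_sub_distrib]
  push_cast
  congr 1
  rw [sum_comm]
  refine sum_congr rfl fun i _ => sum_congr rfl fun j _ => ?_
  ring

/-- the twist in the variable `u` -/
def TT (x y : Fin n →₀ ℕ) : LaurentSeries ℚ := uu ^ ((aN a x y : ℤ) - aN a y x)

theorem TT_zero_left (y : Fin n →₀ ℕ) : TT a 0 y = 1 := by simp [TT]

theorem TT_zero_right (x : Fin n →₀ ℕ) : TT a x 0 = 1 := by simp [TT]

theorem TT_eq {phi : K →+* LaurentSeries ℚ} (hphi : phi v = uu⁻¹) (x y : Fin n →₀ ℕ) :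
    phi (v ^ omega (quivB a) (toZ x) (toZ y)) = TT a x y := by
  rw [map_zpow₀, hphi, inv_zpow', omega_quivB, TT]
  congr 1
  ring

theorem map_mul_apply {phi : K →+* LaurentSeries ℚ} (hphi : phi v = uu⁻¹)
    (f g : QSeries (quivB a)) (γ : Fin n →₀ ℕ) :
    phi ((f * g) γ) = tconv (TT a) (fun δ => phi (f δ)) (fun δ => phi (g δ)) γ := by
  rw [QSeries.mul_apply, map_sum]
  refine sum_congr rfl fun p _ => ?_
  rw [map_mul, map_mul, TT_eq a hphi]

/-- the Harder-Narasimhan recursion for the numbers `P d k` -/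
def HNrec (P rp r0 rm : (Fin n →₀ ℕ) → ℕ → ℕ) : Prop :=
  ∀ d k, P d k = ∑ x ∈ antidiagonal d, ∑ y ∈ antidiagonal x.1,
    ∑ t ∈ tri (aN a y.1 y.2 + aN a y.1 x.2 + aN a y.2 x.2) k,
      rp y.1 t.1 * r0 y.2 t.2.1 * rm x.2 t.2.2

/-- the series `∑ u^{c(d)} hilb (f d) x^d` -/
def ser (f : (Fin n →₀ ℕ) → ℕ → ℕ) (d : Fin n →₀ ℕ) : LaurentSeries ℚ :=
  uu ^ cN a d * hilb (f d)

theorem ser_HN {P rp r0 rm : (Fin n →₀ ℕ) → ℕ → ℕ} (h : HNrec a P rp r0 rm)
    (d : Fin n →₀ ℕ) :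
    ser a P d = tconv (TT a) (tconv (TT a) (ser a rp) (ser a r0)) (ser a rm) d := by
  have e : P d = fun k => ∑ x ∈ antidiagonal d, ∑ y ∈ antidiagonal x.1,
    ∑ t ∈ tri (aN a y.1 y.2 + aN a y.1 x.2 + aN a y.2 x.2) k,
      rp y.1 t.1 * r0 y.2 t.2.1 * rm x.2 t.2.2 := funext fun k => h d k
  rw [ser, e, hilb_sum, mul_sum]
  unfold tconv
  refine sum_congr rfl fun x hx => ?_
  rw [HasAntidiagonal.mem_antidiagonal] at hx
  rw [hilb_sum, mul_sum, mul_sum, sum_mul]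
  refine sum_congr rfl fun y hy => ?_
  rw [HasAntidiagonal.mem_antidiagonal] at hy
  rw [← hilb_triple]
  unfold ser TT
  rw [← hx, ← hy]
  have hu := uu_ne_zero
  have key : (uu : LaurentSeries ℚ) ^ cN a (y.1 + y.2 + x.2) *
      uu ^ (2 * (aN a y.1 y.2 + aN a y.1 x.2 + aN a y.2 x.2)) =
      uu ^ ((aN a (y.1 + y.2) x.2 : ℤ) - aN a x.2 (y.1 + y.2)) *
        uu ^ ((aN a y.1 y.2 : ℤ) - aN a y.2 y.1) * uu ^ cN a y.1 * uu ^ cN a y.2 *
        uu ^ cN a x.2 := by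
    rw [← zpow_natCast, ← zpow_add₀ hu, ← zpow_add₀ hu, ← zpow_add₀ hu, ← zpow_add₀ hu,
      ← zpow_add₀ hu]
    congr 1
    rw [cN_add, cN_add, aN_add_left, aN_add_right]
    push_cast
    ring
  linear_combination (hilb (rp y.1) * hilb (r0 y.2) * hilb (rm x.2)) * key

/-- support and normalization of a family of numbers, `S` the allowed set of weights -/
structure Supp (θ : Fin n → ℤ) (S : ℤ → Prop) (f : (Fin n →₀ ℕ) → ℕ → ℕ) : Prop where
  zero : ∀ k, f 0 k = if k = 0 then 1 else 0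
  supp : ∀ d, d ≠ 0 → ¬ S (wt θ d) → ∀ k, f d k = 0

theorem Supp.ser_zero {θ : Fin n → ℤ} {S : ℤ → Prop} {f : (Fin n →₀ ℕ) → ℕ → ℕ}
    (h : Supp θ S f) : ser a f 0 = 1 := by
  rw [ser, cN_zero, zpow_zero, one_mul, show f 0 = _ from funext h.zero, hilb_delta]

theorem Supp.ser_eq_zero {θ : Fin n → ℤ} {S : ℤ → Prop} {f : (Fin n →₀ ℕ) → ℕ → ℕ}
    (h : Supp θ S f) {d : Fin n →₀ ℕ} (hd : d ≠ 0) (hS : ¬ S (wt θ d)) : ser a f d = 0 := by
  rw [ser, show f d = fun _ => 0 from funext (h.supp d hd hS), hilb_zero, mul_zero]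

/-- **QT2**: the numeric Harder-Narasimhan identity determines the triple. -/
theorem triple_ser {phi : K →+* LaurentSeries ℚ} (hphi : phi v = uu⁻¹) {θ : Fin n → ℤ}
    {P rp r0 rm : (Fin n →₀ ℕ) → ℕ → ℕ} (hP : HNrec a P rp r0 rm)
    (hp : Supp θ (fun w => 0 < w) rp) (h0 : Supp θ (fun w => w = 0) r0)
    (hm : Supp θ (fun w => w < 0) rm) {F gp g0 gm : QSeries (quivB a)}
    (hF : ∀ d, phi (F d) = ser a P d) (hT : IsTriple F gp g0 gm θ) (d : Fin n →₀ ℕ) :
    phi (gp d) = ser a rp d ∧ phi (g0 d) = ser a r0 d ∧ phi (gm d) = ser a rm d := by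
  refine triple_unique (TT a) (TT_zero_left a) (TT_zero_right a) θ
    (p := fun δ => phi (gp δ)) (z := fun δ => phi (g0 δ)) (m := fun δ => phi (gm δ))
    (by simp only [hT.gp_zero, map_one]) (by simp only [hT.g0_zero, map_one])
    (by simp only [hT.gm_zero, map_one]) (hp.ser_zero a) (h0.ser_zero a) (hm.ser_zero a)
    ?_ ?_ ?_ (fun γ hγ hw => hp.ser_eq_zero a hγ (not_lt.2 hw)) ?_
    (fun γ hγ hw => hm.ser_eq_zero a hγ (not_lt.2 hw)) ?_ d
  · intro γ hγ hw
    by_contra h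
    have : gp γ ≠ 0 := fun h' => h (by simp [h'])
    exact absurd (hT.gp_supp γ hγ this) (not_lt.2 hw)
  · intro γ hw
    by_contra h
    have : g0 γ ≠ 0 := fun h' => h (by simp [h'])
    exact hw (hT.g0_supp γ this)
  · intro γ hγ hw
    by_contra h
    have : gm γ ≠ 0 := fun h' => h (by simp [h'])
    exact absurd (hT.gm_supp γ hγ this) (not_lt.2 hw)
  · intro γ hw
    have hγ : γ ≠ 0 := by
      rintro rfl
      simp at hw
    exact h0.ser_eq_zero a hγ hw
  · intro γ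
    rw [← ser_HN a hP, ← hF, hT.eq, map_mul_apply a hphi]
    refine tconv_congr _ (fun δ _ => ?_) fun _ _ => rfl
    exact (map_mul_apply a hphi gp g0 δ).symm

end Arrow

end

end Vale.Agent.P066.Lab.QT2
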