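import Vale.Agent.P066.Lab.QTFinal
import Vale.Agent.P066.Lab.H180.QT1out
import Vale.Agent.P066.Lab.H283.QT2out
import Vale.Agent.P066.Theta.H307.Bridge

/-!
# The local theorem from `LAout` (Harder–Narasimhan) and `LSout` (PBW)
-/

set_option autoImplicit false

namespace Vale.Agent.P066.Lab

/-- The finite quiver theorem. -/
theorem quiverTheorem_of_LA_LS (hLA : LAout) (hLS : LSout) : Theta.QuiverTheorem :=
  quiverTheorem_of hLA hLS qt1out QT2.qt2out

/-- The local theorem. -/
theorem localTheorem_of_LA_LS (hLA : LAout) (hLS : LSout) : Theta.LocalTheorem :=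
  Theta.H307.localTheorem_of_quiverTheorem (quiverTheorem_of_LA_LS hLA hLS)

end Vale.Agent.P066.Lab
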