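import Vale.Agent.P066.Lab.Defs

/-!
# LB0: basic facts on the ideals `JC` and the products `QP`
-/

set_option autoImplicit false
set_option linter.unusedSectionVars false
set_option linter.unusedVariables false

open Finset MvPolynomial

namespace Vale.Agent.P066.Lab

noncomputable section

variable {S : Type} [Fintype S] [DecidableEq S] {k : Type} [Field k] {a : S → S → ℕ} {θ : S → ℤ}

theorem QP_union {E F : Finset (S × S)} (h : Disjoint E F) :
    QP k a (E ∪ F) = QP k a E * QP k a F := prod_union h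

theorem QP_dvd {E F : Finset (S × S)} (h : E ⊆ F) : QP k a E ∣ QP k a F :=
  prod_dvd_prod_of_subset _ _ _ h

@[simp] theorem mem_blk {c : S → ℕ} {i : ℕ} {s : S} : s ∈ blk c i ↔ c s = i := by simp [blk]

theorem QP_mem_J0 {B X : Finset S} {E : Finset (S × S)} (hX : X ⊆ B) (h : 0 < wS θ X)
    (hE : X ×ˢ (B \ X) ⊆ E) : QP k a E ∈ J0 k a θ B := by
  obtain ⟨q, hq⟩ := QP_dvd (k := k) (a := a) hE
  rw [hq]
  exact Ideal.mul_mem_right _ _ (Ideal.subset_span ⟨X, hX, h, rfl⟩)

theorem J0_le_JC (c : S → ℕ) (i : ℕ) : J0 k a θ (blk c i) ≤ JC k a θ c :=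
  le_iSup (fun i => J0 k a θ (blk c i)) i

theorem QP_mem_JC {c : S → ℕ} {i : ℕ} {X : Finset S} {E : Finset (S × S)} (hX : X ⊆ blk c i)
    (h : 0 < wS θ X) (hE : X ×ˢ (blk c i \ X) ⊆ E) : QP k a E ∈ JC k a θ c :=
  J0_le_JC c i (QP_mem_J0 hX h hE)

/-- to prove `JC c ≤ I` it suffices to look at the generators -/
theorem JC_le_iff {c : S → ℕ} {I : Ideal (MvPolynomial S k)} : JC k a θ c ≤ I ↔
    ∀ i, ∀ X ⊆ blk c i, 0 < wS θ X → QP k a (X ×ˢ (blk c i \ X)) ∈ I := by
  unfold JC
  rw [iSup_le_iff]
  refine forall_congr' fun i => ?_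
  unfold J0
  rw [Ideal.span_le]
  constructor
  · intro h X hX h0
    exact h ⟨X, hX, h0, rfl⟩
  · rintro h _ ⟨X, hX, h0, rfl⟩
    exact h X hX h0

theorem wS_union {X Y : Finset S} (h : Disjoint X Y) : wS θ (X ∪ Y) = wS θ X + wS θ Y :=
  sum_union h

theorem wS_eq_sum_filter (m : S → ℕ) (X : Finset S) :
    wS θ X = ∑ j ∈ X.image m, wS θ (X.filter fun s => m s = j) := by
  unfold wS
  rw [← sum_fiberwise_of_maps_to (s := X) (t := X.image m) (g := m)
    (fun s hs => mem_image_of_mem m hs)]

theorem exists_pos_filter {m : S → ℕ} {X : Finset S} (h : 0 < wS θ X) :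
    ∃ j, 0 < wS θ (X.filter fun s => m s = j) := by
  by_contra hc
  push Not at hc
  rw [wS_eq_sum_filter m X] at h
  exact absurd h (not_lt.mpr (sum_nonpos fun j _ => hc j))

theorem wS_nonempty {X : Finset S} (h : 0 < wS θ X) : X.Nonempty := by
  by_contra hc
  rw [not_nonempty_iff_eq_empty] at hc
  simp [hc, wS] at h

/-- refinement enlarges the ideal -/
theorem JC_le_of_ref {m c : S → ℕ} (h : Ref m c) : JC k a θ c ≤ JC k a θ m := by
  rw [JC_le_iff]
  intro i X hX h0
  obtain ⟨j, hj⟩ := exists_pos_filter (m := m) h0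
  obtain ⟨s0, hs0⟩ := wS_nonempty hj
  rw [mem_filter] at hs0
  have hs0i : c s0 = i := mem_blk.mp (hX hs0.1)
  refine QP_mem_JC (i := j) (X := X.filter fun s => m s = j) ?_ hj ?_
  · intro s hs
    rw [mem_filter] at hs
    exact mem_blk.mpr hs.2
  · rintro ⟨s, t⟩ hst
    simp only [mem_product, mem_filter, mem_sdiff, mem_blk] at hst ⊢
    refine ⟨hst.1.1, ?_, fun ht => hst.2.2 ⟨ht, hst.2.1⟩⟩
    rw [← hs0i]
    exact h _ _ (hst.2.1.trans hs0.2.symm)

theorem Ref.refl (c : S → ℕ) : Ref c c := fun _ _ h => h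

theorem Ref.trans {c d e : S → ℕ} (h : Ref c d) (h' : Ref d e) : Ref c e :=
  fun s t hst => h' s t (h s t hst)

theorem ref_const (c : S → ℕ) (n : ℕ) : Ref c fun _ => n := fun _ _ _ => rfl

/-- the pairs inside the blocks of `c` which are ordered by `m` -/
def inP (c m : S → ℕ) : Finset (S × S) := univ.filter fun p => c p.1 = c p.2 ∧ m p.1 < m p.2

/-- the pairs in different blocks of `c`, ordered by `d` -/
def crP (c d : S → ℕ) : Finset (S × S) := univ.filter fun p => c p.1 ≠ c p.2 ∧ d p.1 < d p.2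

theorem zc_prefix {c m : S → ℕ} (hm : Zc θ m) (h : Ref m c) (i j : ℕ) :
    wS θ (univ.filter fun s => c s = i ∧ m s < j) = 0 := by
  rw [wS_eq_sum_filter m]
  refine sum_eq_zero fun j' hj' => ?_
  obtain ⟨s0, hs0, rfl⟩ := mem_image.mp hj'
  simp only [mem_filter, mem_univ, true_and] at hs0
  have : (univ.filter fun s => c s = i ∧ m s < j).filter (fun s => m s = m s0) = blk m (m s0) := by
    ext s
    simp only [mem_filter, mem_univ, true_and, mem_blk]
    constructor
    · exact fun hs => hs.2
    · intro hs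
      exact ⟨⟨(h _ _ hs).trans hs0.1, hs ▸ hs0.2⟩, hs⟩
  rw [this]
  exact hm _

/-- the product of the kernels inside the blocks of `c` maps `J_m` into `J_c` -/
theorem inP_mul_mem {c m : S → ℕ} (hm : Zc θ m) (h : Ref m c) {f : MvPolynomial S k}
    (hf : f ∈ JC k a θ m) : QP k a (inP c m) * f ∈ JC k a θ c := by
  have key : JC k a θ m ≤ Submodule.comap
      (LinearMap.mulLeft (MvPolynomial S k) (QP k a (inP c m))) (JC k a θ c) := by
    have := (JC_le_iff (k := k) (a := a) (θ := θ) (c := m) (I := Submodule.comap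
      (LinearMap.mulLeft (MvPolynomial S k) (QP k a (inP c m))) (JC k a θ c))).mpr
    refine this ?_
    intro j X hX h0
    rw [Submodule.mem_comap, LinearMap.mulLeft_apply]
    obtain ⟨s0, hs0⟩ := wS_nonempty h0
    have hs0j : m s0 = j := mem_blk.mp (hX hs0)
    have hdis : Disjoint (inP c m) (X ×ˢ (blk m j \ X)) := by
      rw [disjoint_left]
      rintro ⟨s, t⟩ h1 h2
      simp only [inP, mem_filter, mem_univ, true_and, mem_product, mem_sdiff, mem_blk] at h1 h2
      have := mem_blk.mp (hX h2.1)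
      omega
    rw [← QP_union hdis]
    have hd2 : Disjoint (univ.filter fun s => c s = c s0 ∧ m s < j) X := by
      rw [disjoint_left]
      intro s h1 h2
      simp only [mem_filter, mem_univ, true_and] at h1
      have := mem_blk.mp (hX h2)
      omega
    refine QP_mem_JC (i := c s0) (X := (univ.filter fun s => c s = c s0 ∧ m s < j) ∪ X) ?_ ?_ ?_
    · intro s hs
      rw [mem_union, mem_filter] at hs
      rcases hs with hs | hs
      · exact mem_blk.mpr hs.2.1
      · exact mem_blk.mpr (h _ _ ((mem_blk.mp (hX hs)).trans hs0j.symm))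
    · rw [wS_union hd2, zc_prefix hm h, zero_add]
      exact h0
    · rintro ⟨s, t⟩ hst
      simp only [inP, mem_filter, mem_univ, true_and, mem_product, mem_sdiff, mem_blk,
        mem_union] at hst ⊢
      obtain ⟨h1, h2, h3⟩ := hst
      push Not at h3
      obtain ⟨h3, h4⟩ := h3
      have h5 : j ≤ m t := h3 h2
      rcases h1 with h1 | h1
      · left
        exact ⟨h1.1.trans h2.symm, lt_of_lt_of_le h1.2 h5⟩
      · have h6 : m s = j := mem_blk.mp (hX h1)
        rcases h5.lt_or_eq with h7 | h7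
        · left
          exact ⟨(h _ _ (h6.trans hs0j.symm)).trans h2.symm, h6 ▸ h7⟩
        · right
          exact ⟨h1, h7.symm, h4⟩
  exact key hf

/-- the meet of two colourings: blocks are the intersections, order: first `c`, then `d` -/
def meet (c d : S → ℕ) : S → ℕ := fun s => Nat.pair (c s) (d s)

theorem meet_eq_iff {c d : S → ℕ} {s t : S} :
    meet c d s = meet c d t ↔ c s = c t ∧ d s = d t := by
  unfold meet
  exact Nat.pair_eq_pair

theorem ref_meet_left (c d : S → ℕ) : Ref (meet c d) c := fun _ _ h => (meet_eq_iff.mp h).1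

theorem ref_meet_right (c d : S → ℕ) : Ref (meet c d) d := fun _ _ h => (meet_eq_iff.mp h).2

theorem meet_lt_iff {c d : S → ℕ} {s t : S} (h : c s = c t) :
    meet c d s < meet c d t ↔ d s < d t := by
  unfold meet
  rw [h]
  constructor
  · intro h'
    by_contra hc
    rw [not_lt] at hc
    rcases hc.lt_or_eq with h1 | h1
    · exact absurd h' (not_lt.mpr (Nat.pair_lt_pair_right _ h1).le)
    · rw [h1] at h'
      exact absurd h' (lt_irrefl _)
  · exact fun h' => Nat.pair_lt_pair_right _ h'

/-- `K_d ∈ J_c` unless the meet of `c` and `d` is a zero colouring -/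
theorem KC_mem_JC {c d : S → ℕ} (hd : Zc θ d) (h : ¬ Zc θ (meet c d)) :
    KC k a d ∈ JC k a θ c := by
  by_contra hK
  apply h
  -- all prefixes have weight `≤ 0`
  have h1 : ∀ i j, wS θ (univ.filter fun s => c s = i ∧ d s < j) ≤ 0 := by
    intro i j
    by_contra hpos
    rw [not_le] at hpos
    apply hK
    refine QP_mem_JC (i := i) (X := univ.filter fun s => c s = i ∧ d s < j) ?_ hpos ?_
    · intro s hs
      rw [mem_filter] at hs
      exact mem_blk.mpr hs.2.1
    · rintro ⟨s, t⟩ hst
      simp only [mem_filter, mem_univ, true_and, mem_product, mem_sdiff, mem_blk] at hst ⊢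
      obtain ⟨h2, h3, h4⟩ := hst
      push Not at h4
      exact lt_of_lt_of_le h2.2 (h4 h3)
  -- hence all are zero
  have h2 : ∀ i j, wS θ (univ.filter fun s => c s = i ∧ d s < j) = 0 := by
    intro i j
    have h3 : ∑ i' ∈ (univ.filter fun s => d s < j).image c,
        wS θ ((univ.filter fun s => d s < j).filter fun s => c s = i') = 0 := by
      rw [← wS_eq_sum_filter c]
      have := zc_prefix (θ := θ) hd (ref_const d 0) 0 j
      simpa using this
    have h4 : ∀ i', (univ.filter fun s => d s < j).filter (fun s => c s = i') =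
        univ.filter fun s => c s = i' ∧ d s < j := by
      intro i'
      ext s
      simp [and_comm]
    simp only [h4] at h3
    by_cases hi : i ∈ (univ.filter fun s => d s < j).image c
    · exact (sum_eq_zero_iff_of_nonpos (fun i' _ => h1 i' j)).mp h3 i hi
    · have : (univ.filter fun s => c s = i ∧ d s < j) = ∅ := by
        rw [← h4, filter_eq_empty_iff]
        intro s hs hcs
        exact hi (mem_image.mpr ⟨s, hs, hcs⟩)
      rw [this]
      simp [wS]
  intro n
  have h5 : blk (meet c d) n = (univ.filter fun s => c s = n.unpair.1 ∧ d s < n.unpair.2 + 1) \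
      (univ.filter fun s => c s = n.unpair.1 ∧ d s < n.unpair.2) := by
    ext s
    simp only [mem_blk, mem_sdiff, mem_filter, mem_univ, true_and]
    unfold meet
    constructor
    · intro hs
      rw [← hs, Nat.unpair_pair]
      simp
    · rintro ⟨⟨hs1, hs2⟩, hs3⟩
      have hs4 : ¬ d s < n.unpair.2 := fun h' => hs3 ⟨hs1, h'⟩
      have hs5 : d s = n.unpair.2 := by omega
      rw [hs1, hs5, Nat.pair_unpair]
  rw [h5]
  have h6 := sum_sdiff (f := θ) (s₁ := univ.filter fun s => c s = n.unpair.1 ∧ d s < n.unpair.2)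
    (s₂ := univ.filter fun s => c s = n.unpair.1 ∧ d s < n.unpair.2 + 1) (by
      intro s hs
      simp only [mem_filter, mem_univ, true_and] at hs ⊢
      exact ⟨hs.1, by omega⟩)
  have h7 := h2 n.unpair.1 n.unpair.2
  have h8 := h2 n.unpair.1 (n.unpair.2 + 1)
  unfold wS at h7 h8 ⊢
  linarith

theorem KC_eq_mul (c d : S → ℕ) :
    KC k a d = QP k a (inP c (meet c d)) * QP k a (crP c d) := by
  rw [← QP_union]
  · unfold KC
    congr 1
    ext ⟨s, t⟩
    simp only [inP, crP, mem_filter, mem_univ, true_and, mem_union]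
    by_cases h : c s = c t
    · simp [h, meet_lt_iff h]
    · simp [h]
  · rw [disjoint_left]
    rintro ⟨s, t⟩ h1 h2
    simp only [inP, crP, mem_filter, mem_univ, true_and] at h1 h2
    exact h2.1 h1.1

/-! ### the translation homomorphisms -/

@[simp] theorem Tc_X (c : S → ℕ) (s : S) :
    Tc k c (X s) = C (X s) + X (c s) := by simp [Tc]

theorem Tc_QP {c : S → ℕ} {E : Finset (S × S)} (h : ∀ p ∈ E, c p.1 = c p.2) :
    Tc k c (QP k a E) = C (QP k a E) := by
  unfold QP
  rw [map_prod, map_prod]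
  refine prod_congr rfl fun p hp => ?_
  rw [map_pow, map_pow, map_sub, Tc_X, Tc_X, h p hp, map_sub]
  congr 1
  ring

theorem Tc_mem {c : S → ℕ} {f : MvPolynomial S k} (hf : f ∈ JC k a θ c) :
    Tc k c f ∈ (JC k a θ c).map (C : MvPolynomial S k →+* MvPolynomial ℕ (MvPolynomial S k)) := by
  have key : JC k a θ c ≤ Ideal.comap (Tc k c) ((JC k a θ c).map
      (C : MvPolynomial S k →+* MvPolynomial ℕ (MvPolynomial S k))) := by
    rw [JC_le_iff]
    intro i X hX h0
    rw [Ideal.mem_comap, Tc_QP]
    · exact Ideal.mem_map_of_mem _ (QP_mem_JC hX h0 (Subset.refl _))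
    · rintro ⟨s, t⟩ hst
      simp only [mem_product, mem_sdiff, mem_blk] at hst
      exact (mem_blk.mp (hX hst.1)).trans hst.2.1.symm
  exact key hf

theorem coeff_Tc_mem {c : S → ℕ} {f : MvPolynomial S k} (hf : f ∈ JC k a θ c) (α : ℕ →₀ ℕ) :
    coeff α (Tc k c f) ∈ JC k a θ c := mem_map_C_iff.mp (Tc_mem hf) α

theorem coeff_zero_Tc (c : S → ℕ) (f : MvPolynomial S k) : coeff 0 (Tc k c f) = f := by
  have h : (constantCoeff (σ := ℕ) (R := MvPolynomial S k)).comp
      (Tc k c : MvPolynomial S k →+* _) = RingHom.id _ := by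
    ext s
    · simp [Tc]
    · simp [Tc]
  have := congrArg (fun φ : MvPolynomial S k →+* MvPolynomial S k => φ f) h
  simpa [constantCoeff_eq] using this

end

end Vale.Agent.P066.Lab
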