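import Mathlib

/-!
# The labelled (thin) form of the semistable CoHA: definitions

`S` finite set of particles, `a s t` = number of arrows `s → t`, `θ : S → ℤ` stability.
`k` field of characteristic zero (`ℚ`, or an algebraically closed one for finiteness).
`QP a E = ∏_{(s,t) ∈ E} (x_t - x_s)^{a s t}`, `KX a B X = QP a (X ×ˢ (B \ X))`.

Partitions of `S` are given by colourings `c : S → ℕ`; blocks are the fibres `blk c i`.
`c` is a zero colouring (`Zc`) if every block has weight `0`.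
-/

set_option autoImplicit false

open Finset MvPolynomial

namespace Vale.Agent.P066.Lab

noncomputable section

variable {S : Type} [Fintype S] [DecidableEq S]

section Basic

variable (k : Type) [Field k] (a : S → S → ℕ) (θ : S → ℤ)

/-- product of the linear forms `(x_t - x_s)^{a s t}` over a set of ordered pairs `(s,t)` -/
def QP (E : Finset (S × S)) : MvPolynomial S k := ∏ p ∈ E, (X p.2 - X p.1) ^ a p.1 p.2

/-- `K(X → B \ X)` -/
def KX (B X : Finset S) : MvPolynomial S k := QP k a (X ×ˢ (B \ X))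

/-- weight of a set of particles -/
def wS (X : Finset S) : ℤ := ∑ s ∈ X, θ s

/-- number of arrows from `X` to `Y` -/
def ar (X Y : Finset S) : ℤ := ∑ s ∈ X, ∑ t ∈ Y, (a s t : ℤ)

/-- ideal of the unstable part, slope zero: `X ⊆ B` with `θ(X) > 0` destabilises -/
def J0 (B : Finset S) : Ideal (MvPolynomial S k) :=
  Ideal.span {f | ∃ X ⊆ B, 0 < wS θ X ∧ f = KX k a B X}

/-- ideal for `R⁺_B` (all quotients have `θ > 0`) -/
def Jp (B : Finset S) : Ideal (MvPolynomial S k) :=
  Ideal.span {f | ∃ X ⊆ B, X ≠ B ∧ wS θ (B \ X) ≤ 0 ∧ f = KX k a B X}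

/-- ideal for `R⁻_B` (all subs have `θ < 0`) -/
def Jm (B : Finset S) : Ideal (MvPolynomial S k) :=
  Ideal.span {f | ∃ X ⊆ B, X ≠ ∅ ∧ 0 ≤ wS θ X ∧ f = KX k a B X}

/-- the Euler form is symmetric on the sets of weight zero -/
def SymZ : Prop := ∀ X Y : Finset S, Disjoint X Y → wS θ X = 0 → wS θ Y = 0 → ar a X Y = ar a Y X

end Basic

section Colour

/-- blocks of a colouring -/
def blk (c : S → ℕ) (i : ℕ) : Finset S := univ.filter fun s => c s = i

/-- zero colouring: all blocks have weight zero -/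
def Zc (θ : S → ℤ) (c : S → ℕ) : Prop := ∀ i, wS θ (blk c i) = 0

/-- `m` refines `c` -/
def Ref (m c : S → ℕ) : Prop := ∀ s t, m s = m t → c s = c t

/-- number of blocks -/
def nb (c : S → ℕ) : ℤ := ((univ.image c).card : ℤ)

variable (k : Type) [Field k] (a : S → S → ℕ) (θ : S → ℤ)

/-- the ideal `J_π`, `π` the partition into the blocks of `c` -/
def JC (c : S → ℕ) : Ideal (MvPolynomial S k) := ⨆ i, J0 k a θ (blk c i)

/-- `K_π` for the order of the blocks given by the colours -/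
def KC (c : S → ℕ) : MvPolynomial S k := QP k a (univ.filter fun p => c p.1 < c p.2)

/-- `C_π = deg K_π` -/
def CC (c : S → ℕ) : ℤ := ∑ p ∈ univ.filter (fun p : S × S => c p.1 < c p.2), (a p.1 p.2 : ℤ)

/-- `T_π : x_s ↦ x_s + U_{c s}` -/
def Tc (c : S → ℕ) : MvPolynomial S k →ₐ[k] MvPolynomial ℕ (MvPolynomial S k) :=
  aeval fun s => C (X s) + X (c s)

/-- `2 deg_π f + |π| ≤ n + 2 C_π`, where `deg_π f` is the `U`-degree of `T_π f` modulo `J_π` -/
def Lev (c : S → ℕ) (n : ℤ) (f : MvPolynomial S k) : Prop :=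
  ∀ α : ℕ →₀ ℕ, n + 2 * CC a c < 2 * (α.degree : ℤ) + nb c → coeff α (Tc k c f) ∈ JC k a θ c

/-- all levels (for the zero colourings finer than `c`) are `≤ n` -/
def FilR (c : S → ℕ) (n : ℤ) (f : MvPolynomial S k) : Prop :=
  ∀ m : S → ℕ, Zc θ m → Ref m c → Lev k a θ m n f

/-- the filtration `F_n` -/
def Fil (n : ℤ) (f : MvPolynomial S k) : Prop := ∀ m : S → ℕ, Zc θ m → Lev k a θ m n f

/-- `G_π` (a set of representatives in `k[x]`, containing `J_π`); `G_π = ⨂ V_B` -/
def Gc (c : S → ℕ) (f : MvPolynomial S k) : Prop := FilR k a θ c (nb c - 2 * CC a c) f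

/-- mean of the block of colour `i` -/
def uk (c : S → ℕ) (i : ℕ) : MvPolynomial S k :=
  C (((blk c i).card : k)⁻¹) * ∑ s ∈ blk c i, X s

/-- the symbol: part of `U`-degree `d` of `T_π f` modulo `J_π` -/
def Sb (c : S → ℕ) (d : ℕ) (f : MvPolynomial S k) :
    MvPolynomial ℕ (MvPolynomial S k ⧸ JC k a θ c) :=
  homogeneousComponent d (map (Ideal.Quotient.mk (JC k a θ c)) (Tc k c f))

/-- `P_π(U) = ∏_{c s < c t} (U_{c t} - U_{c s})^{a s t}` -/
def PU (R : Type) [CommRing R] (c : S → ℕ) : MvPolynomial ℕ R :=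
  ∏ p ∈ univ.filter (fun p : S × S => c p.1 < c p.2), (X (c p.2) - X (c p.1)) ^ a p.1 p.2

end Colour

end

end Vale.Agent.P066.Lab
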