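import Mathlib

/-!
# Block DIV: divisibility of the top part by the product of the linear forms `X j - X i`

`R` is a commutative ring (a `ℚ`-algebra where stated), `ι` the index type of the blocks.

* `coeff_mem_of_lin_mul`, `coeff_mem_of_prod_mul`: if the coefficients of `Δ * s` lie in an additive
  subgroup `G` of `R`, so do those of `s` (`Δ` a product of powers of `X j - X i`);
* `prod_lin_mul_eq_zero`, `prod_lin_cancel`: `Δ` is regular;
* `prod_dvd`: the forms `X j - X i` for different pairs are coprime over every commutative ring;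
* `pow_dvd_of_merge`: if all products of more than `m - a` of the derivations `∂_i + ∂_j`, `∂_k`
  (`k ≠ i, j`) kill the homogeneous polynomial `T` of degree `m`, then `(X j - X i)^a ∣ T`;
* `exists_div`: the combination.
-/

set_option autoImplicit false

open MvPolynomial Finset

namespace Vale.Agent.P066.Lab

section basic

variable {ι R : Type*} [CommRing R]

theorem coeff_lin_mul {i j : ι} (hij : i ≠ j) (s : MvPolynomial ι R) (α : ι →₀ ℕ) :
    coeff (α + Finsupp.single j 1) ((X j - X i) * s) =
      coeff α s - (if α i = 0 then 0 else coeff (α + Finsupp.single j 1 - Finsupp.single i 1) s) := by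
  classical
  rw [sub_mul, coeff_sub, add_comm α, coeff_X_mul, coeff_X_mul']
  congr 1
  have : (i ∈ (Finsupp.single j 1 + α : ι →₀ ℕ).support) ↔ ¬ (α i = 0) := by
    simp [hij.symm]
  simp only [this]
  split_ifs <;> simp_all

theorem coeff_mem_of_lin_mul {i j : ι} (hij : i ≠ j) (G : AddSubgroup R) (s : MvPolynomial ι R)
    (h : ∀ α, coeff α ((X j - X i) * s) ∈ G) (α : ι →₀ ℕ) : coeff α s ∈ G := by
  classical
  generalize hn : α i = n
  induction n generalizing α with
  | zero =>
    have := h (α + Finsupp.single j 1)
    rw [coeff_lin_mul hij] at this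
    simpa [hn] using this
  | succ n ih =>
    have h1 := h (α + Finsupp.single j 1)
    rw [coeff_lin_mul hij, if_neg (by omega)] at h1
    have h2 : coeff (α + Finsupp.single j 1 - Finsupp.single i 1) s ∈ G := by
      apply ih
      simp [hij.symm, hn]
    have := G.add_mem h1 h2
    simpa using this

theorem coeff_mem_of_lin_pow_mul {i j : ι} (hij : i ≠ j) (G : AddSubgroup R) (a : ℕ)
    (s : MvPolynomial ι R) (h : ∀ α, coeff α ((X j - X i) ^ a * s) ∈ G) (α : ι →₀ ℕ) :
    coeff α s ∈ G := by
  induction a generalizing s α with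
  | zero => simpa using h α
  | succ a ih =>
    refine coeff_mem_of_lin_mul hij G s ?_ α
    intro β
    refine ih ((X j - X i) * s) ?_ β
    intro γ
    have := h γ
    rwa [pow_succ, mul_assoc] at this

/-- The product of the powers `(X j - X i)^(a i j)` over a finite set of pairs `(i, j)`. -/
noncomputable def Dprod (P : Finset (ι × ι)) (a : ι × ι → ℕ) : MvPolynomial ι R :=
  ∏ p ∈ P, (X p.2 - X p.1) ^ a p

theorem coeff_mem_of_prod_mul (P : Finset (ι × ι)) (hP : ∀ p ∈ P, p.1 ≠ p.2) (a : ι × ι → ℕ)
    (G : AddSubgroup R) (s : MvPolynomial ι R) (h : ∀ α, coeff α (Dprod P a * s) ∈ G)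
    (α : ι →₀ ℕ) : coeff α s ∈ G := by
  classical
  unfold Dprod at h
  induction P using Finset.induction_on generalizing s α with
  | empty => simpa using h α
  | insert p P hp ih =>
    refine ih (fun q hq => hP q (by simp [hq])) s ?_ α
    intro β
    refine coeff_mem_of_lin_pow_mul (hP p (by simp)) G (a p) _ ?_ β
    intro γ
    have := h γ
    rwa [Finset.prod_insert hp, mul_assoc] at this

theorem prod_lin_mul_eq_zero (P : Finset (ι × ι)) (hP : ∀ p ∈ P, p.1 ≠ p.2) (a : ι × ι → ℕ)
    (s : MvPolynomial ι R) (h : Dprod P a * s = 0) : s = 0 := by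
  have := coeff_mem_of_prod_mul P hP a (⊥ : AddSubgroup R) s (by intro α; rw [h]; simp)
  ext α
  simpa using this α

theorem prod_lin_cancel (P : Finset (ι × ι)) (hP : ∀ p ∈ P, p.1 ≠ p.2) (a : ι × ι → ℕ)
    (s t : MvPolynomial ι R) (h : Dprod P a * s = Dprod P a * t) : s = t := by
  have := prod_lin_mul_eq_zero P hP a (s - t) (by rw [mul_sub, h, sub_self])
  exact sub_eq_zero.mp this

theorem lin_mul_eq_zero {i j : ι} (hij : i ≠ j) (s : MvPolynomial ι R)
    (h : (X j - X i) * s = 0) : s = 0 := by
  have := coeff_mem_of_lin_mul hij (⊥ : AddSubgroup R) s (by intro α; rw [h]; simp)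
  ext α
  simpa using this α

theorem lin_pow_mul_eq_zero {i j : ι} (hij : i ≠ j) (a : ℕ) (s : MvPolynomial ι R)
    (h : (X j - X i) ^ a * s = 0) : s = 0 := by
  have := coeff_mem_of_lin_pow_mul hij (⊥ : AddSubgroup R) a s (by intro α; rw [h]; simp)
  ext α
  simpa using this α

/-- `Δ` is homogeneous of degree `∑ a`. -/
theorem Dprod_isHomogeneous (P : Finset (ι × ι)) (a : ι × ι → ℕ) :
    (Dprod P a : MvPolynomial ι R).IsHomogeneous (∑ p ∈ P, a p) := by
  unfold Dprod
  apply IsHomogeneous.prod
  intro p _
  have : (X p.2 - X p.1 : MvPolynomial ι R).IsHomogeneous 1 :=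
    (isHomogeneous_X R p.2).sub (isHomogeneous_X R p.1)
  simpa using this.pow (a p)

/-- The substitution `X j ↦ X i`. -/
noncomputable def subst [DecidableEq ι] (i j : ι) : MvPolynomial ι R →ₐ[R] MvPolynomial ι R :=
  aeval (Function.update X j (X i))

theorem subst_X [DecidableEq ι] (i j k : ι) :
    subst i j (X k : MvPolynomial ι R) = X (if k = j then i else k) := by
  unfold subst
  rw [aeval_X]
  by_cases h : k = j
  · subst h; simp
  · simp [h]

theorem lin_dvd_sub_subst [DecidableEq ι] (i j : ι) (f : MvPolynomial ι R) :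
    (X j - X i : MvPolynomial ι R) ∣ f - subst i j f := by
  induction f using MvPolynomial.induction_on with
  | C a => simp [subst]
  | add p q hp hq =>
    rw [map_add, add_sub_add_comm]
    exact dvd_add hp hq
  | mul_X p k hp =>
    rw [map_mul, subst_X]
    have h1 : p * X k - subst i j p * X (if k = j then i else k) =
        (p - subst i j p) * X k + subst i j p * (X k - X (if k = j then i else k)) := by ring
    rw [h1]
    apply dvd_add
    · exact Dvd.dvd.mul_right hp _
    · apply Dvd.dvd.mul_left
      split_ifs with h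
      · subst h; exact dvd_rfl
      · simp

theorem lin_dvd_iff [DecidableEq ι] (i j : ι) (f : MvPolynomial ι R) :
    (X j - X i : MvPolynomial ι R) ∣ f ↔ subst i j f = 0 := by
  constructor
  · rintro ⟨g, rfl⟩
    rw [map_mul, map_sub, subst_X, subst_X]
    by_cases h : i = j
    · subst h; simp
    · simp [h]
  · intro h
    have := lin_dvd_sub_subst i j f
    rwa [h, sub_zero] at this

/-- Two pairs are independent if they are not equal up to order. -/
theorem lin_pow_dvd_of_dvd_prod_mul {i j : ι} (hij : i ≠ j) (P : Finset (ι × ι))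
    (hP : ∀ p ∈ P, p.1 ≠ p.2) (hne : ∀ p ∈ P, p ≠ (i, j) ∧ p ≠ (j, i)) (a : ι × ι → ℕ) (b : ℕ)
    (s : MvPolynomial ι R) (h : (X j - X i : MvPolynomial ι R) ^ b ∣ Dprod P a * s) :
    (X j - X i : MvPolynomial ι R) ^ b ∣ s := by
  classical
  induction b generalizing s with
  | zero => simp
  | succ b ih =>
    obtain ⟨t, ht⟩ := h
    -- the image of `Dprod P a` under the substitution is regular
    have key : ∀ u : MvPolynomial ι R, subst i j (Dprod P a : MvPolynomial ι R) * u = 0 → u = 0 := by
      unfold Dprod
      rw [map_prod]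
      clear ht ih
      induction P using Finset.induction_on with
      | empty => intro u hu; simpa using hu
      | insert p P hp ihP =>
        intro u hu
        rw [Finset.prod_insert hp, mul_assoc, map_pow, map_sub, subst_X, subst_X] at hu
        apply ihP (fun q hq => hP q (by simp [hq])) (fun q hq => hne q (by simp [hq]))
        refine lin_pow_mul_eq_zero ?_ _ _ hu
        have h1 := hP p (by simp)
        have h2 := hne p (by simp)
        obtain ⟨p1, p2⟩ := p
        simp only [ne_eq, Prod.mk.injEq, not_and] at h1 h2 ⊢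
        split_ifs with h3 h4 h4
        · exact absurd (h3.trans h4.symm) h1
        · intro h5; exact h2.2 h3 h5.symm
        · intro h5; exact h2.1 h5 h4
        · exact h1
    have h0 : subst i j s = 0 := by
      apply key
      rw [← map_mul, ht, map_mul, map_pow]
      have : subst i j (X j - X i : MvPolynomial ι R) = 0 := (lin_dvd_iff i j _).1 dvd_rfl
      rw [this]
      simp
    obtain ⟨s', rfl⟩ := (lin_dvd_iff i j s).2 h0
    have h1 : Dprod P a * s' = (X j - X i) ^ b * t := by
      have : (X j - X i : MvPolynomial ι R) * (Dprod P a * s' - (X j - X i) ^ b * t) = 0 := by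
        have h2 : Dprod P a * ((X j - X i) * s') = (X j - X i) ^ (b + 1) * t := ht
        rw [mul_sub, sub_eq_zero, ← mul_assoc (X j - X i) ((X j - X i) ^ b), ← pow_succ', ← h2]
        ring
      exact sub_eq_zero.mp (lin_mul_eq_zero hij _ this)
    have h2 := ih s' ⟨t, h1⟩
    rw [pow_succ']
    exact mul_dvd_mul_left _ h2

/-- Coprimality: divisibility by all the powers gives divisibility by the product. -/
theorem prod_dvd (P : Finset (ι × ι)) (hP : ∀ p ∈ P, p.1 ≠ p.2 ∧ (p.2, p.1) ∉ P)
    (a : ι × ι → ℕ) (T : MvPolynomial ι R)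
    (h : ∀ p ∈ P, (X p.2 - X p.1 : MvPolynomial ι R) ^ a p ∣ T) : Dprod P a ∣ T := by
  classical
  induction P using Finset.induction_on with
  | empty => simp [Dprod]
  | insert p P hp ih =>
    obtain ⟨s, rfl⟩ := ih (fun q hq => ⟨(hP q (by simp [hq])).1,
      fun hc => (hP q (by simp [hq])).2 (by simp [hc])⟩) (fun q hq => h q (by simp [hq]))
    have h1 : (X p.2 - X p.1 : MvPolynomial ι R) ^ a p ∣ s := by
      refine lin_pow_dvd_of_dvd_prod_mul (hP p (by simp)).1 P
        (fun q hq => (hP q (by simp [hq])).1) ?_ a _ s (h p (by simp))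
      intro q hq
      constructor
      · rintro rfl; exact hp hq
      · rintro rfl
        exact (hP p (by simp)).2 (by simp [hq])
    obtain ⟨t, rfl⟩ := h1
    refine ⟨t, ?_⟩
    unfold Dprod
    rw [Finset.prod_insert hp]
    ring

end basic

section merge

variable {ι R : Type*} [CommRing R] [DecidableEq ι]

/-- The operators obtained by merging the blocks `i` and `j`: `∂_i + ∂_j` (for the index `i` or
`j`) and `∂_k` for the other indices. -/
noncomputable def mop (i j k : ι) : MvPolynomial ι R →ₗ[R] MvPolynomial ι R :=
  if k = i ∨ k = j then (pderiv (R := R) i).toLinearMap + (pderiv (R := R) j).toLinearMap else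
    (pderiv (R := R) k).toLinearMap

theorem mop_apply (i j k : ι) (f : MvPolynomial ι R) :
    mop i j k f = if k = i ∨ k = j then pderiv i f + pderiv j f else pderiv k f := by
  unfold mop
  split_ifs <;> rfl

/-- The substitution `X j ↦ X j + X i`. -/
noncomputable def shiftj (i j : ι) : MvPolynomial ι R →ₐ[R] MvPolynomial ι R :=
  aeval (Function.update X j (X j + X i))

/-- The substitution `X j ↦ X j - X i`. -/
noncomputable def unshiftj (i j : ι) : MvPolynomial ι R →ₐ[R] MvPolynomial ι R :=
  aeval (Function.update X j (X j - X i))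

theorem shiftj_X (i j k : ι) : shiftj i j (X k : MvPolynomial ι R) =
    if k = j then X j + X i else X k := by
  unfold shiftj
  rw [aeval_X]
  by_cases h : k = j
  · subst h; simp
  · simp [h]

theorem unshiftj_X (i j k : ι) : unshiftj i j (X k : MvPolynomial ι R) =
    if k = j then X j - X i else X k := by
  unfold unshiftj
  rw [aeval_X]
  by_cases h : k = j
  · subst h; simp
  · simp [h]

theorem unshiftj_shiftj {i j : ι} (hij : i ≠ j) (f : MvPolynomial ι R) :
    unshiftj i j (shiftj i j f) = f := by
  induction f using MvPolynomial.induction_on with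
  | C a => simp [shiftj, unshiftj]
  | add p q hp hq => rw [map_add, map_add, hp, hq]
  | mul_X p k hp =>
    rw [map_mul, map_mul, hp, shiftj_X]
    split_ifs with h
    · subst h
      rw [map_add, unshiftj_X, unshiftj_X, if_pos rfl, if_neg hij]
      ring
    · rw [unshiftj_X, if_neg h]

theorem pderiv_shiftj {i j : ι} (hij : i ≠ j) (k : ι) (hk : k ≠ j) (f : MvPolynomial ι R) :
    pderiv k (shiftj i j f) = shiftj i j (mop i j k f) := by
  induction f using MvPolynomial.induction_on with
  | C a =>
    rw [mop_apply]
    simp only [pderiv_C, add_zero, ite_self, map_zero]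
    have : shiftj i j (C a : MvPolynomial ι R) = C a := by simp [shiftj]
    rw [this, pderiv_C]
  | add p q hp hq => rw [map_add, map_add, map_add, map_add, hp, hq]
  | mul_X p l hp =>
    have e1 : mop i j k (p * X l) = mop i j k p * X l + p * mop i j k (X l) := by
      simp only [mop_apply]
      split_ifs
      · rw [pderiv_mul, pderiv_mul]; ring
      · rw [pderiv_mul]
    rw [map_mul, pderiv_mul, hp, e1, map_add, map_mul, map_mul]
    congr 2
    rw [shiftj_X, mop_apply]
    simp only [hk, or_false]
    by_cases hl : l = j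
    · subst hl
      rw [if_pos rfl, map_add, pderiv_X_of_ne (Ne.symm hk)]
      by_cases hki : k = i
      · subst hki
        rw [if_pos rfl, pderiv_X_self, pderiv_X_self, pderiv_X_of_ne (Ne.symm hij)]
        simp
      · rw [if_neg hki, pderiv_X_of_ne (Ne.symm hki), map_zero, add_zero]
    · rw [if_neg hl]
      by_cases hki : k = i
      · subst hki
        rw [if_pos rfl, pderiv_X_of_ne hl, add_zero]
        by_cases hlk : l = k
        · subst hlk
          rw [pderiv_X_self]; simp
        · rw [pderiv_X_of_ne hlk]; simp
      · rw [if_neg hki]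
        by_cases hlk : l = k
        · subst hlk
          rw [pderiv_X_self]; simp
        · rw [pderiv_X_of_ne hlk]; simp

theorem foldr_pderiv_shiftj {i j : ι} (hij : i ≠ j) (l : List ι) (hl : ∀ k ∈ l, k ≠ j)
    (f : MvPolynomial ι R) :
    l.foldr (fun k g => pderiv k g) (shiftj i j f) =
      shiftj i j (l.foldr (fun k g => mop i j k g) f) := by
  induction l with
  | nil => rfl
  | cons k l ih =>
    rw [List.foldr_cons, List.foldr_cons, ih (fun q hq => hl q (by simp [hq])),
      pderiv_shiftj hij k (hl k (by simp))]

theorem coeff_foldr_pderiv (l : List ι) (f : MvPolynomial ι R) (α : ι →₀ ℕ) :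
    ∃ c : ℕ, 0 < c ∧ coeff α (l.foldr (fun k g => pderiv k g) f) =
      coeff (α + Multiset.toFinsupp (l : Multiset ι)) f * c := by
  induction l generalizing α with
  | nil => exact ⟨1, one_pos, by simp⟩
  | cons k l ih =>
    obtain ⟨c, hc, h⟩ := ih (α + Finsupp.single k 1)
    refine ⟨c * (α k + 1), by positivity, ?_⟩
    rw [List.foldr_cons, coeff_pderiv, h]
    have e : α + Finsupp.single k 1 + Multiset.toFinsupp (l : Multiset ι) =
        α + Multiset.toFinsupp ((k :: l : List ι) : Multiset ι) := by
      rw [← Multiset.cons_coe, ← Multiset.singleton_add, Multiset.toFinsupp_add,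
        Multiset.toFinsupp_singleton, add_assoc]
    rw [e]
    push_cast
    ring

/-- If all products of more than `m - a` of the merged operators kill the homogeneous polynomial
`T` of degree `m`, then `(X j - X i)^a` divides `T`. -/
theorem pow_dvd_of_merge [Algebra ℚ R] {i j : ι} (hij : i ≠ j) (a m : ℕ) (T : MvPolynomial ι R)
    (hT : T.IsHomogeneous m)
    (h : ∀ l : List ι, m < l.length + a → l.foldr (fun k g => mop i j k g) T = 0) :
    (X j - X i : MvPolynomial ι R) ^ a ∣ T := by
  have hP : (X j : MvPolynomial ι R) ^ a ∣ shiftj i j T := by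
    have hhom : (shiftj i j T).IsHomogeneous m := by
      unfold shiftj
      have := hT.aeval (Function.update X j (X j + X i) : ι → MvPolynomial ι R) (n := 1) (by
        intro k
        by_cases hk : k = j
        · subst hk
          simpa using (isHomogeneous_X R k).add (isHomogeneous_X R i)
        · simpa [hk] using isHomogeneous_X R k)
      simpa using this
    have hcoeff : ∀ α : ι →₀ ℕ, ¬ (Finsupp.single j a ≤ α) → coeff α (shiftj i j T) = 0 := by
      intro α hα
      by_contra hne
      have hdeg : α.degree = m := by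
        have := hhom hne
        rwa [Finsupp.degree_eq_weight_one]
      have hαj : α j < a := by
        by_contra hc
        exact hα (by rw [Finsupp.single_le_iff]; omega)
      -- choose a sub-multiset of the part off `j`
      set β : ι →₀ ℕ := α.erase j with hβ
      have hβdeg : β.degree + α j = m := by
        rw [← hdeg]
        have : α = Finsupp.single j (α j) + β := by rw [hβ, Finsupp.single_add_erase]
        conv_rhs => rw [this]
        rw [map_add, Finsupp.degree_single]
        ring
      have hlist : ∃ l : List ι, (l : Multiset ι) = Finsupp.toMultiset β := by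
        exact ⟨_, Multiset.coe_toList _⟩
      obtain ⟨l, hl⟩ := hlist
      have hlen : l.length = β.degree := by
        have : Multiset.card (l : Multiset ι) = β.degree := by
          rw [hl, Finsupp.card_toMultiset, Finsupp.degree]
          rfl
        simpa using this
      have hl2 : ∀ k ∈ l, k ≠ j := by
        intro k hk
        have : k ∈ Finsupp.toMultiset β := by rw [← hl]; exact hk
        rw [Finsupp.mem_toMultiset] at this
        rintro rfl
        simp [hβ] at this
      have h0 := h l (by omega)
      have h1 := foldr_pderiv_shiftj hij l hl2 T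
      rw [h0, map_zero] at h1
      obtain ⟨c, hc, h2⟩ := coeff_foldr_pderiv l (shiftj i j T) (Finsupp.single j (α j))
      rw [h1, coeff_zero, hl, Finsupp.toMultiset_toFinsupp] at h2
      have h3 : Finsupp.single j (α j) + β = α := by rw [hβ, Finsupp.single_add_erase]
      rw [h3] at h2
      have hu : IsUnit (c : R) := by
        have : ((c : ℕ) : R) = algebraMap ℚ R (c : ℚ) := by simp
        rw [this]
        exact (IsUnit.mk0 (c : ℚ) (by positivity)).map _
      exact hne ((hu.mul_left_eq_zero).1 h2.symm)
    have : shiftj i j T = monomial (Finsupp.single j a) 1 * (shiftj i j T).divMonomial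
        (Finsupp.single j a) := by
      ext α
      rw [coeff_monomial_mul']
      split_ifs with hle
      · rw [one_mul, coeff_divMonomial, add_tsub_cancel_of_le hle]
      · exact hcoeff α hle
    rw [this]
    rw [X_pow_eq_monomial]
    exact dvd_mul_right _ _
  have h2 := map_dvd (unshiftj i j : MvPolynomial ι R →ₐ[R] MvPolynomial ι R) hP
  rw [unshiftj_shiftj hij, map_pow, unshiftj_X, if_pos rfl] at h2
  exact h2

/-- (D1), general index type: if every monomial of `T` after `X q ↦ X q + X p` has degree at most
`e` off `q`, then `(X q - X p)^(m-e)` divides `T`. -/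
theorem pow_dvd_of_shift {p q : ι} (hpq : p ≠ q) (m e : ℕ) (T : MvPolynomial ι R)
    (hT : T.IsHomogeneous m)
    (h : ∀ α : ι →₀ ℕ, coeff α (bind₁ (fun i => if i = q then X q + X p else X i) T) ≠ 0 →
      α.degree ≤ α q + e) :
    (X q - X p : MvPolynomial ι R) ^ (m - e) ∣ T := by
  have e1 : bind₁ (fun i => if i = q then X q + X p else X i) T = shiftj p q T := by
    unfold shiftj
    rw [bind₁]
    congr 2
    funext i
    by_cases hi : i = q
    · subst hi; simp
    · simp [hi]
  rw [e1] at h
  have hP : (X q : MvPolynomial ι R) ^ (m - e) ∣ shiftj p q T := by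
    have hhom : (shiftj p q T).IsHomogeneous m := by
      unfold shiftj
      have := hT.aeval (Function.update X q (X q + X p) : ι → MvPolynomial ι R) (n := 1) (by
        intro k
        by_cases hk : k = q
        · subst hk
          simpa using (isHomogeneous_X R k).add (isHomogeneous_X R p)
        · simpa [hk] using isHomogeneous_X R k)
      simpa using this
    have hcoeff : ∀ α : ι →₀ ℕ, ¬ (Finsupp.single q (m - e) ≤ α) →
        coeff α (shiftj p q T) = 0 := by
      intro α hα
      by_contra hne
      have hdeg : α.degree = m := by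
        have := hhom hne
        rwa [Finsupp.degree_eq_weight_one]
      have h1 := h α hne
      exact hα (by rw [Finsupp.single_le_iff]; omega)
    have : shiftj p q T = monomial (Finsupp.single q (m - e)) 1 * (shiftj p q T).divMonomial
        (Finsupp.single q (m - e)) := by
      ext α
      rw [coeff_monomial_mul']
      split_ifs with hle
      · rw [one_mul, coeff_divMonomial, add_tsub_cancel_of_le hle]
      · exact hcoeff α hle
    rw [this]
    rw [X_pow_eq_monomial]
    exact dvd_mul_right _ _
  have h2 := map_dvd (unshiftj p q : MvPolynomial ι R →ₐ[R] MvPolynomial ι R) hP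
  rw [unshiftj_shiftj hpq, map_pow, unshiftj_X, if_pos rfl] at h2
  exact h2

omit [DecidableEq ι] in
/-- homogeneity of the quotient -/
theorem quotient_isHomogeneous (P : Finset (ι × ι)) (hne : ∀ p ∈ P, p.1 ≠ p.2) (a : ι × ι → ℕ)
    (m : ℕ) (T s : MvPolynomial ι R) (hT : T.IsHomogeneous m) (hs : T = Dprod P a * s) :
    s.IsHomogeneous (m - ∑ p ∈ P, a p) ∧ (m < ∑ p ∈ P, a p → s = 0) := by
  have hcomp : ∀ n : ℕ, n + ∑ p ∈ P, a p ≠ m → homogeneousComponent n s = 0 := by
    intro n hn
    apply prod_lin_mul_eq_zero P hne a
    have h1 : homogeneousComponent (n + ∑ p ∈ P, a p) T = Dprod P a *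
        homogeneousComponent n s := by
      rw [hs]
      have hD := Dprod_isHomogeneous (R := R) P a
      conv_lhs => rw [← sum_homogeneousComponent s]
      rw [Finset.mul_sum, map_sum]
      by_cases hns : n ∈ Finset.range (s.totalDegree + 1)
      · rw [Finset.sum_eq_single n]
        · exact homogeneousComponent_of_mem
            (by
              have := hD.mul (homogeneousComponent_isHomogeneous n s)
              rwa [add_comm] at this) |>.trans (by simp)
        · intro k _ hk
          have := homogeneousComponent_of_mem (m := n + ∑ p ∈ P, a p)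
            (hD.mul (homogeneousComponent_isHomogeneous k s))
          rw [this, if_neg (by omega)]
        · intro hc; exact absurd hns hc
      · have h0 : homogeneousComponent n s = 0 := by
          apply homogeneousComponent_eq_zero
          simpa using hns
        rw [h0, mul_zero]
        apply Finset.sum_eq_zero
        intro k hk
        have := homogeneousComponent_of_mem (m := n + ∑ p ∈ P, a p)
          (hD.mul (homogeneousComponent_isHomogeneous k s))
        rw [this, if_neg (by rintro h9; apply hns; have : k = n := by omega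
                             rw [← this]; exact hk)]
    rw [← h1]
    have := homogeneousComponent_of_mem (m := n + ∑ p ∈ P, a p) hT
    rw [this, if_neg (by omega)]
  constructor
  · by_cases hm : ∑ p ∈ P, a p ≤ m
    · have : s = homogeneousComponent (m - ∑ p ∈ P, a p) s := by
        conv_lhs => rw [← sum_homogeneousComponent s]
        by_cases hns : (m - ∑ p ∈ P, a p) ∈ Finset.range (s.totalDegree + 1)
        · rw [Finset.sum_eq_single (m - ∑ p ∈ P, a p)]
          · intro k _ hk
            exact hcomp k (by omega)
          · intro hc; exact absurd hns hc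
        · have h0 : homogeneousComponent (m - ∑ p ∈ P, a p) s = 0 := by
            apply homogeneousComponent_eq_zero
            rw [Finset.mem_range] at hns
            omega
          rw [h0]
          apply Finset.sum_eq_zero
          intro k hk
          apply hcomp
          rintro h9
          apply hns
          have : k = m - ∑ p ∈ P, a p := by omega
          rw [← this]; exact hk
      rw [this]
      exact homogeneousComponent_isHomogeneous _ _
    · have : s = 0 := by
        rw [← sum_homogeneousComponent s]
        apply Finset.sum_eq_zero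
        intro k _
        exact hcomp k (by omega)
      rw [this]
      exact isHomogeneous_zero _ _ _
  · intro hm
    rw [← sum_homogeneousComponent s]
    apply Finset.sum_eq_zero
    intro k _
    exact hcomp k (by omega)

/-- BLOCK DIV. `T` homogeneous of degree `m` over the `ℚ`-algebra `R`, `P` a set of unordered pairs
of distinct indices; if for each pair all products of more than `m - a i j` merged operators kill
`T`, then `T = Δ * s` with `Δ = ∏ (X j - X i)^{a i j}`; the coefficients of `s` lie in every
additive subgroup which contains those of `T`; `s` is homogeneous of degree `m - ∑ a` (and zero if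
`∑ a > m`). -/
theorem exists_div [Algebra ℚ R] (P : Finset (ι × ι)) (hP : ∀ p ∈ P, p.1 ≠ p.2 ∧ (p.2, p.1) ∉ P)
    (a : ι × ι → ℕ) (m : ℕ) (T : MvPolynomial ι R) (hT : T.IsHomogeneous m)
    (h : ∀ p ∈ P, ∀ l : List ι, m < l.length + a p →
      l.foldr (fun k g => mop p.1 p.2 k g) T = 0) :
    ∃ s : MvPolynomial ι R, T = Dprod P a * s ∧
      (∀ G : AddSubgroup R, (∀ α, coeff α T ∈ G) → ∀ α, coeff α s ∈ G) ∧
      s.IsHomogeneous (m - ∑ p ∈ P, a p) ∧ (m < ∑ p ∈ P, a p → s = 0) := by
  obtain ⟨s, hs⟩ := prod_dvd P hP a T
    (fun p hp => pow_dvd_of_merge (hP p hp).1 (a p) m T hT (h p hp))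
  have hne : ∀ p ∈ P, p.1 ≠ p.2 := fun p hp => (hP p hp).1
  obtain ⟨h1, h2⟩ := quotient_isHomogeneous P hne a m T s hT hs
  exact ⟨s, hs, fun G hG α => coeff_mem_of_prod_mul P hne a G s (by rw [← hs]; exact hG) α,
    h1, h2⟩

end merge

section interface

variable {R : Type*} [CommRing R]

/-- (D1) -/
theorem D1 {p q : ℕ} (hpq : p ≠ q) (m e : ℕ) (T : MvPolynomial ℕ R) (hT : T.IsHomogeneous m)
    (h : ∀ α : ℕ →₀ ℕ, coeff α (bind₁ (fun i => if i = q then X q + X p else X i) T) ≠ 0 →
      α.degree ≤ α q + e) :
    (X q - X p : MvPolynomial ℕ R) ^ (m - e) ∣ T :=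
  pow_dvd_of_shift hpq m e T hT h

/-- (D2) -/
theorem D2 {k : Type*} [CommRing k] [Module k R] (Ps : Finset (ℕ × ℕ))
    (hPs : ∀ p ∈ Ps, p.1 < p.2) (e : ℕ × ℕ → ℕ) (V : Submodule k R) (T : MvPolynomial ℕ R)
    (hT : ∀ p ∈ Ps, (X p.2 - X p.1 : MvPolynomial ℕ R) ^ e p ∣ T) (hV : ∀ α, coeff α T ∈ V) :
    ∃ T' : MvPolynomial ℕ R, T = (∏ p ∈ Ps, (X p.2 - X p.1) ^ e p) * T' ∧
      ∀ α, coeff α T' ∈ V := by
  obtain ⟨T', hT'⟩ := prod_dvd Ps
    (fun p hp => ⟨(hPs p hp).ne, fun hc => absurd (hPs p hp) (not_lt.2 (hPs _ hc).le)⟩) e T hT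
  refine ⟨T', hT', fun α => ?_⟩
  exact coeff_mem_of_prod_mul Ps (fun p hp => (hPs p hp).ne) e V.toAddSubgroup T'
    (by rw [← hT']; exact hV) α

/-- (D3): the product is regular. -/
theorem D3 (Ps : Finset (ℕ × ℕ)) (hPs : ∀ p ∈ Ps, p.1 < p.2) (e : ℕ × ℕ → ℕ)
    (T : MvPolynomial ℕ R) (h : (∏ p ∈ Ps, (X p.2 - X p.1) ^ e p) * T = 0) : T = 0 :=
  prod_lin_mul_eq_zero Ps (fun p hp => (hPs p hp).ne) e T h

/-- (D4): homogeneity of the quotient. -/
theorem D4 (Ps : Finset (ℕ × ℕ)) (hPs : ∀ p ∈ Ps, p.1 < p.2) (e : ℕ × ℕ → ℕ) (m : ℕ)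
    (T T' : MvPolynomial ℕ R) (hT : T.IsHomogeneous m)
    (h : T = (∏ p ∈ Ps, (X p.2 - X p.1) ^ e p) * T') :
    T'.IsHomogeneous (m - ∑ p ∈ Ps, e p) ∧ (m < ∑ p ∈ Ps, e p → T' = 0) :=
  quotient_isHomogeneous Ps (fun p hp => (hPs p hp).ne) e m T T' hT h

end interface

end Vale.Agent.P066.Lab
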