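import Mathlib

/-!
Slices of polynomials along a block of variables (Kuenneth part of the local theorem).
-/

namespace Vale.Agent.P066.Lab

open MvPolynomial

variable {S : Type*} {k : Type*} [Field k]

section slice

variable (B : Set S) [DecidablePred (· ∈ B)] (l : MvPolynomial S k →ₗ[k] k)

/-- The slice of a polynomial along the block `B` of variables: apply the functional `l` to the
`B`-part of every monomial. -/
noncomputable def slice : MvPolynomial S k →ₗ[k] MvPolynomial S k :=
  (basisMonomials S k).constr k
    (fun m => (l (monomial (m.filter (· ∈ B)) 1)) • monomial (m.filter (· ∉ B)) (1 : k))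

theorem slice_monomial_one (m : S →₀ ℕ) :
    slice B l (monomial m 1) =
      (l (monomial (m.filter (· ∈ B)) 1)) • monomial (m.filter (· ∉ B)) (1 : k) := by
  have := (basisMonomials S k).constr_basis k
    (fun m => (l (monomial (m.filter (· ∈ B)) 1)) • monomial (m.filter (· ∉ B)) (1 : k)) m
  simpa [slice] using this

theorem slice_monomial (m : S →₀ ℕ) (c : k) :
    slice B l (monomial m c) =
      c • (l (monomial (m.filter (· ∈ B)) 1)) • monomial (m.filter (· ∉ B)) (1 : k) := by
  have : monomial m c = c • monomial m (1 : k) := by
    rw [smul_monomial]; simp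
  rw [this, map_smul, slice_monomial_one]

/-- Monomials of a polynomial supported on `B`. -/
theorem support_subset_of_supported {B : Set S} {f : MvPolynomial S k}
    (hf : f ∈ supported k B) {m : S →₀ ℕ} (hm : m ∈ f.support) : (↑m.support : Set S) ⊆ B := by
  intro s hs
  apply (mem_supported.mp hf)
  simp only [Finset.mem_coe, mem_vars_iff_mem_support]
  exact ⟨m, hm, by simpa using hs⟩

theorem monomial_mem_supported {B : Set S} {m : S →₀ ℕ} (hm : (↑m.support : Set S) ⊆ B) (c : k) :
    monomial m c ∈ supported k B := by
  classical
  rw [mem_supported]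
  intro s hs
  rcases eq_or_ne c 0 with rfl | hc
  · simp at hs
  · rw [vars_monomial hc] at hs
    exact hm hs

theorem filter_eq_self_of_subset {B : Set S} [DecidablePred (· ∈ B)] {m : S →₀ ℕ}
    (hm : (↑m.support : Set S) ⊆ B) : m.filter (· ∈ B) = m := by
  ext s
  by_cases hs : s ∈ B
  · simp [hs]
  · have : m s = 0 := by
      by_contra h
      exact hs (hm (by simpa using h))
    simp [hs, this]

theorem filter_not_eq_zero_of_subset {B : Set S} [DecidablePred (· ∈ B)] {m : S →₀ ℕ}
    (hm : (↑m.support : Set S) ⊆ B) : m.filter (· ∉ B) = 0 := by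
  ext s
  by_cases hs : s ∈ B
  · simp [hs]
  · have : m s = 0 := by
      by_contra h
      exact hs (hm (by simpa using h))
    simp [hs, this]

theorem filter_eq_zero_of_subset_compl {B : Set S} [DecidablePred (· ∈ B)] {m : S →₀ ℕ}
    (hm : (↑m.support : Set S) ⊆ Bᶜ) : m.filter (· ∈ B) = 0 := by
  ext s
  by_cases hs : s ∈ B
  · have : m s = 0 := by
      by_contra h
      exact (hm (by simpa using h) : s ∈ Bᶜ) hs
    simp [hs, this]
  · simp [hs]

theorem filter_not_eq_self_of_subset_compl {B : Set S} [DecidablePred (· ∈ B)] {m : S →₀ ℕ}
    (hm : (↑m.support : Set S) ⊆ Bᶜ) : m.filter (· ∉ B) = m := by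
  ext s
  by_cases hs : s ∈ B
  · have : m s = 0 := by
      by_contra h
      exact (hm (by simpa using h) : s ∈ Bᶜ) hs
    simp [hs, this]
  · simp [hs]

/-- On polynomials in the variables of `B` the slice is the functional itself. -/
theorem slice_of_supported {f : MvPolynomial S k} (hf : f ∈ supported k B) :
    slice B l f = C (l f) := by
  conv_lhs => rw [f.as_sum]
  conv_rhs => rw [f.as_sum]
  rw [map_sum, map_sum, map_sum]
  refine Finset.sum_congr rfl fun m hm => ?_
  have hsub := support_subset_of_supported hf hm
  rw [slice_monomial, filter_eq_self_of_subset hsub, filter_not_eq_zero_of_subset hsub]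
  have : monomial m (coeff m f) = coeff m f • monomial m (1 : k) := by
    rw [smul_monomial]; simp
  rw [this, map_smul, smul_eq_mul, map_mul, smul_eq_C_mul, smul_eq_C_mul]
  simp

theorem slice_monomial_mul {n : S →₀ ℕ} (hn : (↑n.support : Set S) ⊆ Bᶜ) (c : k)
    (h : MvPolynomial S k) :
    slice B l (monomial n c * h) = monomial n c * slice B l h := by
  conv_lhs => rw [h.as_sum]
  conv_rhs => rw [h.as_sum]
  rw [Finset.mul_sum, map_sum, map_sum, Finset.mul_sum]
  refine Finset.sum_congr rfl fun m _ => ?_
  rw [monomial_mul, slice_monomial, slice_monomial, Finsupp.filter_add, Finsupp.filter_add,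
    filter_eq_zero_of_subset_compl hn, filter_not_eq_self_of_subset_compl hn, zero_add,
    mul_smul_comm, mul_smul_comm, monomial_mul, smul_monomial, smul_monomial, smul_monomial,
    smul_monomial]
  congr 1
  simp only [smul_eq_mul, mul_one]
  ring

/-- The slice is linear over the polynomials in the other variables. -/
theorem slice_mul_left {g : MvPolynomial S k} (hg : g ∈ supported k Bᶜ) (h : MvPolynomial S k) :
    slice B l (g * h) = g * slice B l h := by
  conv_lhs => rw [g.as_sum]
  conv_rhs => rw [g.as_sum]
  rw [Finset.sum_mul, map_sum, Finset.sum_mul]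
  exact Finset.sum_congr rfl fun n hn =>
    slice_monomial_mul B l (support_subset_of_supported hg hn) _ _

theorem slice_mul_of_supported {f g : MvPolynomial S k} (hf : f ∈ supported k B)
    (hg : g ∈ supported k Bᶜ) : slice B l (f * g) = C (l f) * g := by
  rw [mul_comm f g, slice_mul_left B l hg, slice_of_supported B l hf, mul_comm]

/-- Every polynomial is a sum of products of a polynomial in the `B`-variables and one in the
others. -/
theorem induction_blocks {B : Set S} [DecidablePred (· ∈ B)] {p : MvPolynomial S k → Prop}
    (hadd : ∀ f g, p f → p g → p (f + g)) (h0 : p 0)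
    (hmul : ∀ f ∈ supported k B, ∀ g ∈ supported k Bᶜ, p (f * g)) (f : MvPolynomial S k) :
    p f := by
  rw [f.as_sum]
  refine Finset.sum_induction _ p hadd h0 fun m _ => ?_
  have : monomial m (coeff m f) =
      monomial (m.filter (· ∈ B)) (coeff m f) * monomial (m.filter (· ∉ B)) (1 : k) := by
    rw [monomial_mul, mul_one, Finsupp.filter_add_filter_not]
  rw [this]
  apply hmul
  · apply monomial_mem_supported
    intro s hs
    have hs' : s ∈ (m.filter (· ∈ B)).support := by exact_mod_cast hs
    rw [Finsupp.support_filter, Finset.mem_filter] at hs'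
    exact hs'.2
  · apply monomial_mem_supported
    intro s hs
    have hs' : s ∈ (m.filter (· ∉ B)).support := by exact_mod_cast hs
    rw [Finsupp.support_filter, Finset.mem_filter] at hs'
    exact hs'.2

/-- A slice whose functional vanishes on the `B`-polynomials of the ideal kills the ideal. -/
theorem slice_mul_eq_zero_of_mem {G : Set (MvPolynomial S k)} (hG : G ⊆ supported k B)
    (hl : ∀ f ∈ Ideal.span G, f ∈ supported k B → l f = 0)
    {f : MvPolynomial S k} (hf : f ∈ Ideal.span G) (a : MvPolynomial S k) :
    slice B l (a * f) = 0 := by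
  induction hf using Submodule.span_induction generalizing a with
  | mem x hx =>
    induction a using induction_blocks (B := B) with
    | hadd f g hf hg => rw [add_mul, map_add, hf, hg, add_zero]
    | h0 => rw [zero_mul, map_zero]
    | hmul f hf g hg =>
      have hfx : f * x ∈ supported k B := mul_mem hf (hG hx)
      rw [mul_comm f g, mul_assoc, slice_mul_left B l hg, slice_of_supported B l hfx,
        hl _ (Ideal.mul_mem_left _ _ (Ideal.subset_span hx)) hfx, map_zero, mul_zero]
  | zero => rw [mul_zero, map_zero]
  | add x y _ _ hx hy => rw [mul_add, map_add, hx, hy, add_zero]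
  | smul b x _ ihx => rw [smul_eq_mul, ← mul_assoc]; exact ihx _

theorem slice_eq_zero_of_mem {G : Set (MvPolynomial S k)} (hG : G ⊆ supported k B)
    (hl : ∀ f ∈ Ideal.span G, f ∈ supported k B → l f = 0)
    {f : MvPolynomial S k} (hf : f ∈ Ideal.span G) : slice B l f = 0 := by
  simpa using slice_mul_eq_zero_of_mem B l hG hl hf 1

/-- A slice along `B` preserves ideals generated by polynomials in the other variables. -/
theorem slice_mem_of_mem {G : Set (MvPolynomial S k)} (hG : G ⊆ supported k Bᶜ)
    {f : MvPolynomial S k} (hf : f ∈ Ideal.span G) : slice B l f ∈ Ideal.span G := by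
  suffices h : ∀ a, slice B l (a * f) ∈ Ideal.span G by simpa using h 1
  induction hf using Submodule.span_induction with
  | mem x hx =>
    intro a
    rw [mul_comm, slice_mul_left B l (hG hx)]
    exact Ideal.mul_mem_right _ _ (Ideal.subset_span hx)
  | zero => intro a; simp
  | add x y _ _ hx hy => intro a; rw [mul_add, map_add]; exact add_mem (hx a) (hy a)
  | smul b x _ ihx => intro a; rw [smul_eq_mul, ← mul_assoc]; exact ihx _

/-- The slice lands in the polynomials in the other variables. -/
theorem slice_mem_supported (f : MvPolynomial S k) : slice B l f ∈ supported k Bᶜ := by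
  induction f using induction_blocks (B := B) with
  | hadd f g hf hg => rw [map_add]; exact add_mem hf hg
  | h0 => rw [map_zero]; exact zero_mem _
  | hmul f hf g hg =>
    rw [slice_mul_of_supported B l hf hg]
    exact mul_mem (algebraMap_mem (supported k Bᶜ) (l f)) hg

end slice

end Vale.Agent.P066.Lab
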