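import Vale.Agent.P066.Lab.EQ
import Vale.Agent.P066.Lab.Slice

/-!
# Restriction of levels to one block

`c` a zero colouring of `S`, `e : S' → S` injective with range the block of colour `i`.  A colouring
`m` finer than `c` which only cuts the block `i` has the same levels as its restriction to the
block.
-/

set_option autoImplicit false
set_option linter.unusedSectionVars false

open Finset MvPolynomial

namespace Vale.Agent.P066.Lab

noncomputable section

variable {S S' : Type} [Fintype S] [DecidableEq S] [Fintype S'] [DecidableEq S']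
variable (k : Type) [Field k] {a : S → S → ℕ} {a' : S' → S' → ℕ} {θ : S → ℤ} {θ' : S' → ℤ}
variable {e : S' → S}

/-- `m` refines `c` and only cuts the block `i`. -/
def CutAt (c : S → ℕ) (i : ℕ) (m : S → ℕ) : Prop :=
  Ref m c ∧ ∀ s t, c s = c t → c s ≠ i → m s = m t

theorem nb_cut {c m : S → ℕ} {i : ℕ} (hr : ∀ s, s ∈ Set.range e ↔ c s = i) (hne : Nonempty S')
    (hm : CutAt c i m) : nb m = nb c + nb (m ∘ e) - 1 := by
  classical
  have hdis : ∀ f : S → ℕ, univ.image f = (blk c i).image f ∪ ((blk c i)ᶜ).image f := by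
    intro f
    rw [← Finset.image_union, Finset.union_compl]
  have hblk : ∀ f : S → ℕ, (blk c i).image f = univ.image (f ∘ e) := by
    intro f
    ext j
    simp only [Finset.mem_image, mem_univ, true_and, Function.comp_apply, mem_blk]
    constructor
    · rintro ⟨s, hs, rfl⟩
      obtain ⟨s', rfl⟩ := (hr s).mpr hs
      exact ⟨s', rfl⟩
    · rintro ⟨s', rfl⟩
      exact ⟨e s', (hr _).mp ⟨s', rfl⟩, rfl⟩
  have h1 : (univ.image m).card = (univ.image (m ∘ e)).card + (((blk c i)ᶜ).image m).card := by
    rw [hdis m, Finset.card_union_of_disjoint, hblk]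
    rw [Finset.disjoint_left]
    intro j h1 h2
    rw [Finset.mem_image] at h1 h2
    obtain ⟨s, hs, rfl⟩ := h1
    obtain ⟨t, ht, hst⟩ := h2
    rw [Finset.mem_compl, mem_blk] at ht
    rw [mem_blk] at hs
    exact ht ((hm.1 t s hst).trans hs)
  have h2 : (univ.image c).card = 1 + (((blk c i)ᶜ).image c).card := by
    rw [hdis c, Finset.card_union_of_disjoint]
    · congr 1
      rw [Finset.card_eq_one]
      refine ⟨i, ?_⟩
      obtain ⟨s0⟩ := hne
      ext j
      rw [Finset.mem_image, Finset.mem_singleton]
      constructor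
      · rintro ⟨s, hs, rfl⟩
        exact mem_blk.mp hs
      · rintro rfl
        exact ⟨e s0, mem_blk.mpr ((hr _).mp ⟨s0, rfl⟩), (hr _).mp ⟨s0, rfl⟩⟩
    · rw [Finset.disjoint_left]
      intro j h1 h2
      rw [Finset.mem_image] at h1 h2
      obtain ⟨s, hs, rfl⟩ := h1
      obtain ⟨t, ht, hst⟩ := h2
      rw [Finset.mem_compl, mem_blk] at ht
      rw [mem_blk] at hs
      exact ht (hst.trans hs)
  have h3 : (((blk c i)ᶜ).image m).card = (((blk c i)ᶜ).image c).card := by
    have : Nonempty S := hne.map e
    apply le_antisymm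
    · -- `m` factors through `c` on the complement
      have : ∀ j ∈ ((blk c i)ᶜ).image m, ∃ s, s ∈ (blk c i)ᶜ ∧ m s = j := by
        intro j hj
        simpa using hj
      choose! g hg using this
      refine Finset.card_le_card_of_injOn (fun j => c (g j)) ?_ ?_
      · intro j hj
        exact Finset.mem_image_of_mem c (hg j hj).1
      · intro j hj j' hj' h
        have hj1 := hg j hj
        have hj2 := hg j' hj'
        rw [← hj1.2, ← hj2.2]
        refine hm.2 _ _ h ?_
        have := hj1.1
        rw [Finset.mem_compl, mem_blk] at this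
        exact this
    · have : ∀ j ∈ ((blk c i)ᶜ).image c, ∃ s, s ∈ (blk c i)ᶜ ∧ c s = j := by
        intro j hj
        simpa using hj
      choose! g hg using this
      refine Finset.card_le_card_of_injOn (fun j => m (g j)) ?_ ?_
      · intro j hj
        exact Finset.mem_image_of_mem m (hg j hj).1
      · intro j hj j' hj' h
        have hj1 := hg j hj
        have hj2 := hg j' hj'
        rw [← hj1.2, ← hj2.2]
        exact hm.1 _ _ h
  unfold nb
  rw [h1, h2, h3]
  push_cast
  ring

theorem CC_cut (he : Function.Injective e) (ha : ∀ s t, a' s t = a (e s) (e t))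
    (hθ : ∀ s, θ' s = θ (e s)) (hs : SymZ a θ) {c m : S → ℕ} {i : ℕ}
    (hr : ∀ s, s ∈ Set.range e ↔ c s = i) (hc : Zc θ c) (hmz : Zc θ m) (hmz' : Zc θ' (m ∘ e))
    (hm : CutAt c i m) : CC a m = CC a c + CC a' (m ∘ e) := by
  classical
  have h1 := two_mul_CC hs m hmz
  have h2 := two_mul_CC hs c hc
  have h3 := two_mul_CC (SymZ_pull he ha hθ hs) (m ∘ e) hmz'
  have h4 : (univ.filter fun p : S × S => m p.1 ≠ m p.2) =
      (univ.filter fun p : S × S => c p.1 ≠ c p.2) ∪
      (univ.filter fun p : S' × S' => (m ∘ e) p.1 ≠ (m ∘ e) p.2).image (Prod.map e e) := by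
    ext p
    simp only [mem_filter, mem_univ, true_and, mem_union, Finset.mem_image, Prod.exists,
      Function.comp_apply]
    constructor
    · intro h
      by_cases hcp : c p.1 = c p.2
      · right
        have hi : c p.1 = i := by
          by_contra h'
          exact h (hm.2 _ _ hcp h')
        obtain ⟨s, hs'⟩ := (hr _).mpr hi
        obtain ⟨t, ht'⟩ := (hr _).mpr (hcp.symm.trans hi)
        exact ⟨s, t, by rw [hs', ht']; exact h, by simp [hs', ht']⟩
      · left; exact hcp
    · rintro (h | ⟨s, t, h, rfl⟩)
      · exact fun h' => h (hm.1 _ _ h')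
      · exact h
  have h5 : Disjoint (univ.filter fun p : S × S => c p.1 ≠ c p.2)
      ((univ.filter fun p : S' × S' => (m ∘ e) p.1 ≠ (m ∘ e) p.2).image (Prod.map e e)) := by
    rw [Finset.disjoint_left]
    intro p hp hp'
    rw [Finset.mem_image] at hp'
    obtain ⟨q, _, rfl⟩ := hp'
    rw [mem_filter] at hp
    apply hp.2
    exact ((hr _).mp ⟨q.1, rfl⟩).trans ((hr _).mp ⟨q.2, rfl⟩).symm
  rw [h4, Finset.sum_union h5, ← h2, Finset.sum_image fun x _ y _ h => (he.prodMap he) h] at h1
  have h6 : ∑ x ∈ (univ.filter fun p : S' × S' => (m ∘ e) p.1 ≠ (m ∘ e) p.2),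
      (a (Prod.map e e x).1 (Prod.map e e x).2 : ℤ) =
      ∑ p ∈ (univ.filter fun p : S' × S' => (m ∘ e) p.1 ≠ (m ∘ e) p.2), (a' p.1 p.2 : ℤ) :=
    Finset.sum_congr rfl fun p _ => by rw [ha]; rfl
  rw [h6, ← h3] at h1
  omega

theorem Zc_cut (he : Function.Injective e) (hθ : ∀ s, θ' s = θ (e s)) {c m : S → ℕ} {i : ℕ}
    (hr : ∀ s, s ∈ Set.range e ↔ c s = i) (hm : CutAt c i m) (hmz : Zc θ m) : Zc θ' (m ∘ e) := by
  intro j
  rcases (blk (m ∘ e) j).eq_empty_or_nonempty with h | h
  · rw [h]; simp [wS]
  · have hsat : ∀ s s', m (e s') = m s → s ∈ Set.range e := by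
      intro s s' hss
      rw [hr]
      rw [← hm.1 _ _ hss]
      exact (hr _).mp ⟨s', rfl⟩
    rw [← wS_image he hθ, blk_comp_image m hsat h]
    exact hmz j

/-- Contraction to one block: needs that the ideal of `c` is proper. -/
theorem mem_JC_cut (he : Function.Injective e) (ha : ∀ s t, a' s t = a (e s) (e t))
    (hθ : ∀ s, θ' s = θ (e s)) {c m : S → ℕ} {i : ℕ}
    (hr : ∀ s, s ∈ Set.range e ↔ c s = i) (hm : CutAt c i m) (hne : JC k a θ c ≠ ⊤)
    (g : MvPolynomial S' k) : rename e g ∈ JC k a θ m ↔ g ∈ JC k a' θ' (m ∘ e) := by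
  classical
  have hsat : ∀ s s', m (e s') = m s → s ∈ Set.range e := by
    intro s s' hss
    rw [hr]
    rw [← hm.1 _ _ hss]
    exact (hr _).mp ⟨s', rfl⟩
  constructor
  swap
  · intro h
    exact map_JC_le k he ha hθ m hsat (Ideal.mem_map_of_mem _ h)
  intro hg
  -- a functional with `l 1 = 1` vanishing on `JC c`
  obtain ⟨l, hl1, hl0⟩ : ∃ l : MvPolynomial S k →ₗ[k] k, l 1 = 1 ∧ ∀ f ∈ JC k a θ c, l f = 0 := by
    have hnt : (1 : MvPolynomial S k) ∉ (JC k a θ c).restrictScalars k := by
      intro h
      exact hne ((Ideal.eq_top_iff_one _).mpr h)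
    obtain ⟨l, hl1, hl2⟩ := Submodule.exists_le_ker_of_notMem hnt
    refine ⟨(l 1)⁻¹ • l, ?_, ?_⟩
    · simp [inv_mul_cancel₀ hl1]
    · intro f hf
      have : l f = 0 := hl2 hf
      simp [this]
  let B : Set S := {s | c s ≠ i}
  have hBc : ∀ s, s ∈ Bᶜ ↔ c s = i := by intro s; simp [B]
  have hsupp : ∀ f : MvPolynomial S' k, rename e f ∈ supported k (Bᶜ) := by
    intro f
    rw [mem_supported]
    intro s hs
    have := vars_rename e f hs
    rw [Finset.mem_image] at this
    obtain ⟨t, -, rfl⟩ := this
    rw [hBc]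
    exact (hr _).mp ⟨t, rfl⟩
  have hfix : ∀ f : MvPolynomial S' k, slice B l (rename e f) = rename e f := by
    intro f
    have h1 := slice_mul_of_supported B l (f := 1) (g := rename e f) (one_mem _) (hsupp f)
    rw [one_mul, hl1, map_one, one_mul] at h1
    exact h1
  -- the image of `JC m` under the slice
  have key : ∀ f ∈ JC k a θ m, slice B l f ∈
      Ideal.map (rename e : MvPolynomial S' k →ₐ[k] MvPolynomial S k) (JC k a' θ' (m ∘ e)) := by
    intro f hf
    unfold JC at hf
    refine Submodule.iSup_induction (fun j => J0 k a θ (blk m j))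
      (motive := fun f => slice B l f ∈
        Ideal.map (rename e : MvPolynomial S' k →ₐ[k] MvPolynomial S k) (JC k a' θ' (m ∘ e)))
      hf ?_ ?_ ?_
    · intro j x hx
      rcases (blk m j).eq_empty_or_nonempty with hj | ⟨s0, hs0⟩
      · rw [hj, J0_empty] at hx
        rw [(Submodule.mem_bot _).mp hx, map_zero]
        exact zero_mem _
      · rw [mem_blk] at hs0
        by_cases hci : c s0 = i
        · -- the block lies in the block `i` of `c`
          obtain ⟨t0, ht0⟩ := (hr _).mpr hci
          have hne' : (blk (m ∘ e) j).Nonempty := ⟨t0, mem_blk.mpr (by simp [ht0, hs0])⟩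
          have himg := blk_comp_image (e := e) m hsat hne'
          have hmap := map_J0 k he ha hθ (blk (m ∘ e) j)
          rw [himg] at hmap
          rw [← hmap] at hx
          have hx2 : slice B l x ∈ Ideal.map (rename e : MvPolynomial S' k →ₐ[k] MvPolynomial S k)
              (J0 k a' θ' (blk (m ∘ e) j)) := by
            unfold J0 at hx ⊢
            rw [Ideal.map_span] at hx ⊢
            refine slice_mem_of_mem B l ?_ hx
            rintro _ ⟨y, _, rfl⟩
            exact hsupp y
          refine Ideal.map_mono ?_ hx2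
          exact le_iSup (fun i => J0 k a' θ' (blk (m ∘ e) i)) j
        · -- the block is a block of `c`
          have hblk : blk m j = blk c (c s0) := by
            ext s
            rw [mem_blk, mem_blk]
            constructor
            · intro hs
              exact hm.1 _ _ (hs.trans hs0.symm)
            · intro hs
              rw [← hs0]
              refine hm.2 _ _ hs ?_
              rw [hs]
              exact hci
          rw [hblk] at hx
          have : slice B l x = 0 := by
            have hx' := hx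
            unfold J0 at hx'
            refine slice_eq_zero_of_mem B l ?_ ?_ hx'
            · rintro _ ⟨X, hX, _, rfl⟩
              unfold KX QP
              refine Subalgebra.prod_mem _ fun p hp => ?_
              rw [Finset.mem_product, Finset.mem_sdiff] at hp
              have h1 : p.1 ∈ B := by
                have := mem_blk.mp (hX hp.1)
                simp only [B, Set.mem_ofPred_eq, this]
                exact hci
              have h2 : p.2 ∈ B := by
                have := mem_blk.mp hp.2.1
                simp only [B, Set.mem_ofPred_eq, this]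
                exact hci
              exact Subalgebra.pow_mem _ (Subalgebra.sub_mem _ (X_mem_supported.mpr h2)
                (X_mem_supported.mpr h1)) _
            · intro f hf _
              exact hl0 f (J0_le_JC c (c s0) hf)
          rw [this]
          exact zero_mem _
    · rw [map_zero]; exact zero_mem _
    · intro x y hx hy
      rw [map_add]
      exact add_mem hx hy
  have h2 := key _ hg
  rw [hfix] at h2
  exact mem_of_rename_mem_map k he _ h2

theorem Lev_cut (he : Function.Injective e) (ha : ∀ s t, a' s t = a (e s) (e t))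
    (hθ : ∀ s, θ' s = θ (e s)) (hs : SymZ a θ) {c m : S → ℕ} {i : ℕ}
    (hr : ∀ s, s ∈ Set.range e ↔ c s = i) (hS' : Nonempty S') (hc : Zc θ c) (hmz : Zc θ m)
    (hm : CutAt c i m) (hne : JC k a θ c ≠ ⊤) (n : ℤ) (f : MvPolynomial S' k) :
    Lev k a θ m (n - 1 + nb c - 2 * CC a c) (rename e f) ↔ Lev k a' θ' (m ∘ e) n f := by
  unfold Lev
  rw [nb_cut hr hS' hm, CC_cut he ha hθ hs hr hc hmz (Zc_cut he hθ hr hm hmz) hm]
  refine forall_congr' fun α => ?_
  rw [coeff_Tc_rename, mem_JC_cut k he ha hθ hr hm hne]
  constructor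
  · intro h h'
    exact h (by linarith)
  · intro h h'
    exact h (by linarith)

/-- Every colouring of a block extends (up to change of colours) to a colouring of `S` that only
cuts this block. -/
theorem exists_cut (he : Function.Injective e) (hθ : ∀ s, θ' s = θ (e s)) {c : S → ℕ} {i : ℕ}
    (hr : ∀ s, s ∈ Set.range e ↔ c s = i) (hc : Zc θ c) (m' : S' → ℕ) (hm' : Zc θ' m') :
    ∃ m : S → ℕ, Zc θ m ∧ CutAt c i m ∧ m ∘ e = (Nat.pair 0) ∘ m' := by
  classical
  let m : S → ℕ := fun s => if h : ∃ t, e t = s then Nat.pair 0 (m' h.choose) else Nat.pair 1 (c s)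
  have hme : ∀ t, m (e t) = Nat.pair 0 (m' t) := by
    intro t
    have h : ∃ t', e t' = e t := ⟨t, rfl⟩
    simp only [m, dif_pos h]
    rw [he h.choose_spec]
  have hmn : ∀ s, c s ≠ i → m s = Nat.pair 1 (c s) := by
    intro s hs
    have h : ¬ ∃ t, e t = s := fun h => hs ((hr s).mp h)
    simp only [m, dif_neg h]
  refine ⟨m, ?_, ⟨?_, ?_⟩, funext hme⟩
  · intro j
    rcases (blk m j).eq_empty_or_nonempty with h | ⟨s0, hs0⟩
    · rw [h]; simp [wS]
    · rw [mem_blk] at hs0
      by_cases hci : c s0 = i
      · obtain ⟨t0, rfl⟩ := (hr _).mpr hci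
        have : blk m j = (blk m' (m' t0)).image e := by
          ext s
          rw [mem_blk, Finset.mem_image]
          constructor
          · intro h
            by_cases hcs : c s = i
            · obtain ⟨t, rfl⟩ := (hr _).mpr hcs
              refine ⟨t, ?_, rfl⟩
              rw [mem_blk]
              rw [← hs0, hme, hme, Nat.pair_eq_pair] at h
              exact h.2
            · rw [← hs0, hme, hmn s hcs, Nat.pair_eq_pair] at h
              exact absurd h.1 (by norm_num)
          · rintro ⟨t, ht, rfl⟩
            rw [mem_blk] at ht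
            rw [← hs0, hme, hme, ht]
        rw [this, wS_image he hθ]
        exact hm' _
      · have : blk m j = blk c (c s0) := by
          ext s
          rw [mem_blk, mem_blk]
          constructor
          · intro h
            by_cases hcs : c s = i
            · obtain ⟨t, rfl⟩ := (hr _).mpr hcs
              rw [← hs0, hme, hmn s0 hci, Nat.pair_eq_pair] at h
              exact absurd h.1 (by norm_num)
            · rw [← hs0, hmn s hcs, hmn s0 hci, Nat.pair_eq_pair] at h
              exact h.2
          · intro h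
            rw [← hs0, hmn s (by rw [h]; exact hci), hmn s0 hci, h]
        rw [this]
        exact hc _
  · intro s t hst
    by_cases hcs : c s = i <;> by_cases hct : c t = i
    · rw [hcs, hct]
    · obtain ⟨s', rfl⟩ := (hr _).mpr hcs
      rw [hme, hmn t hct, Nat.pair_eq_pair] at hst
      exact absurd hst.1 (by norm_num)
    · obtain ⟨t', rfl⟩ := (hr _).mpr hct
      rw [hme, hmn s hcs, Nat.pair_eq_pair] at hst
      exact absurd hst.1 (by norm_num)
    · rw [hmn s hcs, hmn t hct, Nat.pair_eq_pair] at hst
      exact hst.2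
  · intro s t hst hs
    rw [hmn s hs, hmn t (by rw [← hst]; exact hs), hst]

/-- The space `V` of a block: in place (polynomials of the block variables with all levels of the
colourings cutting only this block) = the elements of level `≤ 1` on the type of the block. -/
theorem Fil_iff_cut (he : Function.Injective e) (ha : ∀ s t, a' s t = a (e s) (e t))
    (hθ : ∀ s, θ' s = θ (e s)) (hs : SymZ a θ) {c : S → ℕ} {i : ℕ}
    (hr : ∀ s, s ∈ Set.range e ↔ c s = i) (hS' : Nonempty S') (hc : Zc θ c)
    (hne : JC k a θ c ≠ ⊤) (n : ℤ) (f : MvPolynomial S' k) :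
    (∀ m : S → ℕ, Zc θ m → Ref m c → (∀ s t, c s = c t → c s ≠ i → m s = m t) →
      Lev k a θ m (n - 1 + nb c - 2 * CC a c) (rename e f)) ↔ Fil k a' θ' n f := by
  constructor
  · intro h m' hm'
    obtain ⟨m, hmz, hmc, hme⟩ := exists_cut he hθ hr hc m' hm'
    have h1 := h m hmz hmc.1 hmc.2
    rw [Lev_cut k he ha hθ hs hr hS' hc hmz hmc hne, hme] at h1
    have hinj : Function.Injective (Nat.pair 0) := by
      intro x y hxy
      exact (Nat.pair_eq_pair.mp hxy).2
    exact (Lev_recolour k (SymZ_pull he ha hθ hs) hinj m' hm' n f).mp h1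
  · intro h m hmz hmr hmc
    rw [Lev_cut k he ha hθ hs hr hS' hc hmz ⟨hmr, hmc⟩ hne]
    exact h _ (Zc_cut he hθ hr ⟨hmr, hmc⟩ hmz)

end

end Vale.Agent.P066.Lab
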