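import Vale.Agent.P066.Lab.S12
import Vale.Agent.P066.Lab.H269.S3
import Vale.Agent.P066.Lab.H749.Lead

/-!
# LB1 (iii): elements of `G_c` have smaller level at the strict refinements of `c`
-/

set_option autoImplicit false
set_option linter.unusedSectionVars false

open Finset MvPolynomial

namespace Vale.Agent.P066.Lab

noncomputable section

variable {S : Type} [Fintype S] [DecidableEq S] {k : Type} [Field k] {a : S → S → ℕ} {θ : S → ℤ}

/-- the pairs of colours `i < j` of `m` whose blocks lie in the same block of `c` -/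
def Pr (c m : S → ℕ) : Finset (ℕ × ℕ) :=
  (Pc m).filter fun x => ∃ p : S × S, c p.1 = c p.2 ∧ m p.1 = x.1 ∧ m p.2 = x.2

/-- merging two colours of `m` in the same block of `c` gives a refinement of `c` -/
theorem mrg_ref {c m : S → ℕ} (h : Ref m c) {x : ℕ × ℕ} (hx : x ∈ Pr c m) :
    Ref (mrg m x.1 x.2) c := by
  obtain ⟨⟨s0, t0⟩, h1, h2, h3⟩ := (mem_filter.mp hx).2
  intro s t hst
  simp only [mrg] at hst
  simp only at h1 h2 h3
  split_ifs at hst with h4 h5 h5
  · exact h s t (h4.trans h5.symm)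
  · exact ((h s t0 (h4.trans h3.symm)).trans h1.symm).trans (h s0 t (h2.trans hst))
  · exact (h s s0 (hst.trans h2.symm)).trans (h1.trans (h t0 t (h3.trans h5.symm)))
  · exact h s t hst

theorem sum_en_Pr {c m : S → ℕ} (h : Ref m c) :
    ((∑ x ∈ Pr c m, en a m x : ℕ) : ℤ) + ∑ p ∈ crP c m, (a p.1 p.2 : ℤ) = CC a m := by
  have h1 : ((∑ x ∈ Pr c m, en a m x : ℕ) : ℤ) =
      ∑ p ∈ univ.filter (fun p : S × S => c p.1 = c p.2 ∧ m p.1 < m p.2), (a p.1 p.2 : ℤ) := by
    rw [← sum_fiberwise_of_maps_to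
      (s := univ.filter fun p : S × S => c p.1 = c p.2 ∧ m p.1 < m p.2) (t := Pr c m)
      (g := fun p => (m p.1, m p.2)), Nat.cast_sum]
    · refine sum_congr rfl fun x hx => ?_
      rw [en, Nat.cast_sum]
      refine sum_congr ?_ fun _ _ => rfl
      obtain ⟨hx1, ⟨s0, t0⟩, h1, h2, h3⟩ := mem_filter.mp hx
      simp only at h1 h2 h3
      ext p
      simp only [mem_filter, mem_univ, true_and, Prod.ext_iff]
      have := (mem_Pc.mp hx1).2
      constructor
      · intro hp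
        refine ⟨⟨?_, by omega⟩, hp⟩
        exact (h p.1 s0 (hp.1.trans h2.symm)).trans (h1.trans (h t0 p.2 (h3.trans hp.2.symm)))
      · exact fun hp => hp.2
    · intro p hp
      rw [mem_filter] at hp
      rw [Pr, mem_filter, mem_Pc]
      exact ⟨⟨⟨⟨_, rfl⟩, ⟨_, rfl⟩⟩, hp.2.2⟩, p, hp.2.1, rfl, rfl⟩
  have h2 : univ.filter (fun p : S × S => m p.1 < m p.2) =
      univ.filter (fun p : S × S => c p.1 = c p.2 ∧ m p.1 < m p.2) ∪ crP c m := by
    ext p
    simp only [crP, mem_filter, mem_univ, true_and, mem_union]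
    tauto
  unfold CC
  rw [h1, h2, sum_union]
  rw [disjoint_left]
  intro p h3 h4
  simp only [crP, mem_filter, mem_univ, true_and] at h3 h4
  exact h4.1 h3.1

theorem sum_crP_eq (hs : SymZ a θ) {c m : S → ℕ} (hm : Zc θ m) (h : Ref m c) :
    ∑ p ∈ crP c m, (a p.1 p.2 : ℤ) = CC a c := by
  have h0 : Zc θ (meet c m) := hm.of_ref fun s t hst => meet_eq_iff.mpr ⟨h s t hst, hst⟩
  have h1 := CC_meet hs (hm.of_ref h) hm h0
  have h2 := two_CC_ne hs h0
  have h3 := two_CC_ne hs hm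
  have h4 : univ.filter (fun p : S × S => meet c m p.1 ≠ meet c m p.2) =
      univ.filter (fun p : S × S => m p.1 ≠ m p.2) := by
    ext p
    simp only [mem_filter, mem_univ, true_and, ne_eq, meet_eq_iff]
    constructor
    · exact fun hp hq => hp ⟨h _ _ hq, hq⟩
    · exact fun hp hq => hp hq.2
  rw [h4, ← h3] at h2
  linarith

/-- relative (S2) -/
theorem Sb_rel [CharZero k] (hs : SymZ a θ) {c m : S → ℕ} (hm : Zc θ m) (h : Ref m c) {n : ℤ}
    {f : MvPolynomial S k} (hf : FilR k a θ c n f) {d : ℕ}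
    (hd : 2 * (d : ℤ) + nb m = n + 2 * CC a m) :
    ∃ T' : MvPolynomial ℕ (MvPolynomial S k ⧸ JC k a θ m),
      Sb k a θ m d f = (∏ x ∈ Pr c m, (X x.2 - X x.1) ^ en a m x) * T' ∧
      (T'.IsHomogeneous (d - ∑ x ∈ Pr c m, en a m x) ∧
        (d < ∑ x ∈ Pr c m, en a m x → T' = 0)) ∧
      ∀ α, coeff α T' ∈ GQ k a θ m := by
  have hP' : ∀ x ∈ Pr c m, x ∈ Pc m := fun x hx => (mem_filter.mp hx).1
  have hP : ∀ x ∈ Pr c m, x.1 < x.2 := fun x hx => (mem_Pc.mp (hP' x hx)).2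
  obtain ⟨T', h1, h2⟩ := D2 (Pr c m) hP (en a m) (GQ k a θ m) (Sb k a θ m d f)
    (fun x hx => pow_dvd_Sb hs hm (hf _ (hm.of_ref (ref_mrg m _ _)) (mrg_ref h hx)) hd
      (hP x hx).ne (mem_Pc.mp (hP' x hx)).1.1 (mem_Pc.mp (hP' x hx)).1.2)
    (fun α => by
      rw [coeff_Sb]
      split_ifs with h
      · exact mem_GQ.mpr ⟨_, Gc_coeff_Tc ‹_› hf (by rw [h]; omega), rfl⟩
      · exact zero_mem _)
  exact ⟨T', h1, D4 (Pr c m) hP (en a m) d _ T' (Sb_isHomogeneous m d f) h1, h2⟩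

/-- (iii) -/
theorem Gc_lev_lt [CharZero k] (hs : SymZ a θ) {c : S → ℕ} {w : MvPolynomial S k}
    (hw : Gc k a θ c w) {m : S → ℕ} (hm : Zc θ m) (h : Ref m c) (hn : ¬ Ref c m) :
    Lev k a θ m (nb c - 2 * CC a c - 1) w := by
  intro α hα
  by_cases h1 : nb c - 2 * CC a c + 2 * CC a m < 2 * (α.degree : ℤ) + nb m
  · exact hw m hm h α h1
  · obtain ⟨T', h2, h3, -⟩ := Sb_rel hs hm h hw (d := α.degree) (by omega)
    have h4 := sum_en_Pr (a := a) h
    rw [sum_crP_eq hs hm h] at h4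
    have h5 : nb c < nb m := by
      by_contra h6
      exact hn (ref_of_nb_le h (not_lt.mp h6))
    rw [h3.2 (by omega), mul_zero] at h2
    have h6 := coeff_Sb (k := k) (a := a) (θ := θ) m α.degree w α
    rw [if_pos rfl, h2, coeff_zero] at h6
    exact Ideal.Quotient.eq_zero_iff_mem.mp h6.symm

end

end Vale.Agent.P066.Lab
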