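import Vale.Agent.P066.Lab.KunSub

/-!
Kuenneth for particle sets given as disjoint unions `Σ j : Fin r, P j`, coloured by `j`.
-/

set_option autoImplicit false
set_option linter.unusedSectionVars false

open Finset MvPolynomial

namespace Vale.Agent.P066.Lab

noncomputable section

variable {r : ℕ} {P : Fin r → Type} [∀ j, Fintype (P j)] [∀ j, DecidableEq (P j)]
variable {k : Type} [Field k] {a : (Σ j, P j) → (Σ j, P j) → ℕ} {θ : (Σ j, P j) → ℤ}

/-- the colouring of a disjoint union -/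
abbrev cS (P : Fin r → Type) : (Σ j, P j) → ℕ := fun s => (s.1 : ℕ)

/-- the arrows inside the piece `j` -/
abbrev aS (a : (Σ j, P j) → (Σ j, P j) → ℕ) (j : Fin r) : P j → P j → ℕ :=
  fun x y => a ⟨j, x⟩ ⟨j, y⟩

/-- the stability on the piece `j` -/
abbrev tS (θ : (Σ j, P j) → ℤ) (j : Fin r) : P j → ℤ := fun x => θ ⟨j, x⟩

theorem mk_injective (j : Fin r) : Function.Injective (Sigma.mk j : P j → Σ j, P j) :=
  sigma_mk_injective

theorem univ_image_mk (j : Fin r) :
    (univ : Finset (P j)).image (Sigma.mk j) = blk (cS P) (j : ℕ) := by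
  ext ⟨i, x⟩
  rw [mem_image, mem_blk]
  constructor
  · rintro ⟨y, _, hy⟩
    obtain ⟨h, -⟩ := Sigma.mk.inj_iff.mp hy
    rw [h]
  · intro h
    have : i = j := Fin.ext h
    subst this
    exact ⟨x, mem_univ _, rfl⟩

theorem sigma_sat {m : (Σ j, P j) → ℕ} (href : Ref m (cS P)) (j : Fin r) :
    ∀ (s : Σ j, P j) (s' : P j), m ⟨j, s'⟩ = m s → s ∈ Set.range (Sigma.mk j : P j → Σ j, P j) := by
  rintro ⟨i, x⟩ s' h
  have h1 : (j : ℕ) = i := href _ _ h
  have : j = i := Fin.ext h1
  subst this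
  exact ⟨x, rfl⟩

theorem JC_eq_iSup_fin : JC k a θ (cS P) = ⨆ j : Fin r, J0 k a θ (blk (cS P) (j : ℕ)) := by
  refine le_antisymm (iSup_le fun i => ?_) (iSup_le fun i => J0_le_JC _ _)
  by_cases hi : i < r
  · exact le_iSup (fun j : Fin r => J0 k a θ (blk (cS P) (j : ℕ))) ⟨i, hi⟩
  · have : blk (cS P) i = ∅ := by
      ext s
      simp only [mem_blk, notMem_empty, iff_false]
      intro h
      have h1 : (s.1 : ℕ) = i := h
      have := s.1.2
      omega
    rw [this, J0_emptyset]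
    exact bot_le

theorem blk_pairwise_fin :
    Pairwise (Function.onFun Disjoint fun j : Fin r => (↑(blk (cS P) (j : ℕ)) : Set (Σ j, P j))) := by
  intro i j hij
  rw [Function.onFun, Set.disjoint_left]
  intro s hs hs'
  apply hij
  rw [Finset.mem_coe, mem_blk] at hs hs'
  exact Fin.ext (hs.symm.trans hs')

theorem rename_mem_J0_mk {j : Fin r} {g : MvPolynomial (P j) k} :
    rename (Sigma.mk j) g ∈ J0 k a θ (blk (cS P) (j : ℕ)) ↔ g ∈ J0 k (aS a j) (tS θ j) univ := by
  rw [← univ_image_mk]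
  exact mem_J0_iff k (mk_injective j) (fun _ _ => rfl) (fun _ => rfl) univ g

theorem rename_mem_supported_mk {j : Fin r} (g : MvPolynomial (P j) k) :
    rename (Sigma.mk j) g ∈ supported k (↑(blk (cS P) (j : ℕ)) : Set (Σ j, P j)) := by
  have h : (↑(blk (cS P) (j : ℕ)) : Set (Σ j, P j)) = Set.range (Sigma.mk j : P j → Σ j, P j) := by
    rw [← univ_image_mk, coe_image, coe_univ, Set.image_univ]
  rw [h, mem_supported]
  intro s hs
  obtain ⟨t, _, rfl⟩ := mem_vars_rename _ _ (Finset.mem_coe.mp hs)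
  exact ⟨t, rfl⟩

/-- (K1, disjoint unions, independence) -/
theorem linearIndependent_prod_sigma {κ : Fin r → Type*}
    (v : ∀ j, κ j → MvPolynomial (P j) k)
    (h : ∀ j, LinearIndependent k
      (fun x => Ideal.Quotient.mk (J0 k (aS a j) (tS θ j) univ) (v j x))) :
    LinearIndependent k (fun f : (∀ j, κ j) =>
      Ideal.Quotient.mk (JC k a θ (cS P)) (∏ j, rename (Sigma.mk j) (v j (f j)))) := by
  classical
  have key := linearIndependent_prod (ι := Fin r) (k := k)
    (G := fun j : Fin r => gensB k a θ (blk (cS P) (j : ℕ)))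
    (B := fun j : Fin r => (↑(blk (cS P) (j : ℕ)) : Set (Σ j, P j))) blk_pairwise_fin
    (fun j => gensB_supported _)
    (fun j x => rename (Sigma.mk j) (v j x)) (fun j x => rename_mem_supported_mk _) ?_
  · have hJ : (⨆ j : Fin r, Ideal.span (gensB k a θ (blk (cS P) (j : ℕ)))) =
        JC k a θ (cS P) := JC_eq_iSup_fin.symm
    rw [hJ] at key
    exact key
  · intro j
    rw [linearIndependent_iff']
    intro s g hsum x hx
    refine (linearIndependent_iff'.mp (h j)) s g ?_ x hx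
    have h1 : rename (Sigma.mk j) (∑ x ∈ s, g x • v j x) ∈
        J0 k a θ (blk (cS P) (j : ℕ)) := by
      rw [J0_eq_span, ← Ideal.Quotient.eq_zero_iff_mem, map_sum, map_sum, ← hsum]
      refine Finset.sum_congr rfl fun y _ => ?_
      rw [map_smul]
      exact map_smul (Ideal.Quotient.mkₐ k (Ideal.span (gensB k a θ (blk (cS P) (j : ℕ))))) (g y)
        (rename (Sigma.mk j) (v j y))
    have h2 := rename_mem_J0_mk.mp h1
    rw [← Ideal.Quotient.eq_zero_iff_mem, map_sum] at h2
    rw [← h2]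
    refine Finset.sum_congr rfl fun y _ => ?_
    exact (map_smul (Ideal.Quotient.mkₐ k (J0 k (aS a j) (tS θ j) univ)) (g y)
      (v j y)).symm

theorem colMem (hP : ∀ j, Nonempty (P j)) (j : Fin r) : (j : ℕ) ∈ univ.image (cS P) := by
  obtain ⟨x⟩ := hP j
  exact mem_image.mpr ⟨⟨j, x⟩, mem_univ _, rfl⟩

/-- the colours of a disjoint union of nonempty pieces -/
def colEquiv (P : Fin r → Type) [∀ j, Fintype (P j)] [∀ j, DecidableEq (P j)]
    (hP : ∀ j, Nonempty (P j)) : Fin r ≃ Col (cS P) :=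
  Equiv.ofBijective (fun j => ⟨(j : ℕ), colMem hP j⟩) (by
    constructor
    · intro i j h
      exact Fin.ext (congrArg Subtype.val h)
    · rintro ⟨i, hi⟩
      obtain ⟨s, _, hs⟩ := mem_image.mp hi
      exact ⟨s.1, Subtype.ext hs⟩)

/-- the piece `j` as a block -/
def pieceEquiv (P : Fin r → Type) [∀ j, Fintype (P j)] [∀ j, DecidableEq (P j)] (j : Fin r) :
    P j ≃ BT (cS P) (j : ℕ) :=
  Equiv.ofBijective (fun x => ⟨⟨j, x⟩, rfl⟩) (by
    constructor
    · intro x y h
      exact mk_injective j (congrArg Subtype.val h)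
    · rintro ⟨⟨i, x⟩, hi⟩
      have : i = j := Fin.ext hi
      subst this
      exact ⟨x, rfl⟩)

theorem CC_sigma (hsym : SymZ a θ) (hP : ∀ j, Nonempty (P j)) (hc : Zc θ (cS P))
    {m : (Σ j, P j) → ℕ} (hm : Zc θ m) (h : Ref m (cS P)) :
    CC a m = CC a (cS P) + ∑ j, CC (aS a j) (fun x => m ⟨j, x⟩) := by
  rw [CC_add_sum hsym hc hm h]
  congr 1
  refine (Fintype.sum_equiv (colEquiv P hP) _ _ fun j => ?_).symm
  exact CC_equiv (pieceEquiv P j) (a' := aS a j) (a := aB a (cS P) j) (fun _ _ => rfl)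
    (fun s => m s)

theorem nb_sigma (hP : ∀ j, Nonempty (P j)) {m : (Σ j, P j) → ℕ} (h : Ref m (cS P)) :
    nb m = ∑ j, nb (fun x : P j => m ⟨j, x⟩) := by
  rw [nb_eq_sum h]
  refine (Fintype.sum_equiv (colEquiv P hP) _ _ fun j => ?_).symm
  exact nb_equiv (pieceEquiv P j) (fun s : BT (cS P) j => m s)

theorem nb_cS (hP : ∀ j, Nonempty (P j)) : nb (cS P) = r := by
  rw [← card_Col, card_univ, ← Fintype.card_congr (colEquiv P hP), Fintype.card_fin]

theorem Zc_piece {m : (Σ j, P j) → ℕ} (hm : Zc θ m) (h : Ref m (cS P)) (j : Fin r) :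
    Zc (tS θ j) (fun x => m ⟨j, x⟩) :=
  (Zc_equiv (pieceEquiv P j) (θ := tB θ (cS P) j) (θ' := tS θ j) (fun _ => rfl)
    (fun s => m s)).mpr (Zc_sub hm h j)

/-- (K2, disjoint unions) Products of elements of the `V` of the pieces lie in `Gc`. -/
theorem Gc_sigma (hsym : SymZ a θ) (hP : ∀ j, Nonempty (P j)) (hc : Zc θ (cS P))
    {v : ∀ j, MvPolynomial (P j) k} (hv : ∀ j, Fil k (aS a j) (tS θ j) 1 (v j)) :
    Gc k a θ (cS P) (∏ j, rename (Sigma.mk j) (v j)) := by
  intro m hm href α hα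
  rw [map_prod]
  refine coeff_prod_mem (JC k a θ m) univ _
    (fun j => 1 + 2 * CC (aS a j) (fun x => m ⟨j, x⟩) - nb (fun x : P j => m ⟨j, x⟩)) ?_ ?_
  · intro j _ β hβ
    rw [coeff_Tc_rename]
    refine map_JC_le (k := k) (a' := aS a j) (θ' := tS θ j) (mk_injective j)
      (fun _ _ => rfl) (fun _ => rfl) m (sigma_sat href j) ?_
    refine Ideal.mem_map_of_mem _ (hv j _ (Zc_piece hm href j) β ?_)
    linarith
  · rw [sum_sub_distrib, sum_add_distrib, ← mul_sum, sum_const, nsmul_eq_mul, mul_one,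
      card_univ, Fintype.card_fin]
    have h1 := CC_sigma hsym hP hc hm href
    have h2 := nb_sigma hP href
    have h3 := nb_cS (P := P) hP
    linarith

/-- (K2, disjoint unions) An element of `Gc` is, modulo `JC`, a combination of products of elements
of the `V` of the pieces. -/
theorem exists_span_sigma (hsym : SymZ a θ) (hP : ∀ j, Nonempty (P j)) (hc : Zc θ (cS P))
    {f : MvPolynomial (Σ j, P j) k} (hf : Gc k a θ (cS P) f) :
    ∃ g ∈ Submodule.span k {h | ∃ v : ∀ j, MvPolynomial (P j) k,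
        (∀ j, Fil k (aS a j) (tS θ j) 1 (v j)) ∧
        h = ∏ j, rename (Sigma.mk j) (v j)}, f - g ∈ JC k a θ (cS P) := by
  obtain ⟨g, hg, hg'⟩ := exists_span_VB hsym hc hf
  refine ⟨g, ?_, hg'⟩
  refine Submodule.span_mono ?_ hg
  rintro h ⟨v, hv, rfl⟩
  refine ⟨fun j => rename (pieceEquiv P j).symm (v ⟨(j : ℕ), colMem hP j⟩), fun j => ?_, ?_⟩
  · have := (Fil_equiv k (pieceEquiv P j).symm (a := aS a j) (a' := aB a (cS P) j)
      (θ := tS θ j) (θ' := tB θ (cS P) j) ?_ ?_ 1 (v ⟨(j : ℕ), colMem hP j⟩)).mpr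
      (hv ⟨(j : ℕ), colMem hP j⟩)
    · exact this
    · intro s t
      obtain ⟨x, rfl⟩ := (pieceEquiv P j).surjective s
      obtain ⟨y, rfl⟩ := (pieceEquiv P j).surjective t
      rw [Equiv.symm_apply_apply, Equiv.symm_apply_apply]
      rfl
    · intro s
      obtain ⟨x, rfl⟩ := (pieceEquiv P j).surjective s
      rw [Equiv.symm_apply_apply]
      rfl
  · refine (Fintype.prod_equiv (colEquiv P hP)
      (fun j => rename (Sigma.mk j)
        (rename (pieceEquiv P j).symm (v ⟨(j : ℕ), colMem hP j⟩)))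
      (fun i => rename Subtype.val (v i)) fun j => ?_).symm
    change rename (Sigma.mk j) (rename (pieceEquiv P j).symm (v ⟨(j : ℕ), colMem hP j⟩)) =
      rename Subtype.val (v ⟨(j : ℕ), colMem hP j⟩)
    rw [rename_rename]
    congr 1
    congr 1
    funext s
    obtain ⟨x, rfl⟩ := (pieceEquiv P j).surjective s
    simp only [Function.comp_apply, Equiv.symm_apply_apply]
    rfl

end

end Vale.Agent.P066.Lab
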