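import Vale.Agent.P066.Lab.QT1
import Vale.Agent.P066.Theta.H747.QuiverStatement

/-!
# The ordered product in the form of the quiver statement
-/

set_option autoImplicit false

open Finset

namespace Vale.Agent.P066.Lab

open Vale.Agent.P066.Theta

noncomputable section

variable {n : ℕ}

theorem quivB_eq (a : Fin n → Fin n → ℕ) : quivB a = Bq a := rfl

theorem unitQ_single (a : Fin n → Fin n → ℕ) (i : Fin n) :
    unitQ (Bq a) (decide (a i i = 1)) 0 (Finsupp.single i 1) = vtx a i := by
  ext γ
  unfold unitQ vtx
  have h0 : ∀ k : ℕ, k • Finsupp.single i 1 = (Finsupp.single i k : Fin n →₀ ℕ) := by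
    intro k
    ext j
    simp [Finsupp.single_apply]
  by_cases h : γ = Finsupp.single i (γ i)
  · rw [if_pos h, Finset.sum_eq_single (γ i)]
    · rw [h0, if_pos h.symm]
      simp
    · intro k _ hk
      rw [h0, if_neg]
      intro h1
      apply hk
      rw [← h1]
      simp
    · intro h1
      exfalso
      apply h1
      rw [mem_range, Nat.lt_succ_iff]
      unfold deg
      exact Finset.single_le_sum (f := fun i => γ i) (fun _ _ => Nat.zero_le _) (mem_univ i)
  · rw [if_neg h]
    refine Finset.sum_eq_zero fun k _ => ?_
    rw [h0, if_neg]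
    intro h1
    apply h
    rw [← h1]
    simp

theorem quivProd_eq (a : Fin n → Fin n → ℕ) (e : Fin n → Bool)
    (he : ∀ i, a i i = if e i then 1 else 0) : quivProd a e = Aq a := by
  have h : (fun i : Fin n => unitQ (Bq a) (e i) 0 (Finsupp.single i 1)) = fun i => vtx a i := by
    funext i
    rw [← unitQ_single a i]
    congr 1
    rw [he i]
    cases e i <;> simp
  show (List.ofFn fun i : Fin n => unitQ (Bq a) (e i) 0 (Finsupp.single i 1)).prod = _
  rw [h]
  rfl

end

end Vale.Agent.P066.Lab
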