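import Vale.Agent.P066.Lab.LB1

/-!
# LB1: homogeneous components, ends of the filtration

`hc_mem_JC`, `hc_mem_J0`, `Lev_hc`, `Fil_hc`, `Gc_hc`: homogeneous components;
`exists_level`: every polynomial has a level; `mem_J0_of_Fil`: the elements of negative level.
-/

set_option autoImplicit false
set_option linter.unusedSectionVars false

open Finset MvPolynomial

namespace Vale.Agent.P066.Lab

noncomputable section

/-! ### Bihomogeneous polynomials -/

section BH

variable {A σ τ : Type} [CommRing A]

/-- total degree (in both sets of variables) is `d` -/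
def BH (Q : MvPolynomial σ (MvPolynomial τ A)) (d : ℕ) : Prop :=
  ∀ α β, coeff β (coeff α Q) ≠ 0 → α.degree + β.degree = d

theorem BH.mul {Q Q' : MvPolynomial σ (MvPolynomial τ A)} {d d' : ℕ} (h : BH Q d)
    (h' : BH Q' d') : BH (Q * Q') (d + d') := by
  classical
  intro α β hne
  rw [coeff_mul, coeff_sum] at hne
  obtain ⟨⟨α₁, α₂⟩, h1, h2⟩ := Finset.exists_ne_zero_of_sum_ne_zero hne
  rw [coeff_mul] at h2
  obtain ⟨⟨β₁, β₂⟩, h3, h4⟩ := Finset.exists_ne_zero_of_sum_ne_zero h2
  rw [HasAntidiagonal.mem_antidiagonal] at h1 h3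
  have h5 := h α₁ β₁ (left_ne_zero_of_mul h4)
  have h6 := h' α₂ β₂ (right_ne_zero_of_mul h4)
  have e1 : α.degree = α₁.degree + α₂.degree := by rw [← h1, map_add]
  have e2 : β.degree = β₁.degree + β₂.degree := by rw [← h3, map_add]
  omega

theorem BH.one : BH (1 : MvPolynomial σ (MvPolynomial τ A)) 0 := by
  classical
  intro α β hne
  rw [coeff_one] at hne
  split_ifs at hne with h
  · rw [coeff_one] at hne
    split_ifs at hne with h'
    · rw [← h, ← h', map_zero, map_zero, add_zero]
    · exact absurd rfl hne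
  · exact absurd (coeff_zero _) hne

theorem BH.pow {Q : MvPolynomial σ (MvPolynomial τ A)} {d : ℕ} (h : BH Q d) (n : ℕ) :
    BH (Q ^ n) (n * d) := by
  induction n with
  | zero => simpa using BH.one
  | succ n ih => rw [pow_succ, Nat.succ_mul]; exact ih.mul h

theorem BH.add {Q Q' : MvPolynomial σ (MvPolynomial τ A)} {d : ℕ} (h : BH Q d) (h' : BH Q' d) :
    BH (Q + Q') d := by
  intro α β hne
  by_cases h1 : coeff β (coeff α Q) = 0
  · apply h' α β
    intro h2
    apply hne
    rw [coeff_add, coeff_add, h1, h2, add_zero]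
  · exact h α β h1

theorem BH.CX (i : τ) : BH (C (X i) : MvPolynomial σ (MvPolynomial τ A)) 1 := by
  classical
  intro α β hne
  rw [coeff_C] at hne
  split_ifs at hne with h
  · rw [coeff_X] at hne
    split_ifs at hne with h'
    · rw [← h, ← h', map_zero, Finsupp.degree_single, zero_add]
    · exact absurd rfl hne
  · exact absurd (coeff_zero _) hne

theorem BH.X (i : σ) : BH (X i : MvPolynomial σ (MvPolynomial τ A)) 1 := by
  classical
  intro α β hne
  rw [coeff_X] at hne
  split_ifs at hne with h
  · rw [coeff_one] at hne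
    split_ifs at hne with h'
    · rw [← h, ← h', map_zero, Finsupp.degree_single, add_zero]
    · exact absurd rfl hne
  · exact absurd (coeff_zero _) hne

theorem BH.prod {ι : Type} (s : Finset ι) (Q : ι → MvPolynomial σ (MvPolynomial τ A)) (d : ι → ℕ)
    (h : ∀ i ∈ s, BH (Q i) (d i)) : BH (∏ i ∈ s, Q i) (∑ i ∈ s, d i) := by
  classical
  induction s using Finset.induction_on with
  | empty => simpa using BH.one
  | insert a s ha ih =>
    rw [Finset.prod_insert ha, Finset.sum_insert ha]
    exact (h a (Finset.mem_insert_self a s)).mul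
      (ih fun i hi => h i (Finset.mem_insert_of_mem hi))

end BH

variable {S : Type} [Fintype S] [DecidableEq S] {k : Type} [Field k] {a : S → S → ℕ} {θ : S → ℤ}

theorem BH_Tc_monomial (c : S → ℕ) (γ : S →₀ ℕ) : BH (Tc k c (monomial γ 1)) γ.degree := by
  have h1 : Tc k c (monomial γ 1) = ∏ s ∈ γ.support, (C (X s) + X (c s)) ^ γ s := by
    rw [Tc, aeval_monomial, map_one, one_mul]
    rfl
  rw [h1, Finsupp.degree_apply]
  refine BH.prod _ _ _ fun s _ => ?_
  have h2 := ((BH.CX (A := k) (σ := ℕ) s).add (BH.X (c s))).pow (γ s)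
  rwa [mul_one] at h2

/-- the coefficient `(α, β)` of `T_c` of a homogeneous component -/
theorem coeff_coeff_Tc_hcomp (c : S → ℕ) (j : ℕ) (f : MvPolynomial S k) (α : ℕ →₀ ℕ)
    (β : S →₀ ℕ) :
    coeff β (coeff α (Tc k c (homogeneousComponent j f))) =
      if α.degree + β.degree = j then coeff β (coeff α (Tc k c f)) else 0 := by
  classical
  induction f using MvPolynomial.induction_on' with
  | monomial γ r =>
    have h0 : (monomial γ r : MvPolynomial S k) = r • monomial γ 1 := by
      rw [smul_monomial, smul_eq_mul, mul_one]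
    have h1 : homogeneousComponent j (monomial γ r : MvPolynomial S k) =
        if j = γ.degree then monomial γ r else 0 :=
      homogeneousComponent_of_mem ((mem_homogeneousSubmodule _ _).mpr
        (isHomogeneous_monomial r rfl))
    rw [h1]
    by_cases h2 : j = γ.degree
    · rw [if_pos h2]
      by_cases h3 : α.degree + β.degree = j
      · rw [if_pos h3]
      · rw [if_neg h3, h0, map_smul, coeff_smul, coeff_smul]
        have h4 : coeff β (coeff α (Tc k c (monomial γ 1))) = 0 := by
          by_contra hne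
          exact h3 ((BH_Tc_monomial c γ α β hne).trans h2.symm)
        rw [h4, smul_zero]
    · rw [if_neg h2, map_zero, coeff_zero, coeff_zero]
      by_cases h3 : α.degree + β.degree = j
      · rw [if_pos h3, h0, map_smul, coeff_smul, coeff_smul]
        have h4 : coeff β (coeff α (Tc k c (monomial γ 1))) = 0 := by
          by_contra hne
          exact h2 (h3.symm.trans (BH_Tc_monomial c γ α β hne))
        rw [h4, smul_zero]
      · rw [if_neg h3]
  | add p q hp hq =>
    simp only [map_add, coeff_add, hp, hq]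
    split_ifs <;> simp

theorem coeff_Tc_hcomp (c : S → ℕ) (j : ℕ) (f : MvPolynomial S k) (α : ℕ →₀ ℕ) :
    coeff α (Tc k c (homogeneousComponent j f)) =
      if α.degree ≤ j then homogeneousComponent (j - α.degree) (coeff α (Tc k c f)) else 0 := by
  ext β
  rw [coeff_coeff_Tc_hcomp]
  by_cases h : α.degree ≤ j
  · rw [if_pos h, coeff_homogeneousComponent]
    by_cases h2 : β.degree = j - α.degree
    · rw [if_pos h2, if_pos (by omega)]
    · rw [if_neg h2, if_neg (by omega)]
  · rw [if_neg h, if_neg (by omega), coeff_zero]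

/-! ### The ideals are homogeneous -/

theorem hc_QP_mul (E : Finset (S × S)) (g : MvPolynomial S k) (j : ℕ) :
    ∃ h : MvPolynomial S k, homogeneousComponent j (g * QP k a E) = h * QP k a E := by
  have hQ : (QP k a E).IsHomogeneous (∑ p ∈ E, a p.1 p.2) := by
    unfold QP
    refine IsHomogeneous.prod _ _ _ fun p _ => ?_
    have h := ((isHomogeneous_X k p.2).sub (isHomogeneous_X k p.1)).pow (a p.1 p.2)
    rwa [one_mul] at h
  set m := ∑ p ∈ E, a p.1 p.2
  have h1 : ∀ i, homogeneousComponent j (homogeneousComponent i g * QP k a E) =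
      if j = i + m then homogeneousComponent i g * QP k a E else 0 := fun i =>
    homogeneousComponent_of_mem ((mem_homogeneousSubmodule _ _).mpr
      ((homogeneousComponent_isHomogeneous i g).mul hQ))
  refine ⟨∑ i ∈ range (g.totalDegree + 1), if j = i + m then homogeneousComponent i g else 0, ?_⟩
  conv_lhs => rw [← sum_homogeneousComponent g, sum_mul, map_sum]
  rw [sum_mul]
  refine sum_congr rfl fun i _ => ?_
  rw [h1]
  split_ifs
  · rfl
  · rw [zero_mul]

/-- the largest homogeneous ideal in `I` -/
def HI (I : Ideal (MvPolynomial S k)) : Ideal (MvPolynomial S k) where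
  carrier := {f | ∀ g j, homogeneousComponent j (g * f) ∈ I}
  add_mem' := by
    intro f f' hf hf' g j
    rw [mul_add, map_add]
    exact add_mem (hf g j) (hf' g j)
  zero_mem' := by
    intro g j
    rw [mul_zero, map_zero]
    exact zero_mem _
  smul_mem' := by
    intro r f hf g j
    rw [smul_eq_mul, ← mul_assoc]
    exact hf (g * r) j

theorem hc_mem_JC {c : S → ℕ} {f : MvPolynomial S k} (hf : f ∈ JC k a θ c) (j : ℕ) :
    homogeneousComponent j f ∈ JC k a θ c := by
  have key : JC k a θ c ≤ HI (JC k a θ c) := by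
    rw [JC_le_iff]
    intro i X hX h0 g j
    obtain ⟨h, hh⟩ := hc_QP_mul (k := k) (a := a) (X ×ˢ (blk c i \ X)) g j
    rw [hh]
    exact Ideal.mul_mem_left _ _ (QP_mem_JC hX h0 (Subset.refl _))
  have := key hf 1 j
  rwa [one_mul] at this

theorem hc_mem_J0 {B : Finset S} {f : MvPolynomial S k} (hf : f ∈ J0 k a θ B) (j : ℕ) :
    homogeneousComponent j f ∈ J0 k a θ B := by
  have key : J0 k a θ B ≤ HI (J0 k a θ B) := by
    rw [J0, Ideal.span_le]
    rintro _ ⟨X, hX, h0, rfl⟩ g j
    obtain ⟨h, hh⟩ := hc_QP_mul (k := k) (a := a) (X ×ˢ (B \ X)) g j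
    rw [KX, hh]
    exact Ideal.mul_mem_left _ _ (Ideal.subset_span ⟨X, hX, h0, rfl⟩)
  have := key hf 1 j
  rwa [one_mul] at this

theorem Lev_hc {c : S → ℕ} {n : ℤ} {f : MvPolynomial S k} (hf : Lev k a θ c n f) (j : ℕ) :
    Lev k a θ c n (homogeneousComponent j f) := by
  intro α hα
  rw [coeff_Tc_hcomp]
  split_ifs
  · exact hc_mem_JC (hf α hα) _
  · exact zero_mem _

theorem Fil_hc {n : ℤ} {f : MvPolynomial S k} (hf : Fil k a θ n f) (j : ℕ) :
    Fil k a θ n (homogeneousComponent j f) := fun m hm => Lev_hc (hf m hm) j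

theorem Gc_hc {c : S → ℕ} {f : MvPolynomial S k} (hf : Gc k a θ c f) (j : ℕ) :
    Gc k a θ c (homogeneousComponent j f) := fun m hm hr => Lev_hc (hf m hm hr) j

/-! ### The ends of the filtration -/

theorem coeff_Tc_eq_zero_of_totalDegree (c : S → ℕ) (f : MvPolynomial S k) {α : ℕ →₀ ℕ}
    (h : f.totalDegree < α.degree) : coeff α (Tc k c f) = 0 := by
  conv_lhs => rw [← sum_homogeneousComponent f, map_sum, coeff_sum]
  refine sum_eq_zero fun i hi => ?_
  rw [coeff_Tc_hcomp, if_neg]
  rw [mem_range] at hi
  omega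

/-- every polynomial has a level -/
theorem Fil_totalDegree (f : MvPolynomial S k) :
    Fil k a θ (2 * (f.totalDegree : ℤ) + Fintype.card S) f := by
  intro m _ α hα
  have h1 : nb m ≤ Fintype.card S := by
    unfold nb
    exact_mod_cast card_image_le.trans_eq card_univ
  have h2 : 0 ≤ CC a m := sum_nonneg fun _ _ => Nat.cast_nonneg _
  rw [coeff_Tc_eq_zero_of_totalDegree m f (by omega)]
  exact zero_mem _

theorem exists_level (f : MvPolynomial S k) : ∃ n : ℕ, Fil k a θ n f :=
  ⟨2 * f.totalDegree + Fintype.card S, by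
    push_cast
    exact Fil_totalDegree f⟩

theorem JC_zero_eq : JC k a θ (fun _ => 0) = J0 k a θ univ := by
  have h0 : blk (fun _ : S => 0) 0 = univ := by ext s; simp
  apply le_antisymm
  · rw [JC_le_iff]
    intro i X hX h0'
    have hi : i = 0 := by
      obtain ⟨s, hs⟩ := wS_nonempty h0'
      exact (mem_blk.mp (hX hs)).symm
    subst hi
    rw [h0] at hX ⊢
    exact QP_mem_J0 hX h0' (Subset.refl _)
  · rw [← h0]
    exact J0_le_JC _ _

/-- elements of negative level (level `≤ 0` if `S` is nonempty) are in `J_S` -/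
theorem mem_J0_of_Fil {n : ℤ} {f : MvPolynomial S k} (hf : Fil k a θ n f)
    (hw : wS θ (univ : Finset S) = 0) (hn : n < 0 ∨ (n ≤ 0 ∧ Nonempty S)) :
    f ∈ J0 k a θ univ := by
  have h0 : Zc θ (fun _ : S => 0) := by
    intro i
    by_cases hi : i = 0
    · subst hi
      have : blk (fun _ : S => 0) 0 = univ := by ext s; simp
      rw [this, hw]
    · have : blk (fun _ : S => 0) i = ∅ := by
        ext s
        simp only [mem_blk, notMem_empty, iff_false]
        exact fun h => hi h.symm
      rw [this]
      rfl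
  have h1 : CC a (fun _ : S => 0) = 0 := by
    unfold CC
    simp
  have h2 : (0 : ℤ) ≤ nb (fun _ : S => 0) := Nat.cast_nonneg _
  have h3 := hf _ h0 0 (by
    rw [h1, map_zero]
    rcases hn with hn | ⟨hn, ⟨s⟩⟩
    · push_cast
      omega
    · have h4 : (0 : ℤ) < nb (fun _ : S => 0) := by
        unfold nb
        exact_mod_cast card_pos.mpr ⟨0, mem_image.mpr ⟨s, mem_univ s, rfl⟩⟩
      push_cast
      omega)
  rwa [coeff_zero_Tc, JC_zero_eq] at h3

end

end Vale.Agent.P066.Lab
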