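import Vale.Agent.P066.Lab.Defs

/-!
# Labelled Harder-Narasimhan theorem, three-step form, in the ring `k[x_s : s ∈ S]`

`KQ k a X Y = ∏_{s ∈ X, t ∈ Y} (x_t - x_s)^{a s t}`.  For a stability `θ` on the particles
and a pair `E₁ ⊆ E₂` of subsets (`T = E₁`, `Z = E₂ \ E₁`, `F = E₂ᶜ`, `θ Z = 0`) put
`KK = K(T,Z) K(T,F) K(Z,F)` and `II = J⁺_T + J⁰_Z + J⁻_F`.  The ideals `Fl c` generated by the
`KK e` with `ee e ≥ c` form a filtration of the polynomial ring whose graded pieces are the direct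
sums of the `A / II e` (multiplication by `KK e`).
-/

set_option autoImplicit false
set_option linter.unusedSectionVars false

open Finset

namespace Vale.Agent.P066.Lab.HN

noncomputable section

variable {S : Type} [Fintype S] [DecidableEq S]

variable (k : Type) [Field k] (a : S → S → ℕ) (θ : S → ℤ)

/-- The kernel `∏_{s ∈ X, t ∈ Y} (x_t - x_s)^{a s t}`. -/
def KQ (X Y : Finset S) : MvPolynomial S k := QP k a (X ×ˢ Y)

theorem KX_eq_KQ (B X : Finset S) : KX k a B X = KQ k a X (B \ X) := rfl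

theorem KQ_empty_left (Y : Finset S) : KQ k a ∅ Y = 1 := by simp [KQ, QP]

theorem KQ_empty_right (X : Finset S) : KQ k a X ∅ = 1 := by simp [KQ, QP]

theorem KQ_union_left {X X' : Finset S} (h : Disjoint X X') (Y : Finset S) :
    KQ k a (X ∪ X') Y = KQ k a X Y * KQ k a X' Y := by
  unfold KQ QP
  rw [union_product, prod_union]
  rw [disjoint_left] at h ⊢
  rintro ⟨x, y⟩ h1 h2
  rw [mem_product] at h1 h2
  exact h h1.1 h2.1

theorem KQ_union_right (X : Finset S) {Y Y' : Finset S} (h : Disjoint Y Y') :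
    KQ k a X (Y ∪ Y') = KQ k a X Y * KQ k a X Y' := by
  unfold KQ QP
  rw [product_union, prod_union]
  rw [disjoint_left] at h ⊢
  rintro ⟨x, y⟩ h1 h2
  rw [mem_product] at h1 h2
  exact h h1.2 h2.2

theorem KQ_dvd {X X' Y Y' : Finset S} (hX : X' ⊆ X) (hY : Y' ⊆ Y) :
    KQ k a X' Y' ∣ KQ k a X Y := by
  unfold KQ QP
  exact prod_dvd_prod_of_subset _ _ _ (product_subset_product hX hY)

theorem wS_union {X Y : Finset S} (h : Disjoint X Y) : wS θ (X ∪ Y) = wS θ X + wS θ Y := by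
  unfold wS; exact sum_union h

theorem wS_sdiff {X Y : Finset S} (h : X ⊆ Y) : wS θ (Y \ X) + wS θ X = wS θ Y := by
  unfold wS; exact sum_sdiff h

/-- the index set: pairs `E₁ ⊆ E₂` with `θ (E₂ \ E₁) = 0` -/
def Idx (θ : S → ℤ) : Finset (Finset S × Finset S) :=
  univ.filter fun e => e.1 ⊆ e.2 ∧ wS θ (e.2 \ e.1) = 0

/-- the kernel of the triple `(E₁, E₂ \ E₁, E₂ᶜ)` -/
def KK (k : Type) [Field k] (a : S → S → ℕ) (e : Finset S × Finset S) : MvPolynomial S k :=
  KQ k a e.1 e.1ᶜ * KQ k a (e.2 \ e.1) e.2ᶜ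

/-- the ideal of the triple -/
def II (k : Type) [Field k] (a : S → S → ℕ) (θ : S → ℤ) (e : Finset S × Finset S) : Ideal (MvPolynomial S k) :=
  Jp k a θ e.1 ⊔ J0 k a θ (e.2 \ e.1) ⊔ Jm k a θ e.2ᶜ

/-- the height of the triple -/
def ee (θ : S → ℤ) (e : Finset S × Finset S) : ℤ :=
  (Fintype.card S + 1) * wS θ e.1 - e.1.card + e.2.card

/-- the filtration -/
def Fl (k : Type) [Field k] (a : S → S → ℕ) (θ : S → ℤ) (c : ℤ) : Ideal (MvPolynomial S k) :=
  Ideal.span {f | ∃ e ∈ Idx θ, c ≤ ee θ e ∧ f = KK k a e}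

theorem mem_Idx {e : Finset S × Finset S} :
    e ∈ Idx θ ↔ e.1 ⊆ e.2 ∧ wS θ (e.2 \ e.1) = 0 := by
  simp [Idx]

theorem KK_eq {e : Finset S × Finset S} (h : e.1 ⊆ e.2) :
    KK k a e = KQ k a e.2 e.2ᶜ * KQ k a e.1 (e.2 \ e.1) := by
  have h1 : e.1ᶜ = e.2ᶜ ∪ (e.2 \ e.1) := by
    ext s; simp only [mem_compl, mem_union, mem_sdiff]
    have := @h s
    tauto
  have h2 : Disjoint e.2ᶜ (e.2 \ e.1) := by
    rw [disjoint_left]; intro s; simp only [mem_compl, mem_sdiff]; tauto
  have h3 : e.2 = e.1 ∪ (e.2 \ e.1) := by rw [union_sdiff_of_subset h]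
  have h4 : Disjoint e.1 (e.2 \ e.1) := disjoint_sdiff
  have h5 : KQ k a e.2 e.2ᶜ = KQ k a e.1 e.2ᶜ * KQ k a (e.2 \ e.1) e.2ᶜ := by
    conv_lhs => rw [h3]
    rw [KQ_union_left k a h4]
    rw [← h3]
  unfold KK
  rw [h1, KQ_union_right k a _ h2, h5]
  ring

theorem dvd_KK_left (e : Finset S × Finset S) : KQ k a e.1 e.1ᶜ ∣ KK k a e := ⟨_, rfl⟩

theorem dvd_KK_right {e : Finset S × Finset S} (h : e.1 ⊆ e.2) : KQ k a e.2 e.2ᶜ ∣ KK k a e := by
  rw [KK_eq k a h]; exact ⟨_, rfl⟩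

theorem mem_Fl_of_dvd {c : ℤ} {e : Finset S × Finset S} {f : MvPolynomial S k}
    (he : e ∈ Idx θ) (hc : c ≤ ee θ e) (h : KK k a e ∣ f) : f ∈ Fl k a θ c := by
  obtain ⟨g, rfl⟩ := h
  exact Ideal.mul_mem_right _ _ (Ideal.subset_span ⟨e, he, hc, rfl⟩)

theorem Fl_mono {c c' : ℤ} (h : c ≤ c') : Fl k a θ c' ≤ Fl k a θ c := by
  apply Ideal.span_mono
  rintro f ⟨e, he, hc, rfl⟩
  exact ⟨e, he, h.trans hc, rfl⟩

theorem card_le (X : Finset S) : (X.card : ℤ) ≤ Fintype.card S := by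
  exact_mod_cast card_le_univ X

theorem wt_eq_of_mem {e : Finset S × Finset S} (he : e ∈ Idx θ) :
    wS θ e.2 = wS θ e.1 := by
  rw [mem_Idx] at he
  have := wS_sdiff θ he.1
  omega

/-- height of a pair `(A, A)` with larger weight is larger -/
theorem ee_diag_gt {e : Finset S × Finset S} {A : Finset S}
    (h : wS θ e.1 < wS θ A) : ee θ e + 1 ≤ ee θ (A, A) := by
  unfold ee
  have h2 := card_le e.2
  have h3 : (0 : ℤ) ≤ e.1.card := by positivity
  have h4 : (Fintype.card S + 1 : ℤ) * (wS θ e.1 + 1) ≤ (Fintype.card S + 1) * wS θ A := by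
    apply mul_le_mul_of_nonneg_left _ (by positivity)
    omega
  simp only
  nlinarith

theorem diag_mem_Idx (A : Finset S) : (A, A) ∈ Idx θ := by
  rw [mem_Idx]; simp [wS]

theorem KK_diag (A : Finset S) : KK k a (A, A) = KQ k a A Aᶜ := by
  simp [KK, KQ_empty_left]

theorem compl_eq_of_subset {A B : Finset S} (h : A ⊆ B) : Aᶜ = (B \ A) ∪ Bᶜ := by
  ext s; simp only [mem_compl, mem_union, mem_sdiff]
  have := @h s
  tauto

theorem disjoint_sdiff_compl (A B : Finset S) : Disjoint (B \ A) Bᶜ := by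
  rw [disjoint_left]; intro s; simp only [mem_compl, mem_sdiff]; tauto

/-- (a), generators of `J⁺` -/
theorem KK_mul_Jp {e : Finset S × Finset S} (he : e ∈ Idx θ) {f : MvPolynomial S k}
    (hf : f ∈ Jp k a θ e.1) : KK k a e * f ∈ Fl k a θ (ee θ e + 1) := by
  have he' := (mem_Idx θ).1 he
  unfold Jp at hf
  refine Submodule.span_induction (p := fun f _ => KK k a e * f ∈ Fl k a θ (ee θ e + 1))
    ?_ (by simp) ?_ ?_ hf
  · rintro f ⟨A, hA, hne, hle, rfl⟩
    rw [KX_eq_KQ]
    have hw := wS_sdiff θ hA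
    rcases hle.lt_or_eq with hlt | heq
    · -- rho = (A, A)
      refine mem_Fl_of_dvd k a θ (diag_mem_Idx θ A) (ee_diag_gt θ (by omega)) ?_
      rw [KK_diag, compl_eq_of_subset hA, KQ_union_right k a _ (disjoint_sdiff_compl A e.1), mul_comm]
      exact mul_dvd_mul ((KQ_dvd k a hA subset_rfl).trans (dvd_KK_left k a e)) dvd_rfl
    · -- rho = (A, E₂)
      have hsub : A ⊆ e.2 := hA.trans he'.1
      have hAE : e.2 \ A = (e.1 \ A) ∪ (e.2 \ e.1) := by
        ext s; simp only [mem_union, mem_sdiff]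
        have := @hA s; have := @he'.1 s
        tauto
      have hdis : Disjoint (e.1 \ A) (e.2 \ e.1) := by
        rw [disjoint_left]; intro s; simp only [mem_sdiff]; tauto
      refine mem_Fl_of_dvd k a θ (e := (A, e.2)) ?_ ?_ ?_
      · rw [mem_Idx]
        refine ⟨hsub, ?_⟩
        simp only
        rw [hAE, wS_union θ hdis, heq, he'.2]; rfl
      · unfold ee
        simp only
        have h1 : wS θ A = wS θ e.1 := by omega
        have h2 : A.card < e.1.card := by
          apply card_lt_card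
          rw [ssubset_iff_subset_ne]
          exact ⟨hA, hne⟩
        rw [h1]
        have h2' : (A.card : ℤ) < e.1.card := by exact_mod_cast h2
        omega
      · rw [KK_eq k a (e := (A, e.2)) hsub, KK_eq k a he'.1]
        simp only
        rw [hAE, KQ_union_right k a _ hdis, mul_assoc]
        refine mul_dvd_mul dvd_rfl ?_
        rw [mul_comm]
        exact mul_dvd_mul (KQ_dvd k a hA subset_rfl) dvd_rfl
  · intro x y _ _ hx hy
    rw [mul_add]; exact add_mem hx hy
  · intro r x _ hx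
    rw [smul_eq_mul, mul_left_comm]
    exact Ideal.mul_mem_left _ _ hx

/-- (a), generators of `J⁰` -/
theorem KK_mul_J0 {e : Finset S × Finset S} (he : e ∈ Idx θ) {f : MvPolynomial S k}
    (hf : f ∈ J0 k a θ (e.2 \ e.1)) : KK k a e * f ∈ Fl k a θ (ee θ e + 1) := by
  have he' := (mem_Idx θ).1 he
  unfold J0 at hf
  refine Submodule.span_induction (p := fun f _ => KK k a e * f ∈ Fl k a θ (ee θ e + 1))
    ?_ (by simp) ?_ ?_ hf
  · rintro f ⟨A, hA, hpos, rfl⟩
    rw [KX_eq_KQ]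
    have hw := wS_sdiff θ hA
    have hdisj : Disjoint e.1 A := by
      rw [disjoint_left]; intro s hs hs'
      have := hA hs'
      rw [mem_sdiff] at this
      exact this.2 hs
    refine mem_Fl_of_dvd k a θ (diag_mem_Idx θ (e.1 ∪ A)) (ee_diag_gt θ ?_) ?_
    · rw [wS_union θ hdisj]; omega
    · rw [KK_diag, KQ_union_left k a hdisj]
      have h1 : KQ k a e.1 (e.1 ∪ A)ᶜ ∣ KQ k a e.1 e.1ᶜ := by
        apply KQ_dvd k a subset_rfl
        intro s; simp only [mem_compl, mem_union]; tauto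
      have h2 : (e.1 ∪ A)ᶜ = ((e.2 \ e.1) \ A) ∪ e.2ᶜ := by
        ext s; simp only [mem_compl, mem_union, mem_sdiff]
        have := @hA s
        have := @he'.1 s
        simp only [mem_sdiff] at *
        tauto
      have h3 : Disjoint ((e.2 \ e.1) \ A) e.2ᶜ := by
        rw [disjoint_left]; intro s; simp only [mem_compl, mem_sdiff]; tauto
      have h4 : KQ k a A (e.1 ∪ A)ᶜ ∣ KQ k a (e.2 \ e.1) e.2ᶜ * KQ k a A ((e.2 \ e.1) \ A) := by
        rw [h2, KQ_union_right k a _ h3, mul_comm]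
        exact mul_dvd_mul (KQ_dvd k a hA subset_rfl) dvd_rfl
      have h5 := mul_dvd_mul h1 h4
      unfold KK
      rw [mul_assoc]
      exact h5
  · intro x y _ _ hx hy
    rw [mul_add]; exact add_mem hx hy
  · intro r x _ hx
    rw [smul_eq_mul, mul_left_comm]
    exact Ideal.mul_mem_left _ _ hx

/-- (a), generators of `J⁻` -/
theorem KK_mul_Jm {e : Finset S × Finset S} (he : e ∈ Idx θ) {f : MvPolynomial S k}
    (hf : f ∈ Jm k a θ e.2ᶜ) : KK k a e * f ∈ Fl k a θ (ee θ e + 1) := by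
  have he' := (mem_Idx θ).1 he
  unfold Jm at hf
  refine Submodule.span_induction (p := fun f _ => KK k a e * f ∈ Fl k a θ (ee θ e + 1))
    ?_ (by simp) ?_ ?_ hf
  · rintro f ⟨A, hA, hne', hle, rfl⟩
    rw [KX_eq_KQ]
    have hne : A.Nonempty := nonempty_iff_ne_empty.2 hne'
    have hw := wS_sdiff θ hA
    have hdisj : Disjoint e.2 A := by
      rw [disjoint_left]; intro s hs hs'
      have := hA hs'
      rw [mem_compl] at this
      exact this hs
    have hc : (e.2 ∪ A)ᶜ = e.2ᶜ \ A := by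
      ext s; simp only [mem_compl, mem_union, mem_sdiff]; tauto
    rcases hle.lt_or_eq with hlt | heq
    · refine mem_Fl_of_dvd k a θ (diag_mem_Idx θ (e.2 ∪ A)) (ee_diag_gt θ ?_) ?_
      · rw [wS_union θ hdisj, wt_eq_of_mem θ he]; omega
      · rw [KK_diag, KQ_union_left k a hdisj, hc]
        exact mul_dvd_mul ((KQ_dvd k a subset_rfl sdiff_subset).trans (dvd_KK_right k a he'.1)) dvd_rfl
    · have hdisj' : Disjoint (e.2 \ e.1) A := hdisj.mono_left sdiff_subset
      have hE : (e.2 ∪ A) \ e.1 = (e.2 \ e.1) ∪ A := by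
        ext s; simp only [mem_union, mem_sdiff]
        have h1 := @he'.1 s
        have h2 : s ∈ A → s ∉ e.2 := fun h => (disjoint_right.1 hdisj h)
        tauto
      refine mem_Fl_of_dvd k a θ (e := (e.1, e.2 ∪ A)) ?_ ?_ ?_
      · rw [mem_Idx]
        refine ⟨he'.1.trans subset_union_left, ?_⟩
        simp only
        rw [hE, wS_union θ hdisj', he'.2, ← heq]; rfl
      · unfold ee
        simp only
        rw [card_union_of_disjoint hdisj]
        have : 0 < A.card := card_pos.2 hne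
        push_cast
        have h' : (0 : ℤ) < A.card := by exact_mod_cast this
        omega
      · unfold KK
        simp only
        rw [hE, KQ_union_left k a hdisj', hc, mul_assoc]
        refine mul_dvd_mul dvd_rfl ?_
        exact mul_dvd_mul (KQ_dvd k a subset_rfl sdiff_subset) dvd_rfl
  · intro x y _ _ hx hy
    rw [mul_add]; exact add_mem hx hy
  · intro r x _ hx
    rw [smul_eq_mul, mul_left_comm]
    exact Ideal.mul_mem_left _ _ hx

/-- (a): `KK e * II e ⊆ Fl (ee e + 1)`. -/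
theorem KK_mul_mem {e : Finset S × Finset S} (he : e ∈ Idx θ) {f : MvPolynomial S k}
    (hf : f ∈ II k a θ e) : KK k a e * f ∈ Fl k a θ (ee θ e + 1) := by
  unfold II at hf
  obtain ⟨w, hw, z, hz, rfl⟩ := Submodule.mem_sup.1 hf
  obtain ⟨x, hx, y, hy, rfl⟩ := Submodule.mem_sup.1 hw
  rw [mul_add, mul_add]
  exact add_mem (add_mem (KK_mul_Jp k a θ he hx) (KK_mul_J0 k a θ he hy)) (KK_mul_Jm k a θ he hz)

theorem KX_dvd_of (T A : Finset S) : KX k a T (T ∩ A) ∣ KQ k a A Aᶜ := by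
  have h1 : T \ (T ∩ A) = T \ A := by
    ext s; simp only [mem_inter, mem_sdiff]; tauto
  rw [KX_eq_KQ, h1]
  exact KQ_dvd k a inter_subset_right fun s => by simp only [mem_sdiff, mem_compl]; tauto

theorem sdiff_inter_self' (T A : Finset S) : T \ (T ∩ A) = T \ A := by
  ext s; simp only [mem_inter, mem_sdiff]; tauto

/-- One step of (b): if `K(E, Eᶜ)` divides `f ∉ II e` then `wt E ≤ wt E₁`, with equality only if
`E₁ ⊆ E ⊆ E₂`. -/
theorem step_b {e : Finset S × Finset S} (he : e ∈ Idx θ) {E : Finset S}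
    {f : MvPolynomial S k} (hd : KQ k a E Eᶜ ∣ f) (hf : f ∉ II k a θ e) :
    wS θ E < wS θ e.1 ∨ (wS θ E = wS θ e.1 ∧ e.1 ⊆ E ∧ E ⊆ e.2) := by
  have he' := (mem_Idx θ).1 he
  have hp : ¬ ((e.1 \ E).Nonempty ∧ wS θ (e.1 \ E) ≤ 0) := by
    intro h
    apply hf
    unfold II
    refine Ideal.mem_sup_left (Ideal.mem_sup_left ?_)
    refine Ideal.mem_of_dvd _ ((KX_dvd_of k a e.1 E).trans hd)
      (Ideal.subset_span ⟨e.1 ∩ E, inter_subset_left, ?_, ?_, rfl⟩)
    · intro hcon
      rw [inter_eq_left] at hcon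
      rw [sdiff_eq_empty_iff_subset.2 hcon] at h
      simp at h
    · rw [sdiff_inter_self']; exact h.2
  have h0 : ¬ (0 < wS θ ((e.2 \ e.1) ∩ E)) := by
    intro h
    apply hf
    unfold II
    refine Ideal.mem_sup_left (Ideal.mem_sup_right ?_)
    exact Ideal.mem_of_dvd _ ((KX_dvd_of k a (e.2 \ e.1) E).trans hd)
      (Ideal.subset_span ⟨(e.2 \ e.1) ∩ E, inter_subset_left, h, rfl⟩)
  have hm : ¬ ((e.2ᶜ ∩ E).Nonempty ∧ 0 ≤ wS θ (e.2ᶜ ∩ E)) := by
    intro h
    apply hf
    unfold II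
    refine Ideal.mem_sup_right ?_
    exact Ideal.mem_of_dvd _ ((KX_dvd_of k a e.2ᶜ E).trans hd)
      (Ideal.subset_span ⟨e.2ᶜ ∩ E, inter_subset_left, nonempty_iff_ne_empty.1 h.1, h.2, rfl⟩)
  have hE : E = (e.1 ∩ E) ∪ (((e.2 \ e.1) ∩ E) ∪ (e.2ᶜ ∩ E)) := by
    ext s; simp only [mem_union, mem_inter, mem_sdiff, mem_compl]
    have := @he'.1 s
    tauto
  have hd1 : Disjoint ((e.2 \ e.1) ∩ E) (e.2ᶜ ∩ E) := by
    rw [disjoint_left]; intro s; simp only [mem_inter, mem_sdiff, mem_compl]; tauto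
  have hd2 : Disjoint (e.1 ∩ E) (((e.2 \ e.1) ∩ E) ∪ (e.2ᶜ ∩ E)) := by
    rw [disjoint_left]; intro s
    simp only [mem_union, mem_inter, mem_sdiff, mem_compl]
    have := @he'.1 s
    tauto
  have hw : wS θ E = wS θ (e.1 ∩ E) + (wS θ ((e.2 \ e.1) ∩ E) + wS θ (e.2ᶜ ∩ E)) := by
    conv_lhs => rw [hE]
    rw [wS_union θ hd2, wS_union θ hd1]
  have hT : wS θ (e.1 \ E) + wS θ (e.1 ∩ E) = wS θ e.1 := by
    have h1 : e.1 \ (e.1 ∩ E) = e.1 \ E := by
      ext s; simp only [mem_inter, mem_sdiff]; tauto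
    have := wS_sdiff θ (X := e.1 ∩ E) (Y := e.1) inter_subset_left
    rwa [h1] at this
  push Not at h0
  have hT' : (e.1 \ E = ∅) ∨ 0 < wS θ (e.1 \ E) := by
    by_contra hcon
    push Not at hcon
    exact hp ⟨hcon.1, hcon.2⟩
  have hF' : (e.2ᶜ ∩ E = ∅) ∨ wS θ (e.2ᶜ ∩ E) < 0 := by
    by_contra hcon
    push Not at hcon
    exact hm ⟨hcon.1, hcon.2⟩
  have wt_empty : wS θ ∅ = 0 := by simp [wS]
  rcases hT' with hT' | hT'
  · rcases hF' with hF' | hF'
    · rw [hT', wt_empty] at hT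
      rw [hF', wt_empty] at hw
      rcases h0.lt_or_eq with h | h
      · left; omega
      · right
        refine ⟨by omega, ?_, ?_⟩
        · exact sdiff_eq_empty_iff_subset.1 hT'
        · intro s hs
          by_contra hcon
          have : s ∈ e.2ᶜ ∩ E := by simp [hs, hcon]
          rw [hF'] at this
          simp at this
    · left
      rw [hT', wt_empty] at hT
      have := h0
      omega
  · left
    have h1 := h0
    rcases hF' with hF' | hF'
    · rw [hF', wt_empty] at hw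
      omega
    · omega

/-- (b): a kernel of the same or larger height, of another pair, is in `II e`. -/
theorem KK_mem_II {e e' : Finset S × Finset S} (he : e ∈ Idx θ) (he' : e' ∈ Idx θ)
    (hne : e' ≠ e) (hee : ee θ e ≤ ee θ e') : KK k a e' ∈ II k a θ e := by
  by_contra hcon
  have h1 := (mem_Idx θ).1 he
  have h2 := (mem_Idx θ).1 he'
  have hb1 := step_b k a θ he (dvd_KK_left k a e') hcon
  have hb2 := step_b k a θ he (dvd_KK_right k a h2.1) hcon
  have hw := wt_eq_of_mem θ he'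
  have hc1 := card_le e'.2
  have hc0 : e.1.card ≤ e.2.card := card_le_card h1.1
  have hc0' : e'.1.card ≤ e'.2.card := card_le_card h2.1
  have hN : ∀ x y : ℤ, x < y →
      ((Fintype.card S : ℤ) + 1) * x + (Fintype.card S + 1) ≤ (Fintype.card S + 1) * y := by
    intro x y hxy
    have : ((Fintype.card S : ℤ) + 1) * (x + 1) ≤ (Fintype.card S + 1) * y :=
      mul_le_mul_of_nonneg_left (by omega) (by positivity)
    nlinarith
  unfold ee at hee
  rcases hb1 with hb1 | ⟨hb1, hb1', hb1''⟩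
  · have := hN _ _ hb1
    have h3 : (0 : ℤ) ≤ e'.1.card := by positivity
    have h4 : (e.1.card : ℤ) ≤ e.2.card := by exact_mod_cast hc0
    omega
  · rcases hb2 with hb2 | ⟨hb2, hb2', hb2''⟩
    · omega
    · apply hne
      rw [hb1] at hee
      have h5 : e.1.card ≤ e'.1.card := card_le_card hb1'
      have h6 : e'.2.card ≤ e.2.card := card_le_card hb2''
      have h7 : e'.1.card = e.1.card := by omega
      have h8 : e'.2.card = e.2.card := by omega
      exact Prod.ext (eq_of_subset_of_card_le hb1' h7.le).symm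
        (eq_of_subset_of_card_le hb2'' h8.ge)

end

end Vale.Agent.P066.Lab.HN
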