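import Vale.Agent.P066.Lab.HN6a

/-!
# The numeric HN identity `LAout` from the Künneth formula and the standard triples
-/

set_option autoImplicit false
set_option linter.unusedSectionVars false
set_option linter.unusedDecidableInType false
set_option linter.unusedFintypeInType false

open Finset MvPolynomial

namespace Vale.Agent.P066.Lab.HN

open Vale.Agent.P066.Theta.H422 (TP mem_TP Alt mem_Alt)

noncomputable section

/-- Künneth for the antisymmetric parts -/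
def KunProp : Prop :=
  ∀ (A B I I' : Type) [Fintype A] [DecidableEq A] [Fintype B] [DecidableEq B] [Fintype I]
    [DecidableEq I] [Fintype I'] [DecidableEq I'] (cA : A → I) (cB : B → I')
    (JA : Ideal (MvPolynomial A ℚ)) (JB : Ideal (MvPolynomial B ℚ)),
    HomI ℚ JA → HomI ℚ JB → ∀ m : ℕ,
      hd ℚ (Sum.map cA cB)
        (Ideal.map (rename Sum.inl : MvPolynomial A ℚ →ₐ[ℚ] MvPolynomial (A ⊕ B) ℚ) JA ⊔
          Ideal.map (rename Sum.inr : MvPolynomial B ℚ →ₐ[ℚ] MvPolynomial (A ⊕ B) ℚ) JB) m =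
        ∑ p ∈ antidiagonal m, hd ℚ cA JA p.1 * hd ℚ cB JB p.2

variable {n : ℕ}

/-- the pair of a decomposition -/
def tauφ {d d1 d0 d2 : Fin n →₀ ℕ} (φ : Pt d1 ⊕ (Pt d0 ⊕ Pt d2) ≃ Pt d) :
    Finset (Pt d) × Finset (Pt d) :=
  (univ.image fun s => φ (Sum.inl s),
    (univ.image fun s => φ (Sum.inl s)) ∪ univ.image fun s => φ (Sum.inr (Sum.inl s)))

/-- type preserving decompositions -/
structure TPφ {d d1 d0 d2 : Fin n →₀ ℕ} (φ : Pt d1 ⊕ (Pt d0 ⊕ Pt d2) ≃ Pt d) : Prop where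
  t1 : ∀ s, (φ (Sum.inl s)).1 = s.1
  t0 : ∀ s, (φ (Sum.inr (Sum.inl s))).1 = s.1
  t2 : ∀ s, (φ (Sum.inr (Sum.inr s))).1 = s.1

/-- standard triples: existence, conjugacy, uniqueness -/
def StdProp : Prop :=
  ∀ (n : ℕ) (d : Fin n →₀ ℕ),
    ∃ φ : ∀ d1 d0 d2 : Fin n →₀ ℕ, d1 + (d0 + d2) = d → (Pt d1 ⊕ (Pt d0 ⊕ Pt d2) ≃ Pt d),
      (∀ d1 d0 d2 h, TPφ (φ d1 d0 d2 h)) ∧
      (∀ e : Finset (Pt d) × Finset (Pt d), e.1 ⊆ e.2 → ∃ d1 d0 d2 h,
        ∃ σ ∈ TP (Sigma.fst : Pt d → Fin n), act σ (tauφ (φ d1 d0 d2 h)) = e) ∧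
      (∀ d1 d0 d2 h d1' d0' d2' h', ∀ σ ∈ TP (Sigma.fst : Pt d → Fin n),
        act σ (tauφ (φ d1 d0 d2 h)) = tauφ (φ d1' d0' d2' h') → d1 = d1' ∧ d0 = d0' ∧ d2 = d2')

section tau

variable {d d1 d0 d2 : Fin n →₀ ℕ} (φ : Pt d1 ⊕ (Pt d0 ⊕ Pt d2) ≃ Pt d)

theorem tauφ_subset : (tauφ φ).1 ⊆ (tauφ φ).2 := subset_union_left

theorem mem_tauφ1 (x : Pt d1 ⊕ (Pt d0 ⊕ Pt d2)) : φ x ∈ (tauφ φ).1 ↔ ∃ s, x = Sum.inl s := by
  unfold tauφ
  simp only [mem_image, mem_univ, true_and, φ.injective.eq_iff]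
  exact ⟨fun ⟨s, hs⟩ => ⟨s, hs.symm⟩, fun ⟨s, hs⟩ => ⟨s, hs.symm⟩⟩

theorem mem_tauφ2 (x : Pt d1 ⊕ (Pt d0 ⊕ Pt d2)) :
    φ x ∈ (tauφ φ).2 ↔ (∃ s, x = Sum.inl s) ∨ ∃ s, x = Sum.inr (Sum.inl s) := by
  unfold tauφ
  simp only [mem_union, mem_image, mem_univ, true_and, φ.injective.eq_iff]
  constructor
  · rintro (⟨s, hs⟩ | ⟨s, hs⟩)
    · exact Or.inl ⟨s, hs.symm⟩
    · exact Or.inr ⟨s, hs.symm⟩
  · rintro (⟨s, hs⟩ | ⟨s, hs⟩)
    · exact Or.inl ⟨s, hs.symm⟩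
    · exact Or.inr ⟨s, hs.symm⟩

theorem tauφ_sdiff : (tauφ φ).2 \ (tauφ φ).1 = univ.image fun s => φ (Sum.inr (Sum.inl s)) := by
  ext t
  obtain ⟨x, rfl⟩ := φ.surjective t
  rw [mem_sdiff, mem_tauφ1, mem_tauφ2]
  simp only [mem_image, mem_univ, true_and, φ.injective.eq_iff]
  rcases x with s | s | s <;> simp

theorem tauφ_compl : ((tauφ φ).2)ᶜ = univ.image fun s => φ (Sum.inr (Sum.inr s)) := by
  ext t
  obtain ⟨x, rfl⟩ := φ.surjective t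
  rw [mem_compl, mem_tauφ2]
  simp only [mem_image, mem_univ, true_and, φ.injective.eq_iff]
  rcases x with s | s | s <;> simp

theorem sum_Pt (f : Fin n → ℤ) : ∑ s : Pt d0, f s.1 = ∑ i, (d0 i : ℤ) * f i := by
  rw [Fintype.sum_sigma]
  simp

theorem sum_Pt_Pt (a : Fin n → Fin n → ℕ) :
    ∑ s : Pt d1, ∑ t : Pt d0, a s.1 t.1 = arD a d1 d0 := by
  unfold arD
  rw [Fintype.sum_sigma]
  refine Finset.sum_congr rfl fun i _ => ?_
  simp only [Fintype.sum_sigma, Finset.sum_const, card_univ, Fintype.card_fin, smul_eq_mul]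
  rw [Finset.mul_sum]
  refine Finset.sum_congr rfl fun j _ => ?_
  ring

variable {φ}

theorem wS_tauφ (hφ : TPφ φ) (θ : Fin n → ℤ) :
    wS (θP θ d) ((tauφ φ).2 \ (tauφ φ).1) = Theta.wt θ d0 := by
  rw [tauφ_sdiff]
  unfold wS
  rw [Finset.sum_image fun x _ y _ h => by simpa using h]
  unfold θP Theta.wt
  simp only [hφ.t0]
  exact sum_Pt θ

theorem dK_tauφ (hφ : TPφ φ) (a : Fin n → Fin n → ℕ) :
    dK (aP a d) (tauφ φ) = arD a d1 d0 + arD a d1 d2 + arD a d0 d2 := by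
  have hc : (tauφ φ).1ᶜ = (tauφ φ).2 \ (tauφ φ).1 ∪ (tauφ φ).2ᶜ :=
    compl_eq_of_subset (tauφ_subset φ)
  unfold dK
  rw [hc, Finset.product_union, Finset.sum_union (Finset.disjoint_product.2
    (Or.inr (disjoint_sdiff_compl _ _))), tauφ_sdiff, tauφ_compl]
  have h1 : (tauφ φ).1 = univ.image fun s => φ (Sum.inl s) := rfl
  rw [h1]
  simp only [Finset.sum_product]
  rw [Finset.sum_image fun x _ y _ h => by simpa using h,
    Finset.sum_image fun x _ y _ h => by simpa using h,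
    Finset.sum_image fun x _ y _ h => by simpa using h]
  have i0 : Set.InjOn (fun s : Pt d0 => φ (Sum.inr (Sum.inl s))) (univ : Finset (Pt d0)) :=
    fun x _ y _ h => by simpa using h
  have i2 : Set.InjOn (fun s : Pt d2 => φ (Sum.inr (Sum.inr s))) (univ : Finset (Pt d2)) :=
    fun x _ y _ h => by simpa using h
  simp only [Finset.sum_image i0, Finset.sum_image i2]
  unfold aP
  simp only [hφ.t1, hφ.t0, hφ.t2]
  rw [sum_Pt_Pt, sum_Pt_Pt, sum_Pt_Pt]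

theorem hd_tauφ (hK : KunProp) (hφ : TPφ φ) (a : Fin n → Fin n → ℕ) (θ : Fin n → ℤ) (m : ℕ) :
    hd ℚ (cE (Sigma.fst : Pt d → Fin n) (tauφ φ)) (II ℚ (aP a d) (θP θ d) (tauφ φ)) m =
      ∑ p ∈ antidiagonal m, hRp a θ d1 p.1 *
        ∑ q ∈ antidiagonal p.2, hR0 a θ d0 q.1 * hRm a θ d2 q.2 := by
  rw [II_eq_map ℚ (a1 := aP a d1) (a0 := aP a d0) (a2 := aP a d2) (θ1 := θP θ d1)
    (θ0 := θP θ d0) (θ2 := θP θ d2) φ (fun s t => by unfold aP; rw [hφ.t1, hφ.t1])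
    (fun s t => by unfold aP; rw [hφ.t0, hφ.t0]) (fun s t => by unfold aP; rw [hφ.t2, hφ.t2])
    (fun s => by unfold θP; rw [hφ.t1]) (fun s => by unfold θP; rw [hφ.t0])
    (fun s => by unfold θP; rw [hφ.t2]) (tauφ φ) rfl (tauφ_sdiff φ) (tauφ_compl φ)]
  rw [hd_equiv ℚ φ (Sum.map (Sigma.fst : Pt d1 → Fin n)
    (Sum.map (Sigma.fst : Pt d0 → Fin n) (Sigma.fst : Pt d2 → Fin n)))]
  · rw [hK _ _ _ _ _ _ _ _ (GenH_Jp ℚ _ _ _).homI
      (((GenH_J0 ℚ _ _ _).map ℚ _).sup ℚ ((GenH_Jm ℚ _ _ _).map ℚ _)).homI]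
    refine Finset.sum_congr rfl fun p _ => ?_
    rw [hK _ _ _ _ _ _ _ _ (GenH_J0 ℚ _ _ _).homI (GenH_Jm ℚ _ _ _).homI]
    rfl
  · intro s t
    unfold cE
    have m1 := mem_tauφ1 φ
    have m2 := mem_tauφ2 φ
    rcases s with s | s | s <;> rcases t with t | t | t <;>
      simp [m1, m2, hφ.t1, hφ.t0, hφ.t2]

end tau

/-- **The numeric HN identity.** -/
theorem laout_of (hK : KunProp) (hS : StdProp) : LAout := by
  classical
  intro n a θ d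
  obtain ⟨φ, hφ, hconj, huniq⟩ := hS n d
  ext m
  rw [PowerSeries.coeff_mk]
  let T := ((antidiagonal d).sigma fun p => antidiagonal p.2).filter
    fun x => Theta.wt θ x.2.1 = 0
  have hT : ∀ x ∈ T, x.1.1 + (x.2.1 + x.2.2) = d := by
    intro x hx
    simp only [T, mem_filter, mem_sigma, HasAntidiagonal.mem_antidiagonal] at hx
    rw [hx.1.2, hx.1.1]
  let τ : {x // x ∈ T} → Finset (Pt d) × Finset (Pt d) := fun x =>
    tauφ (φ x.1.1.1 x.1.2.1 x.1.2.2 (hT x.1 x.2))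
  have hcomp : Comp (aP a d) (θP θ d) (Sigma.fst : Pt d → Fin n) :=
    ⟨fun s t s' t' h1 h2 => by unfold aP; rw [h1, h2], fun s s' h => by unfold θP; rw [h]⟩
  have h1 := finrank_PA ℚ hcomp τ ?_ ?_ ?_ m
  · change Module.finrank ℚ ↥(PA ℚ (Sigma.fst : Pt d → Fin n) m) = _
    rw [h1, map_sum]
    simp only [map_sum]
    rw [Finset.sum_sigma']
    have h2 : ∀ x ∈ (antidiagonal d).sigma (fun p => antidiagonal p.2),
        PowerSeries.coeff m (if Theta.wt θ x.2.1 = 0 then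
          (PowerSeries.X : PowerSeries ℕ) ^ (arD a x.1.1 x.2.1 + arD a x.1.1 x.2.2 +
            arD a x.2.1 x.2.2) * (PowerSeries.mk (hRp a θ x.1.1) *
              PowerSeries.mk (hR0 a θ x.2.1) * PowerSeries.mk (hRm a θ x.2.2)) else 0) =
        if Theta.wt θ x.2.1 = 0 then (if arD a x.1.1 x.2.1 + arD a x.1.1 x.2.2 +
            arD a x.2.1 x.2.2 ≤ m then ∑ p ∈ antidiagonal (m - (arD a x.1.1 x.2.1 +
              arD a x.1.1 x.2.2 + arD a x.2.1 x.2.2)), hRp a θ x.1.1 p.1 *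
              ∑ q ∈ antidiagonal p.2, hR0 a θ x.2.1 q.1 * hRm a θ x.2.2 q.2 else 0) else 0 := by
      intro x _
      split_ifs with h3 h4
      · rw [PowerSeries.coeff_X_pow_mul', if_pos h4, mul_assoc, PowerSeries.coeff_mul]
        refine Finset.sum_congr rfl fun p _ => ?_
        rw [PowerSeries.coeff_mk, PowerSeries.coeff_mul]
        simp only [PowerSeries.coeff_mk]
      · rw [PowerSeries.coeff_X_pow_mul', if_neg h4]
      · rw [map_zero]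
    rw [Finset.sum_congr rfl h2, ← Finset.sum_filter]
    change _ = ∑ x ∈ T, _
    rw [← Finset.sum_coe_sort T, Finset.sum_filter]
    refine Finset.sum_congr rfl fun x _ => ?_
    have h3 : dK (aP a d) (τ x) = arD a x.1.1.1 x.1.2.1 + arD a x.1.1.1 x.1.2.2 +
        arD a x.1.2.1 x.1.2.2 := dK_tauφ (hφ _ _ _ _) a
    rw [h3]
    split_ifs
    · exact hd_tauφ hK (hφ _ _ _ _) a θ _
    · rfl
  · intro x
    rw [mem_Idx]
    refine ⟨tauφ_subset _, ?_⟩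
    rw [wS_tauφ (hφ _ _ _ _)]
    exact (mem_filter.1 x.2).2
  · intro e he
    rw [mem_Idx] at he
    obtain ⟨d1, d0, d2, h, σ, hσ, hact⟩ := hconj e he.1
    have hwt : Theta.wt θ d0 = 0 := by
      have h4 := act_mem_Idx hcomp (inv_mem_TP hσ) ((mem_Idx _).2 he)
      rw [← hact, ← act_mul, inv_mul_cancel, act_one, mem_Idx, wS_tauφ (hφ _ _ _ _)] at h4
      exact h4.2
    refine ⟨⟨⟨(d1, d0 + d2), (d0, d2)⟩, ?_⟩, σ, hσ, hact⟩
    simp only [T, mem_filter, mem_sigma, HasAntidiagonal.mem_antidiagonal]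
    exact ⟨⟨h, trivial⟩, hwt⟩
  · rintro ⟨⟨⟨x1, x2⟩, ⟨x3, x4⟩⟩, hx⟩ ⟨⟨⟨y1, y2⟩, ⟨y3, y4⟩⟩, hy⟩ σ hσ hact
    obtain ⟨r1, r2, r3⟩ := huniq _ _ _ _ _ _ _ _ σ hσ hact
    simp only [T, mem_filter, mem_sigma, HasAntidiagonal.mem_antidiagonal] at hx hy
    simp only at r1 r2 r3
    subst r1 r2 r3
    obtain ⟨⟨_, hx2⟩, _⟩ := hx
    obtain ⟨⟨_, hy2⟩, _⟩ := hy
    subst hx2 hy2
    rfl

end

end Vale.Agent.P066.Lab.HN
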