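import Vale.Agent.P066.Theta.Uncond
import Vale.Agent.P066.Theta.H615.Ring

/-!
# The finite quiver theorem: quantum torus of a quiver, expansion at `v = ∞`

Conventions: `u = 1/v`; a quiver has vertices `Fin n`, arrows `a i j` from `i` to `j`, and
`x^d x^e = v^{ω(d,e)} x^{d+e} = u^{a(d,e) - a(e,d)} x^{d+e}`.
-/

set_option autoImplicit false

open Finset

namespace Vale.Agent.P066.Lab

open Vale.Agent.P066.Theta

noncomputable section

variable {n : ℕ}

/-- the skew form of the quiver: `ω(y_i, y_j) = a j i - a i j` -/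
def Bq (a : Fin n → Fin n → ℕ) : Matrix (Fin n) (Fin n) ℤ := fun i j => (a j i : ℤ) - a i j

/-- number of arrows from `d` to `e` -/
def aq (a : Fin n → Fin n → ℕ) (d e : Fin n →₀ ℕ) : ℤ :=
  ∑ i, ∑ j, (d i : ℤ) * (a i j : ℤ) * (e j : ℤ)

/-- `c(d) = |d| - a(d,d)` -/
def cq (a : Fin n → Fin n → ℕ) (d : Fin n →₀ ℕ) : ℤ := (deg d : ℤ) - aq a d d

/-- the quantum dilogarithm `E_{a_ii}(x_i)` of the vertex `i` -/
def vtx (a : Fin n → Fin n → ℕ) (i : Fin n) : QSeries (Bq a) :=
  fun γ => if γ = Finsupp.single i (γ i) then epsCoeff (decide (a i i = 1)) (γ i) else 0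

/-- the ordered product `E(x_0) E(x_1) ⋯` -/
def Aq (a : Fin n → Fin n → ℕ) : QSeries (Bq a) := (List.ofFn fun i : Fin n => vtx a i).prod

theorem Bq_skew (a : Fin n → Fin n → ℕ) : (Bq a).transpose = -(Bq a) := by
  ext i j
  simp [Bq, Matrix.transpose_apply]

theorem omega_Bq (a : Fin n → Fin n → ℕ) (d e : Fin n →₀ ℕ) :
    omega (Bq a) (Theta.toZ d) (Theta.toZ e) = aq a e d - aq a d e := by
  unfold omega Bq aq Theta.toZ
  rw [Finset.sum_comm (f := fun i j => (e i : ℤ) * (a i j : ℤ) * (d j : ℤ)),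
    ← Finset.sum_sub_distrib]
  refine Finset.sum_congr rfl fun i _ => ?_
  rw [← Finset.sum_sub_distrib]
  refine Finset.sum_congr rfl fun j _ => ?_
  ring

theorem aq_add_left (a : Fin n → Fin n → ℕ) (d d' e : Fin n →₀ ℕ) :
    aq a (d + d') e = aq a d e + aq a d' e := by
  simp only [aq, Finsupp.add_apply, Nat.cast_add, add_mul, sum_add_distrib]

theorem aq_add_right (a : Fin n → Fin n → ℕ) (d e e' : Fin n →₀ ℕ) :
    aq a d (e + e') = aq a d e + aq a d e' := by
  simp only [aq, Finsupp.add_apply, Nat.cast_add, mul_add, sum_add_distrib]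

@[simp] theorem aq_zero_left (a : Fin n → Fin n → ℕ) (e : Fin n →₀ ℕ) : aq a 0 e = 0 := by
  simp [aq]

@[simp] theorem aq_zero_right (a : Fin n → Fin n → ℕ) (e : Fin n →₀ ℕ) : aq a e 0 = 0 := by
  simp [aq]

theorem deg_add' (d e : Fin n →₀ ℕ) : deg (d + e) = deg d + deg e := by
  simp [deg, sum_add_distrib]

/-- `c(d+e) + 2 a(d,e) = c(d) + c(e) - ω(d,e)` -/
theorem cq_add (a : Fin n → Fin n → ℕ) (d e : Fin n →₀ ℕ) :
    cq a (d + e) + 2 * aq a d e = cq a d + cq a e - omega (Bq a) (Theta.toZ d) (Theta.toZ e) := by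
  rw [omega_Bq]
  unfold cq
  rw [deg_add', aq_add_left, aq_add_right, aq_add_right]
  push_cast
  ring

/-! ### expansion at `u = 1/v = 0` -/

/-- the variable `u = 1/v` -/
def uL : LaurentSeries ℚ := HahnSeries.single 1 1

theorem uL_ne_zero : uL ≠ 0 := by
  intro h
  have := congrArg (fun f : LaurentSeries ℚ => f.coeff 1) h
  simp [uL] at this

theorem uL_zpow (m : ℤ) : uL ^ m = HahnSeries.single m (1 : ℚ) :=
  (RatFunc.single_zpow m).symm

theorem uL_inv : uL⁻¹ = HahnSeries.single (-1 : ℤ) (1 : ℚ) := by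
  rw [← zpow_neg_one, uL_zpow]

theorem uL_inv_pow (m : ℕ) : uL⁻¹ ^ m = HahnSeries.single (-(m : ℤ)) (1 : ℚ) := by
  rw [← uL_zpow, zpow_neg, zpow_natCast, inv_pow]

theorem coeff_aeval_uL_inv (p : Polynomial ℚ) (m : ℕ) :
    (Polynomial.aeval uL⁻¹ p).coeff (-(m : ℤ)) = p.coeff m := by
  induction p using Polynomial.induction_on' with
  | add p q hp hq => rw [map_add, HahnSeries.coeff_add, hp, hq, Polynomial.coeff_add]
  | monomial k c =>
    rw [Polynomial.aeval_monomial, uL_inv_pow, Polynomial.coeff_monomial]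
    have h1 : (algebraMap ℚ (LaurentSeries ℚ)) c * HahnSeries.single (-(k : ℤ)) (1 : ℚ) =
        HahnSeries.single (-(k : ℤ)) c := by
      have h0 : (algebraMap ℚ (LaurentSeries ℚ)) c = (HahnSeries.C : ℚ →+* LaurentSeries ℚ) c :=
        RingHom.congr_fun (RingHom.ext_rat _ _) c
      rw [h0, HahnSeries.C_mul_eq_smul]
      ext i
      simp [HahnSeries.coeff_single]
    rw [h1, HahnSeries.coeff_single]
    by_cases h : k = m
    · simp [h]
    · have h2 : ¬ (-(m : ℤ) = -(k : ℤ)) := by omega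
      rw [if_neg h2, if_neg h]

theorem aeval_uL_inv_injective :
    Function.Injective (Polynomial.aeval (R := ℚ) (uL⁻¹ : LaurentSeries ℚ)) := by
  rw [injective_iff_map_eq_zero]
  intro p hp
  ext m
  rw [← coeff_aeval_uL_inv, hp]
  simp

/-- expansion of a rational function of `v` at `u = 1/v = 0` -/
def toL : K →+* LaurentSeries ℚ :=
  RatFunc.liftRingHom (Polynomial.aeval (R := ℚ) (uL⁻¹ : LaurentSeries ℚ)).toRingHom
    (nonZeroDivisors_le_comap_nonZeroDivisors_of_injective _ aeval_uL_inv_injective)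

theorem toL_v : toL v = uL⁻¹ := by
  unfold toL v
  rw [← RatFunc.algebraMap_X, RatFunc.liftRingHom_algebraMap]
  simp

theorem toL_v_zpow (m : ℤ) : toL (v ^ m) = uL ^ (-m) := by
  rw [map_zpow₀, toL_v, inv_zpow, zpow_neg]

theorem toL_injective : Function.Injective toL := toL.injective

end

end Vale.Agent.P066.Lab
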