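import Vale.Agent.P066.Lab.Defs
import Vale.Agent.P066.Lab.QTDefs
import Vale.Agent.P066.H347.Multi
import Vale.Agent.P066.Theta.H422.HS

/-!
# Interface of the finite quiver theorem: numerical outputs of the algebra

`u = 1/v`, `q = u²`.  Quiver with vertices `Fin n`, `a i j` arrows from `i` to `j`.
`LAout`: Harder–Narasimhan (Hilbert series of the antisymmetric parts).
`LSout`: PBW (the antisymmetric part of `k[S]/J0` is counted by the words of a loop alphabet).
`QT2out`: the middle factor of the triple.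
-/

set_option autoImplicit false

open Finset MvPolynomial

namespace Vale.Agent.P066.Lab

noncomputable section

section Alt

variable (k : Type) [Field k] {S : Type} [Fintype S] [DecidableEq S] {ι : Type} [Fintype ι]
  [DecidableEq ι] (ty : S → ι)

/-- homogeneous antisymmetric polynomials of degree `m` (antisymmetric under the permutations of
the particles which preserve the types) -/
def AltH (m : ℕ) : Submodule k (MvPolynomial S k) :=
  Theta.H422.Alt k ty ⊓ homogeneousSubmodule S k m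

/-- Hilbert function of the antisymmetric part of `k[S]/J` -/
def hQ (J : Ideal (MvPolynomial S k)) (m : ℕ) : ℕ :=
  Module.finrank k ((AltH k ty m).map (J.restrictScalars k).mkQ)

end Alt

section Quiver

variable {n : ℕ}

/-- the particles of the dimension vector `d`; the type of a particle is its first component -/
abbrev Pt (d : Fin n →₀ ℕ) : Type := Σ i : Fin n, Fin (d i)

/-- arrows between particles -/
def aP (a : Fin n → Fin n → ℕ) (d : Fin n →₀ ℕ) : Pt d → Pt d → ℕ := fun s t => a s.1 t.1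

/-- stability on particles -/
def θP (θ : Fin n → ℤ) (d : Fin n →₀ ℕ) : Pt d → ℤ := fun s => θ s.1

/-- number of arrows between two dimension vectors (`aq` of `QTDefs` is its cast) -/
def arD (a : Fin n → Fin n → ℕ) (d e : Fin n →₀ ℕ) : ℕ := ∑ i, ∑ j, d i * a i j * e j

theorem aq_eq_arD (a : Fin n → Fin n → ℕ) (d e : Fin n →₀ ℕ) : aq a d e = arD a d e := by
  unfold aq arD
  push_cast
  rfl

/-- the Euler form is symmetric on the classes of weight zero -/
def SymD (a : Fin n → Fin n → ℕ) (θ : Fin n → ℤ) : Prop :=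
  ∀ d e : Fin n →₀ ℕ, Theta.wt θ d = 0 → Theta.wt θ e = 0 → arD a d e = arD a e d

variable (a : Fin n → Fin n → ℕ) (θ : Fin n → ℤ)

/-- Hilbert function of `P_d` (antisymmetric polynomials) -/
def hP (d : Fin n →₀ ℕ) (m : ℕ) : ℕ :=
  Module.finrank ℚ (AltH ℚ (Sigma.fst : Pt d → Fin n) m)

/-- Hilbert function of `R⁺_d` -/
def hRp (d : Fin n →₀ ℕ) (m : ℕ) : ℕ :=
  hQ ℚ (Sigma.fst : Pt d → Fin n) (Jp ℚ (aP a d) (θP θ d) univ) m

/-- Hilbert function of `R⁰_d` -/
def hR0 (d : Fin n →₀ ℕ) (m : ℕ) : ℕ :=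
  hQ ℚ (Sigma.fst : Pt d → Fin n) (J0 ℚ (aP a d) (θP θ d) univ) m

/-- Hilbert function of `R⁻_d` -/
def hRm (d : Fin n →₀ ℕ) (m : ℕ) : ℕ :=
  hQ ℚ (Sigma.fst : Pt d → Fin n) (Jm ℚ (aP a d) (θP θ d) univ) m

end Quiver

/-- Harder–Narasimhan: numerical form of block LA (Hilbert series in `q`, coefficients in `ℕ`);
`d = d₁ + d₂ + d₃` with `d₁ = p.1`, `d₂ = p'.1`, `d₃ = p'.2`. -/
def LAout : Prop :=
  ∀ (n : ℕ) (a : Fin n → Fin n → ℕ) (θ : Fin n → ℤ) (d : Fin n →₀ ℕ),
    (PowerSeries.mk (hP d) : PowerSeries ℕ) = ∑ p ∈ antidiagonal d, ∑ p' ∈ antidiagonal p.2,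
      if Theta.wt θ p'.1 = 0 then
        PowerSeries.X ^ (arD a p.1 p'.1 + arD a p.1 p'.2 + arD a p'.1 p'.2) *
          (PowerSeries.mk (hRp a θ p.1) * PowerSeries.mk (hR0 a θ p'.1) *
            PowerSeries.mk (hRm a θ p'.2))
      else 0

/-- Theorem B (PBW) + antisymmetric parts + counting + finiteness: output of LS and FIN.
`T` = letters `y`, class `T.k y = d_y`, `T.e y = 2 (degree of y) + c(d_y)`; the words are those of
`T.loop` (letters `(y, j)` of degree `T.e y + 2 j`).  (`2 (degree) + c(d)` is additive on words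
because of the factor `K_π`.) -/
def LSout : Prop :=
  ∀ (n : ℕ) (a : Fin n → Fin n → ℕ) (θ : Fin n → ℤ), SymD a θ →
    ∃ T : H347.MAlph n,
      (∀ y, Theta.wt θ (T.k y) = 0) ∧
      (∀ D : ℕ, {y | Theta.deg (T.k y) ≤ D}.Finite) ∧
      ∀ d : Fin n →₀ ℕ, Theta.wt θ d = 0 →
        (∀ m : ℕ, T.loop.num d (2 * m + cq a d) = hR0 a θ d m) ∧
        ∀ N : ℤ, (∀ m : ℕ, N ≠ 2 * m + cq a d) → T.loop.num d N = 0

/-- `u^c * ∑_m h m u^{2 m}` -/
def hser (c : ℤ) (h : ℕ → ℕ) : LaurentSeries ℚ :=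
  uL ^ c * HahnSeries.ofPowerSeries ℤ ℚ
    (PowerSeries.mk fun m => if Even m then (h (m / 2) : ℚ) else 0)

/-- QT1: expansion of the coefficients of `A` (from `toL_Aq`, 180, `finrank_Alt`). -/
def QT1out : Prop :=
  ∀ (n : ℕ) (a : Fin n → Fin n → ℕ), (∀ i j, i < j → a i j = 0) → (∀ i, a i i ≤ 1) →
    ∀ d : Fin n →₀ ℕ, toL (Aq a d) = hser (cq a d) (hP d)

/-- QT2: the middle factor. -/
def QT2out : Prop := LAout →
  ∀ (n : ℕ) (a : Fin n → Fin n → ℕ) (θ : Fin n → ℤ) (A : Theta.QSeries (Bq a)),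
    (∀ d, toL (A d) = hser (cq a d) (hP d)) →
    ∀ gp g0 gm : Theta.QSeries (Bq a), Theta.IsTriple A gp g0 gm θ →
      ∀ d, Theta.wt θ d = 0 → toL (g0 d) = hser (cq a d) (hR0 a θ d)

end

end Vale.Agent.P066.Lab
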