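import Vale.Agent.P066.Lab.HN3
import Vale.Agent.P066.Lab.QT0

/-!
# Assembly of the numeric HN identity: transport, homogeneous ideals
-/

set_option autoImplicit false
set_option linter.unusedSectionVars false
set_option linter.unusedDecidableInType false
set_option linter.unusedFintypeInType false

open Finset MvPolynomial

namespace Vale.Agent.P066.Lab.HN

open Vale.Agent.P066.Theta.H422 (TP mem_TP Alt mem_Alt)

noncomputable section

variable {S : Type} [Fintype S] [DecidableEq S] {I : Type} [Fintype I] [DecidableEq I]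
variable {S' : Type} [Fintype S'] [DecidableEq S'] {I' : Type} [Fintype I'] [DecidableEq I']
variable (k : Type) [Field k]

/-! ### homogeneous ideals -/

/-- homogeneous ideals -/
def HomI (J : Ideal (MvPolynomial S k)) : Prop := ∀ f ∈ J, ∀ n, homogeneousComponent n f ∈ J

theorem HomI_span {G : Set (MvPolynomial S k)} (h : ∀ g ∈ G, ∃ m, g.IsHomogeneous m) :
    HomI k (Ideal.span G) := by
  intro f hf
  refine Submodule.span_induction (p := fun f _ => ∀ n, homogeneousComponent n f ∈ Ideal.span G)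
    ?_ ?_ ?_ ?_ (show f ∈ Submodule.span _ G from hf)
  · intro g hg n
    obtain ⟨m, hm⟩ := h g hg
    rw [homogeneousComponent_of_mem hm]
    split_ifs
    · exact Ideal.subset_span hg
    · exact Ideal.zero_mem _
  · intro n
    rw [map_zero]; exact Ideal.zero_mem _
  · intro x y _ _ hx hy n
    rw [map_add]; exact add_mem (hx n) (hy n)
  · intro q x _ hx n
    rw [smul_eq_mul, ← MvPolynomial.sum_homogeneousComponent q, Finset.sum_mul, map_sum]
    refine Ideal.sum_mem _ fun i _ => ?_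
    rw [hc_mul k (homogeneousComponent_isHomogeneous i q)]
    split_ifs
    · exact Ideal.mul_mem_left _ _ (hx _)
    · exact Ideal.zero_mem _

theorem HomI_sup {J J' : Ideal (MvPolynomial S k)} (h : HomI k J) (h' : HomI k J') :
    HomI k (J ⊔ J') := by
  intro f hf n
  obtain ⟨x, hx, y, hy, rfl⟩ := Submodule.mem_sup.1 hf
  rw [map_add]
  exact Submodule.add_mem_sup (h x hx n) (h' y hy n)

/-- an ideal generated by homogeneous elements -/
def GenH (J : Ideal (MvPolynomial S k)) : Prop :=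
  ∃ G : Set (MvPolynomial S k), (∀ g ∈ G, ∃ m, g.IsHomogeneous m) ∧ J = Ideal.span G

theorem GenH.sup {J J' : Ideal (MvPolynomial S k)} (h : GenH k J) (h' : GenH k J') :
    GenH k (J ⊔ J') := by
  obtain ⟨G, hG, rfl⟩ := h
  obtain ⟨G', hG', rfl⟩ := h'
  refine ⟨G ∪ G', ?_, (Submodule.span_union G G').symm⟩
  rintro g (hg | hg)
  · exact hG g hg
  · exact hG' g hg

theorem GenH.map {J : Ideal (MvPolynomial S' k)} (h : GenH k J) (e : S' → S) :
    GenH k (Ideal.map (rename e : MvPolynomial S' k →ₐ[k] MvPolynomial S k) J) := by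
  obtain ⟨G, hG, rfl⟩ := h
  refine ⟨(rename e : MvPolynomial S' k →ₐ[k] MvPolynomial S k) '' G, ?_, Ideal.map_span _ _⟩
  rintro _ ⟨g, hg, rfl⟩
  obtain ⟨m, hm⟩ := hG g hg
  exact ⟨m, hm.rename_isHomogeneous⟩

theorem GenH.homI {J : Ideal (MvPolynomial S k)} (h : GenH k J) : HomI k J := by
  obtain ⟨G, hG, rfl⟩ := h
  exact HomI_span k hG

theorem GenH_J0 (a : S → S → ℕ) (θ : S → ℤ) (B : Finset S) : GenH k (J0 k a θ B) := by
  refine ⟨_, ?_, rfl⟩
  rintro g ⟨X, _, _, rfl⟩
  exact ⟨_, QP_hom k a _⟩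

theorem GenH_Jp (a : S → S → ℕ) (θ : S → ℤ) (B : Finset S) : GenH k (Jp k a θ B) := by
  refine ⟨_, ?_, rfl⟩
  rintro g ⟨X, _, _, _, rfl⟩
  exact ⟨_, QP_hom k a _⟩

theorem GenH_Jm (a : S → S → ℕ) (θ : S → ℤ) (B : Finset S) : GenH k (Jm k a θ B) := by
  refine ⟨_, ?_, rfl⟩
  rintro g ⟨X, _, _, _, rfl⟩
  exact ⟨_, QP_hom k a _⟩

/-! ### transport -/

theorem PA_rename (φ : S' ≃ S) (c' : S' → I') (c : S → I)
    (hc : ∀ s t, c' s = c' t ↔ c (φ s) = c (φ t)) {m : ℕ} {f : MvPolynomial S' k}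
    (hf : f ∈ PA k c' m) : rename φ f ∈ PA k c m := by
  refine ⟨?_, hf.2.rename_isHomogeneous⟩
  change rename φ f ∈ Alt k c
  rw [mem_Alt]
  intro σ hσ
  have h1 : rename σ (rename φ f) = rename φ (rename (φ.trans (σ.trans φ.symm)) f) := by
    rw [rename_rename, rename_rename]
    congr 1
    apply congrArg
    funext s
    simp
  have h2 : ∀ s, c' ((φ.trans (σ.trans φ.symm)) s) = c' s := by
    intro s
    rw [hc]
    simp [hσ]
  rw [h1, (mem_Alt k c' f).1 hf.1 _ h2, map_smul]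
  congr 3
  exact Equiv.Perm.sign_trans_trans_symm σ φ

theorem hd_equiv [CharZero k] (φ : S' ≃ S) (c' : S' → I') (c : S → I)
    (hc : ∀ s t, c' s = c' t ↔ c (φ s) = c (φ t)) (J' : Ideal (MvPolynomial S' k)) (m : ℕ) :
    hd k c (Ideal.map (rename φ : MvPolynomial S' k →ₐ[k] MvPolynomial S k) J') m =
      hd k c' J' m := by
  obtain ⟨b, hb⟩ := exists_adapted k c' J' m
  have h : Adapted k c (Ideal.map (rename φ : MvPolynomial S' k →ₐ[k] MvPolynomial S k) J') m
      (fun i => rename φ (b i)) := by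
    refine ⟨fun i => PA_rename k φ c' c hc (hb.mem i), ?_, ?_⟩
    · rw [Fintype.linearIndependent_iff]
      intro x hx
      have h1 := hb.indep
      rw [Fintype.linearIndependent_iff] at h1
      refine h1 x ?_
      have h2 : ((Ideal.map (rename φ : MvPolynomial S' k →ₐ[k] MvPolynomial S k)
          J').restrictScalars k).mkQ (rename φ (∑ i, x i • b i)) = 0 := by
        rw [← hx, map_sum, map_sum]
        simp only [map_smul]
      have h3 : rename φ (∑ i, x i • b i) ∈
          Ideal.map (rename φ : MvPolynomial S' k →ₐ[k] MvPolynomial S k) J' :=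
        (Submodule.Quotient.mk_eq_zero _).1 h2
      have h4 := mem_of_rename_mem_map k φ.injective J' h3
      have h5 : (J'.restrictScalars k).mkQ (∑ i, x i • b i) = 0 :=
        (Submodule.Quotient.mk_eq_zero _).2 h4
      rw [← h5, map_sum]
      simp only [map_smul]
    · intro f hf
      have hc2 : ∀ s t, c s = c t ↔ c' (φ.symm s) = c' (φ.symm t) := by
        intro s t; rw [hc]; simp
      obtain ⟨g, hg, hfg⟩ := hb.span _ (PA_rename k φ.symm c c' hc2 hf)
      refine ⟨rename φ g, ?_, ?_⟩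
      · have h1 : Set.range (fun i => rename φ (b i)) =
            (rename φ : MvPolynomial S' k →ₐ[k] MvPolynomial S k).toLinearMap '' Set.range b := by
          rw [← Set.range_comp]; rfl
        rw [h1, ← Submodule.map_span]
        exact Submodule.mem_map_of_mem hg
      · have h1 : f - rename φ g = rename φ (rename φ.symm f - g) := by
          rw [map_sub, rename_rename]
          congr 1
          have : (φ ∘ φ.symm : S → S) = id := by funext s; simp
          rw [this, rename_id_apply]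
        rw [h1]
        exact Ideal.mem_map_of_mem _ hfg
  rw [h.card_eq, Fintype.card_fin]

/-! ### the ideal of a triple -/

theorem II_eq_map {S1 S0 S2 : Type} [Fintype S1] [DecidableEq S1] [Fintype S0] [DecidableEq S0]
    [Fintype S2] [DecidableEq S2] {a : S → S → ℕ} {θ : S → ℤ}
    {a1 : S1 → S1 → ℕ} {a0 : S0 → S0 → ℕ} {a2 : S2 → S2 → ℕ} {θ1 : S1 → ℤ} {θ0 : S0 → ℤ}
    {θ2 : S2 → ℤ} (φ : S1 ⊕ (S0 ⊕ S2) ≃ S)
    (h1 : ∀ s t, a1 s t = a (φ (Sum.inl s)) (φ (Sum.inl t)))
    (h0 : ∀ s t, a0 s t = a (φ (Sum.inr (Sum.inl s))) (φ (Sum.inr (Sum.inl t))))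
    (h2 : ∀ s t, a2 s t = a (φ (Sum.inr (Sum.inr s))) (φ (Sum.inr (Sum.inr t))))
    (k1 : ∀ s, θ1 s = θ (φ (Sum.inl s))) (k0 : ∀ s, θ0 s = θ (φ (Sum.inr (Sum.inl s))))
    (k2 : ∀ s, θ2 s = θ (φ (Sum.inr (Sum.inr s)))) (e : Finset S × Finset S)
    (e1 : e.1 = univ.image fun s => φ (Sum.inl s))
    (e0 : e.2 \ e.1 = univ.image fun s => φ (Sum.inr (Sum.inl s)))
    (e2 : e.2ᶜ = univ.image fun s => φ (Sum.inr (Sum.inr s))) :
    II k a θ e = Ideal.map (rename φ : MvPolynomial (S1 ⊕ (S0 ⊕ S2)) k →ₐ[k] MvPolynomial S k)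
      (Ideal.map (rename Sum.inl : MvPolynomial S1 k →ₐ[k] MvPolynomial (S1 ⊕ (S0 ⊕ S2)) k)
          (Jp k a1 θ1 univ) ⊔
        Ideal.map (rename Sum.inr : MvPolynomial (S0 ⊕ S2) k →ₐ[k] MvPolynomial (S1 ⊕ (S0 ⊕ S2)) k)
          (Ideal.map (rename Sum.inl : MvPolynomial S0 k →ₐ[k] MvPolynomial (S0 ⊕ S2) k)
              (J0 k a0 θ0 univ) ⊔
            Ideal.map (rename Sum.inr : MvPolynomial S2 k →ₐ[k] MvPolynomial (S0 ⊕ S2) k)
              (Jm k a2 θ2 univ))) := by
  have i1 : Function.Injective fun s => φ (Sum.inl s) := φ.injective.comp Sum.inl_injective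
  have i0 : Function.Injective fun s => φ (Sum.inr (Sum.inl s)) :=
    φ.injective.comp (Sum.inr_injective.comp Sum.inl_injective)
  have i2 : Function.Injective fun s => φ (Sum.inr (Sum.inr s)) :=
    φ.injective.comp (Sum.inr_injective.comp Sum.inr_injective)
  unfold II
  rw [e1, ← e1, e0, e2, e1, ← map_Jp k i1 h1 k1, ← map_J0 k i0 h0 k0, ← map_Jm k i2 h2 k2]
  simp only [Ideal.map_sup, Ideal.map_mapₐ]
  have c1 : (rename φ : MvPolynomial (S1 ⊕ (S0 ⊕ S2)) k →ₐ[k] MvPolynomial S k).comp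
      (rename Sum.inl) = rename fun s => φ (Sum.inl s) := by
    apply MvPolynomial.algHom_ext
    intro s
    simp
  have c0 : (rename φ : MvPolynomial (S1 ⊕ (S0 ⊕ S2)) k →ₐ[k] MvPolynomial S k).comp
      ((rename Sum.inr).comp (rename Sum.inl)) = rename fun s => φ (Sum.inr (Sum.inl s)) := by
    apply MvPolynomial.algHom_ext
    intro s
    simp
  have c2 : (rename φ : MvPolynomial (S1 ⊕ (S0 ⊕ S2)) k →ₐ[k] MvPolynomial S k).comp
      ((rename Sum.inr).comp (rename Sum.inr)) = rename fun s => φ (Sum.inr (Sum.inr s)) := by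
    apply MvPolynomial.algHom_ext
    intro s
    simp
  rw [c1, c0, c2, sup_assoc]

end

end Vale.Agent.P066.Lab.HN
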