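import Vale.Agent.P066.Lab.H269.Deg

/-!
# Refinement of one block

`onl c m i` is the colouring which agrees with `m` on the block of colour `i` of `c` and with `c`
elsewhere.
-/

set_option autoImplicit false
set_option linter.unusedSectionVars false
set_option linter.unusedVariables false

open Finset MvPolynomial

namespace Vale.Agent.P066.Lab

noncomputable section

variable {S : Type} [Fintype S] [DecidableEq S] {k : Type} [Field k] {a : S → S → ℕ} {θ : S → ℤ}

/-! ### colourings with the same kernel -/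

section Congr

variable {m m' : S → ℕ}

theorem JC_congr (h : ∀ s t, m s = m t ↔ m' s = m' t) : JC k a θ m = JC k a θ m' :=
  le_antisymm (JC_le_of_ref fun s t hst => (h s t).2 hst) (JC_le_of_ref fun s t hst => (h s t).1 hst)

theorem nb_congr (h : ∀ s t, m s = m t ↔ m' s = m' t) : nb m = nb m' :=
  le_antisymm (nb_le_of_ref fun s t hst => (h s t).2 hst) (nb_le_of_ref fun s t hst => (h s t).1 hst)

theorem Zc_congr (h : ∀ s t, m s = m t ↔ m' s = m' t) (hm : Zc θ m) : Zc θ m' := by
  intro i
  rcases (blk m' i).eq_empty_or_nonempty with h0 | ⟨s, hs⟩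
  · rw [h0]; simp [wS]
  · have h1 : blk m' i = blk m (m s) := by
      ext t
      rw [mem_blk, mem_blk, ← mem_blk.1 hs]
      exact (h t s).symm
    rw [h1]
    exact hm _

theorem CC_congr (hsym : SymZ a θ) (h : ∀ s t, m s = m t ↔ m' s = m' t) (hm : Zc θ m) :
    CC a m = CC a m' := by
  have h1 := two_CC hsym hm
  have h2 := two_CC hsym (Zc_congr h hm)
  have h3 : (univ.filter fun p : S × S => m p.1 ≠ m p.2) =
      univ.filter fun p : S × S => m' p.1 ≠ m' p.2 :=
    filter_congr fun p _ => not_congr (h p.1 p.2)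
  rw [h3, ← h2] at h1
  omega

end Congr

/-! ### refinement of one block -/

/-- equal to `m` on the block `i` of `c`, trivial elsewhere -/
def onl (c m : S → ℕ) (i : ℕ) : S → ℕ := fun s => if c s = i then 2 * m s else 2 * c s + 1

theorem onl_of_eq {c m : S → ℕ} {i : ℕ} {s : S} (h : c s = i) : onl c m i s = 2 * m s := by
  simp [onl, h]

theorem onl_of_ne {c m : S → ℕ} {i : ℕ} {s : S} (h : c s ≠ i) : onl c m i s = 2 * c s + 1 := by
  simp [onl, h]

variable {c m : S → ℕ}

theorem onl_eq_iff (i : ℕ) (s t : S) : onl c m i s = onl c m i t ↔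
    (c s = i ∧ c t = i ∧ m s = m t) ∨ (c s ≠ i ∧ c t ≠ i ∧ c s = c t) := by
  unfold onl
  split_ifs with h1 h2 h2 <;> simp [h1, h2] <;> omega

theorem onl_ref' (i : ℕ) : Ref (onl c m i) c := by
  intro s t h
  rcases (onl_eq_iff i s t).1 h with h | h
  · rw [h.1, h.2.1]
  · exact h.2.2

theorem onl_ref (h : Ref m c) (i : ℕ) : Ref (onl c m i) c := onl_ref' i

theorem ref_onl (h : Ref m c) (i : ℕ) : Ref m (onl c m i) := by
  intro s t hst
  rw [onl_eq_iff]
  have := h s t hst
  by_cases hs : c s = i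
  · left; exact ⟨hs, this ▸ hs, hst⟩
  · right; exact ⟨hs, this ▸ hs, this⟩

theorem onl_zc (hc : Zc θ c) (hm : Zc θ m) (h : Ref m c) (i : ℕ) : Zc θ (onl c m i) := by
  intro j
  rcases (blk (onl c m i) j).eq_empty_or_nonempty with h0 | ⟨s, hs⟩
  · rw [h0]; simp [wS]
  have hs' := mem_blk.1 hs
  by_cases hi : c s = i
  · have h1 : blk (onl c m i) j = blk m (m s) := by
      ext t
      rw [mem_blk, mem_blk, ← hs', onl_eq_iff]
      constructor
      · rintro (h2 | h2)
        · exact h2.2.2
        · exact absurd hi h2.2.1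
      · intro h2
        left
        exact ⟨(h t s h2).trans hi, hi, h2⟩
    rw [h1]
    exact hm _
  · have h1 : blk (onl c m i) j = blk c (c s) := by
      ext t
      rw [mem_blk, mem_blk, ← hs', onl_eq_iff]
      constructor
      · rintro (h2 | h2)
        · exact absurd h2.2.1 hi
        · exact h2.2.2
      · intro h2
        right
        exact ⟨h2 ▸ hi, hi, h2⟩
    rw [h1]
    exact hc _

theorem card_image_eq_sum (h : Ref m c) :
    (univ.image m).card = ∑ i ∈ univ.image c, ((blk c i).image m).card := by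
  rw [← card_biUnion]
  · congr 1
    ext x
    simp only [mem_image, mem_univ, true_and, mem_biUnion, mem_blk]
    constructor
    · rintro ⟨s, rfl⟩
      exact ⟨c s, ⟨s, rfl⟩, s, rfl, rfl⟩
    · rintro ⟨_, _, s, _, rfl⟩
      exact ⟨s, rfl⟩
  · intro i _ j _ hij
    rw [Function.onFun, disjoint_left]
    intro x hx hx'
    obtain ⟨s, hs, rfl⟩ := mem_image.1 hx
    obtain ⟨t, ht, hst⟩ := mem_image.1 hx'
    exact hij ((mem_blk.1 hs).symm.trans ((h t s hst).symm.trans (mem_blk.1 ht)))

theorem card_image_onl {i : ℕ} (hi : i ∈ univ.image c) :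
    (univ.image (onl c m i)).card + 1 = ((blk c i).image m).card + (univ.image c).card := by
  have h1 : univ.image (onl c m i) = (((blk c i).image m).image fun x => 2 * x) ∪
      (((univ.image c).erase i).image fun x => 2 * x + 1) := by
    ext x
    simp only [mem_image, mem_univ, true_and, mem_union, mem_erase, mem_blk]
    constructor
    · rintro ⟨s, rfl⟩
      by_cases hs : c s = i
      · left; exact ⟨m s, ⟨s, hs, rfl⟩, (onl_of_eq hs).symm⟩
      · right; exact ⟨c s, ⟨hs, s, rfl⟩, (onl_of_ne hs).symm⟩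
    · rintro (⟨_, ⟨s, hs, rfl⟩, rfl⟩ | ⟨_, ⟨hs, s, rfl⟩, rfl⟩)
      · exact ⟨s, onl_of_eq hs⟩
      · exact ⟨s, onl_of_ne hs⟩
  have h2 : Disjoint (((blk c i).image m).image fun x => 2 * x)
      (((univ.image c).erase i).image fun x => 2 * x + 1) := by
    rw [disjoint_left]
    intro x hx hx'
    obtain ⟨y, _, rfl⟩ := mem_image.1 hx
    obtain ⟨z, _, hz⟩ := mem_image.1 hx'
    omega
  have i1 : Function.Injective fun x : ℕ => 2 * x := fun x y hxy => by
    have h' : 2 * x = 2 * y := hxy
    omega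
  have i2 : Function.Injective fun x : ℕ => 2 * x + 1 := fun x y hxy => by
    have h' : 2 * x + 1 = 2 * y + 1 := hxy
    omega
  rw [h1, card_union_of_disjoint h2, card_image_of_injective _ i1, card_image_of_injective _ i2,
    card_erase_of_mem hi]
  have h3 : 0 < (univ.image c).card := card_pos.2 ⟨i, hi⟩
  omega

theorem nb_onl (h : Ref m c) : nb m - nb c = ∑ i ∈ univ.image c, (nb (onl c m i) - nb c) := by
  have h1 : ∀ i ∈ univ.image c, nb (onl c m i) - nb c = (((blk c i).image m).card : ℤ) - 1 := by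
    intro i hi
    have := card_image_onl (m := m) hi
    unfold nb
    have h2 : (((univ.image (onl c m i)).card + 1 : ℕ) : ℤ) =
      ((((blk c i).image m).card + (univ.image c).card : ℕ) : ℤ) := by rw [this]
    push_cast at h2
    linarith
  rw [sum_congr rfl h1, sum_sub_distrib]
  unfold nb
  rw [card_image_eq_sum h]
  push_cast
  simp

theorem CC_onl (hsym : SymZ a θ) (hc : Zc θ c) (hm : Zc θ m) (h : Ref m c) :
    CC a m - CC a c = ∑ i ∈ univ.image c, (CC a (onl c m i) - CC a c) := by
  classical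
  -- the pairs inside the blocks of `c`
  have key : ∀ m' : S → ℕ, Ref m' c → Zc θ m' → 2 * (CC a m' - CC a c) =
      ∑ p ∈ univ.filter (fun p : S × S => c p.1 = c p.2 ∧ m' p.1 ≠ m' p.2), (a p.1 p.2 : ℤ) := by
    intro m' h' hm'
    have h1 := two_CC hsym hm'
    have h2 := two_CC hsym hc
    have h3 : (univ.filter fun p : S × S => m' p.1 ≠ m' p.2) =
        (univ.filter fun p : S × S => c p.1 ≠ c p.2) ∪
        univ.filter fun p : S × S => c p.1 = c p.2 ∧ m' p.1 ≠ m' p.2 := by
      ext p
      simp only [mem_filter, mem_univ, true_and, mem_union]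
      have := h' p.1 p.2
      tauto
    have h4 : Disjoint (univ.filter fun p : S × S => c p.1 ≠ c p.2)
        (univ.filter fun p : S × S => c p.1 = c p.2 ∧ m' p.1 ≠ m' p.2) := by
      rw [disjoint_left]
      intro p hp hp'
      exact (mem_filter.1 hp).2 (mem_filter.1 hp').2.1
    rw [h3, sum_union h4] at h1
    linarith
  have h1 := key m h hm
  have h2 : ∀ i ∈ univ.image c, 2 * (CC a (onl c m i) - CC a c) =
      ∑ p ∈ (univ.filter (fun p : S × S => c p.1 = c p.2 ∧ m p.1 ≠ m p.2)).filter
        (fun p => c p.1 = i), (a p.1 p.2 : ℤ) := by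
    intro i _
    rw [key _ (onl_ref h i) (onl_zc hc hm h i)]
    refine sum_congr ?_ fun _ _ => rfl
    ext p
    simp only [mem_filter, mem_univ, true_and, ne_eq, onl_eq_iff]
    constructor
    · rintro ⟨h3, h4⟩
      by_cases hi : c p.1 = i
      · have hi' : c p.2 = i := h3 ▸ hi
        exact ⟨⟨h3, fun h5 => h4 (Or.inl ⟨hi, hi', h5⟩)⟩, hi⟩
      · exact absurd (Or.inr ⟨hi, h3 ▸ hi, h3⟩) h4
    · rintro ⟨⟨h3, h4⟩, hi⟩
      refine ⟨h3, ?_⟩
      rintro (h5 | h5)
      · exact h4 h5.2.2
      · exact h5.1 hi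
  have h3 : (2 : ℤ) * ∑ i ∈ univ.image c, (CC a (onl c m i) - CC a c) =
      2 * (CC a m - CC a c) := by
    rw [mul_sum, sum_congr rfl h2, h1]
    exact sum_fiberwise_of_maps_to (fun p _ => mem_image_of_mem c (mem_univ p.1)) _
  linarith

/-- the ideal of `m` is the sum of the ideals of the refinements of the single blocks -/
theorem JC_onl_le (h : Ref m c) (i : ℕ) : JC k a θ (onl c m i) ≤ JC k a θ m :=
  JC_le_of_ref (ref_onl h i)

theorem JC_eq_iSup_onl (h : Ref m c) : JC k a θ m = ⨆ i, JC k a θ (onl c m i) := by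
  refine le_antisymm ?_ (iSup_le fun i => JC_onl_le h i)
  rw [JC_le_iff]
  intro j X hX h0
  obtain ⟨s, hs⟩ := wS_nonempty h0
  have hj : m s = j := mem_blk.1 (hX hs)
  have hb : blk m j = blk (onl c m (c s)) (2 * j) := by
    ext t
    rw [mem_blk, mem_blk, ← hj, ← onl_of_eq (c := c) (m := m) (i := c s) rfl, onl_eq_iff]
    constructor
    · intro h1
      left
      exact ⟨h t s h1, rfl, h1⟩
    · rintro (h1 | h1)
      · exact h1.2.2
      · exact absurd rfl h1.2.1
  refine le_iSup (fun i => JC k a θ (onl c m i)) (c s) ?_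
  rw [hb]
  rw [hb] at hX
  exact QP_mem_JC hX h0 (Subset.refl _)

end

end Vale.Agent.P066.Lab
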