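import Vale.Agent.P066.Lab.QT0
import Vale.Agent.P066.Lab.QT1b

/-!
# The finite quiver theorem from the numerical outputs
-/

set_option autoImplicit false

open Finset

namespace Vale.Agent.P066.Lab

open Vale.Agent.P066.Theta

noncomputable section

theorem coeff_hser (c : ℤ) (h : ℕ → ℕ) (m : ℕ) : (hser c h).coeff (2 * m + c) = h m := by
  unfold hser
  rw [uL_zpow, HahnSeries.coeff_single_mul, one_mul, show (2 * (m : ℤ) + c - c) = ((2 * m : ℕ) : ℤ)
    by push_cast; ring, LaurentSeries.coeff_coe_powerSeries, PowerSeries.coeff_mk,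
    if_pos (even_two_mul m), Nat.mul_div_cancel_left m two_pos]

theorem coeff_hser_of_ne (c : ℤ) (h : ℕ → ℕ) (N : ℤ) (hN : ∀ m : ℕ, N ≠ 2 * m + c) :
    (hser c h).coeff N = 0 := by
  unfold hser
  rw [uL_zpow, HahnSeries.coeff_single_mul, one_mul]
  rcases lt_or_ge (N - c) 0 with h1 | h1
  · rw [PowerSeries.coeff_coe, if_pos h1]
  · obtain ⟨j, hj⟩ := Int.eq_ofNat_of_zero_le h1
    rw [hj, LaurentSeries.coeff_coe_powerSeries, PowerSeries.coeff_mk, if_neg]
    rintro ⟨i, hi⟩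
    exact hN i (by omega)

theorem SymD_of_omega {n : ℕ} (a : Fin n → Fin n → ℕ) (θ : Fin n → ℤ)
    (h : ∀ d d' : Fin n →₀ ℕ, wt θ d = 0 → wt θ d' = 0 →
      omega (quivB a) (toZ d) (toZ d') = 0) : SymD a θ := by
  intro d e hd he
  have h1 := h d e hd he
  rw [quivB_eq, omega_Bq, aq_eq_arD, aq_eq_arD] at h1
  omega

/-- classes of weight zero -/
def ZS {n : ℕ} (θ : Fin n → ℤ) : AddSubmonoid (Fin n →₀ ℕ) where
  carrier := {d | wt θ d = 0}
  zero_mem' := by simp [wt]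
  add_mem' {d e} hd he := by
    have : wt θ (d + e) = wt θ d + wt θ e := by simp [wt, add_mul, sum_add_distrib]
    show wt θ (d + e) = 0
    rw [this, show wt θ d = 0 from hd, show wt θ e = 0 from he, add_zero]

theorem gen_eq_hser {n : ℕ} (a : Fin n → Fin n → ℕ) (θ : Fin n → ℤ) (T : H347.MAlph n)
    (d : Fin n →₀ ℕ)
    (h1 : ∀ m : ℕ, T.loop.num d (2 * m + cq a d) = hR0 a θ d m)
    (h2 : ∀ N : ℤ, (∀ m : ℕ, N ≠ 2 * m + cq a d) → T.loop.num d N = 0) :
    T.loop.gen d = hser (cq a d) (hR0 a θ d) := by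
  ext N
  rw [H347.Alph.coeff_gen]
  by_cases h : ∃ m : ℕ, N = 2 * m + cq a d
  · obtain ⟨m, rfl⟩ := h
    rw [coeff_hser, h1]
  · push Not at h
    rw [h2 N h, coeff_hser_of_ne _ _ _ h, Nat.cast_zero]

theorem gen_eq_zero {n : ℕ} (θ : Fin n → ℤ) (T : H347.MAlph n)
    (hT : ∀ y, wt θ (T.k y) = 0) (d : Fin n →₀ ℕ) (hd : wt θ d ≠ 0) : T.loop.gen d = 0 := by
  ext N
  rw [H347.Alph.coeff_gen, H347.Alph.num, HahnSeries.coeff_zero, Nat.cast_eq_zero,
    Finset.card_eq_zero, Set.Finite.toFinset_eq_empty, Set.eq_empty_iff_forall_notMem]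
  rintro μ ⟨h1, -⟩
  apply hd
  rw [← h1]
  refine (ZS θ).sum_mem fun y _ => (ZS θ).nsmul_mem (show wt θ (T.k y.1) = 0 from hT _) _

/-- **The finite quiver theorem** from the numerical outputs. -/
theorem quiverTheorem_of (hLA : LAout) (hLS : LSout) (hQ1 : QT1out) (hQ2 : QT2out) :
    QuiverTheorem := by
  intro n a e hab he θ hsym Ap A0 Am htr D
  have hsymD := SymD_of_omega a θ hsym
  obtain ⟨T, hT1, hT2, hT3⟩ := hLS n a θ hsymD
  have ha1 : ∀ i, a i i ≤ 1 := fun i => by rw [he i]; split_ifs <;> simp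
  rw [quivProd_eq a e he] at htr
  obtain ⟨l, hl1, hl2⟩ := H347.exists_units (quivB a) toL
    (by rw [toL_v, uL_inv]) (ZS θ) (fun d hd e he => hsym d e hd he) T hT1 D (hT2 D)
  refine ⟨l, hl1, fun γ hγ => toL_injective ?_⟩
  rw [hl2 γ hγ]
  by_cases hw : wt θ γ = 0
  · rw [hQ2 hLA n a θ (Aq a) (hQ1 n a hab ha1) Ap A0 Am htr γ hw,
      gen_eq_hser a θ T γ (hT3 γ hw).1 (hT3 γ hw).2]
  · rw [gen_eq_zero θ T hT1 γ hw]
    by_contra h
    exact hw (htr.g0_supp γ fun h' => h (by rw [h', map_zero]))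

end

end Vale.Agent.P066.Lab
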