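import Vale.Agent.P066.Lab.Deriv
import Vale.Agent.P066.Lab.Div

/-!
# LB1, parts (S1), (S2)

`(S1)` an element of level `n` all of whose symbols of level `n` vanish has level `n - 1`;
`(S2)` a symbol of an element of level `n` is `P_π(U)` times a homogeneous polynomial with
coefficients in the image of `G_π`; it vanishes if its degree is `< C_π`.
-/

set_option autoImplicit false
set_option linter.unusedSectionVars false

open Finset MvPolynomial

namespace Vale.Agent.P066.Lab

noncomputable section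

variable {S : Type} [Fintype S] [DecidableEq S] {k : Type} [Field k] {a : S → S → ℕ} {θ : S → ℤ}

/-! ### the symbol -/

theorem coeff_Sb (c : S → ℕ) (d : ℕ) (f : MvPolynomial S k) (α : ℕ →₀ ℕ) :
    coeff α (Sb k a θ c d f) =
      if α.degree = d then Ideal.Quotient.mk (JC k a θ c) (coeff α (Tc k c f)) else 0 := by
  rw [Sb, coeff_homogeneousComponent, coeff_map]

theorem Sb_isHomogeneous (c : S → ℕ) (d : ℕ) (f : MvPolynomial S k) :
    (Sb k a θ c d f).IsHomogeneous d := homogeneousComponent_isHomogeneous _ _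

/-- (S1) -/
theorem Fil_of_Sb_eq_zero {n : ℤ} {f : MvPolynomial S k} (hf : Fil k a θ n f)
    (h : ∀ c : S → ℕ, Zc θ c → ∀ d : ℕ, 2 * (d : ℤ) + nb c = n + 2 * CC a c → Sb k a θ c d f = 0) :
    Fil k a θ (n - 1) f := by
  intro m hm α hα
  by_cases h1 : n + 2 * CC a m < 2 * (α.degree : ℤ) + nb m
  · exact hf m hm α h1
  · have h2 := h m hm α.degree (by omega)
    have h3 := coeff_Sb (k := k) (a := a) (θ := θ) m α.degree f α
    rw [if_pos rfl, h2, coeff_zero] at h3
    exact Ideal.Quotient.eq_zero_iff_mem.mp h3.symm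

theorem Sb_eq_zero_of_mem {c : S → ℕ} {f : MvPolynomial S k} (hf : f ∈ JC k a θ c) (d : ℕ) :
    Sb k a θ c d f = 0 := by
  ext α
  rw [coeff_Sb, coeff_zero]
  split_ifs
  · exact Ideal.Quotient.eq_zero_iff_mem.mpr (coeff_Tc_mem hf α)
  · rfl

/-! ### `G_c` is a subspace -/

theorem Lev.zero {c : S → ℕ} {n : ℤ} : Lev k a θ c n 0 := Lev.of_mem n (zero_mem _)

theorem Gc.add {c : S → ℕ} {f g : MvPolynomial S k} (hf : Gc k a θ c f) (hg : Gc k a θ c g) :
    Gc k a θ c (f + g) := fun m hm hr => (hf m hm hr).add (hg m hm hr)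

theorem Gc.zero {c : S → ℕ} : Gc k a θ c 0 := fun _ _ _ => Lev.zero

theorem Gc.C_mul {c : S → ℕ} (r : k) {f : MvPolynomial S k} (hf : Gc k a θ c f) :
    Gc k a θ c (C r * f) := fun m hm hr => (hf m hm hr).C_mul r

/-- the image of `G_c` in the quotient by `J_c` -/
def GQ (k : Type) [Field k] (a : S → S → ℕ) (θ : S → ℤ) (c : S → ℕ) :
    Submodule k (MvPolynomial S k ⧸ JC k a θ c) where
  carrier := {r | ∃ g, Gc k a θ c g ∧ Ideal.Quotient.mk (JC k a θ c) g = r}
  add_mem' := by
    rintro _ _ ⟨g, hg, rfl⟩ ⟨g', hg', rfl⟩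
    exact ⟨g + g', hg.add hg', map_add _ _ _⟩
  zero_mem' := ⟨0, Gc.zero, map_zero _⟩
  smul_mem' := by
    rintro r _ ⟨g, hg, rfl⟩
    refine ⟨C r * g, hg.C_mul r, ?_⟩
    rw [← smul_eq_C_mul]
    rfl

theorem mem_GQ {c : S → ℕ} {r : MvPolynomial S k ⧸ JC k a θ c} :
    r ∈ GQ k a θ c ↔ ∃ g, Gc k a θ c g ∧ Ideal.Quotient.mk (JC k a θ c) g = r := Iff.rfl

/-! ### numbers of arrows between blocks -/

/-- number of arrows from the block of colour `i` to the block of colour `j` -/
def en (a : S → S → ℕ) (c : S → ℕ) (x : ℕ × ℕ) : ℕ :=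
  ∑ p ∈ univ.filter (fun p : S × S => c p.1 = x.1 ∧ c p.2 = x.2), a p.1 p.2

theorem en_eq_ar (c : S → ℕ) (x : ℕ × ℕ) : (en a c x : ℤ) = ar a (blk c x.1) (blk c x.2) := by
  unfold en ar
  rw [← sum_product', Nat.cast_sum]
  refine sum_congr ?_ fun _ _ => rfl
  ext ⟨s, t⟩
  simp

theorem en_swap (hs : SymZ a θ) {c : S → ℕ} (hc : Zc θ c) (x : ℕ × ℕ) :
    en a c x.swap = en a c x := by
  by_cases h : x.1 = x.2
  · have : x.swap = x := Prod.ext h.symm h
    rw [this]
  · have h1 : ar a (blk c x.1) (blk c x.2) = ar a (blk c x.2) (blk c x.1) := by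
      refine hs _ _ ?_ (hc _) (hc _)
      rw [disjoint_left]
      intro s h1 h2
      exact h ((mem_blk.mp h1).symm.trans (mem_blk.mp h2))
    have h2 := en_eq_ar (a := a) c x
    have h3 := en_eq_ar (a := a) c x.swap
    simp only [Prod.fst_swap, Prod.snd_swap] at h3
    rw [← h1, ← h2] at h3
    exact_mod_cast h3

/-- the pairs of colours `i < j` -/
def Pc (c : S → ℕ) : Finset (ℕ × ℕ) := (univ.image c ×ˢ univ.image c).filter fun x => x.1 < x.2

theorem mem_Pc {c : S → ℕ} {x : ℕ × ℕ} :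
    x ∈ Pc c ↔ ((∃ s, c s = x.1) ∧ ∃ s, c s = x.2) ∧ x.1 < x.2 := by
  simp [Pc]

theorem fib_lt {c : S → ℕ} {x : ℕ × ℕ} (hx : x ∈ Pc c) :
    (univ.filter fun p : S × S => c p.1 < c p.2).filter (fun p => (c p.1, c p.2) = x) =
      univ.filter (fun p : S × S => c p.1 = x.1 ∧ c p.2 = x.2) := by
  ext p
  simp only [mem_filter, mem_univ, true_and, Prod.ext_iff]
  have := (mem_Pc.mp hx).2
  constructor
  · exact fun h => h.2
  · exact fun h => ⟨by omega, h⟩

theorem CC_eq_sum (c : S → ℕ) : CC a c = ∑ x ∈ Pc c, (en a c x : ℤ) := by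
  unfold CC
  rw [← sum_fiberwise_of_maps_to (s := univ.filter fun p : S × S => c p.1 < c p.2) (t := Pc c)
    (g := fun p => (c p.1, c p.2))]
  · refine sum_congr rfl fun x hx => ?_
    rw [fib_lt hx, en, Nat.cast_sum]
  · intro p hp
    rw [mem_Pc]
    exact ⟨⟨⟨_, rfl⟩, ⟨_, rfl⟩⟩, (mem_filter.mp hp).2⟩

theorem CC_gt_eq_sum (c : S → ℕ) :
    (∑ p ∈ univ.filter (fun p : S × S => c p.2 < c p.1), (a p.1 p.2 : ℤ)) =
      ∑ x ∈ Pc c, (en a c x.swap : ℤ) := by
  rw [← sum_fiberwise_of_maps_to (s := univ.filter fun p : S × S => c p.2 < c p.1) (t := Pc c)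
    (g := fun p => (c p.2, c p.1))]
  · refine sum_congr rfl fun x hx => ?_
    rw [en, Nat.cast_sum]
    refine sum_congr ?_ fun _ _ => rfl
    ext p
    simp only [mem_filter, mem_univ, true_and, Prod.ext_iff, Prod.fst_swap, Prod.snd_swap]
    have := (mem_Pc.mp hx).2
    constructor
    · exact fun h => ⟨h.2.2, h.2.1⟩
    · exact fun h => ⟨by omega, h.2, h.1⟩
  · intro p hp
    rw [mem_Pc]
    exact ⟨⟨⟨_, rfl⟩, ⟨_, rfl⟩⟩, (mem_filter.mp hp).2⟩

theorem two_CC_ne (hs : SymZ a θ) {c : S → ℕ} (hc : Zc θ c) :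
    2 * CC a c = ∑ p ∈ univ.filter (fun p : S × S => c p.1 ≠ c p.2), (a p.1 p.2 : ℤ) := by
  have h1 : (∑ p ∈ univ.filter (fun p : S × S => c p.2 < c p.1), (a p.1 p.2 : ℤ)) = CC a c := by
    rw [CC_gt_eq_sum, CC_eq_sum]
    exact sum_congr rfl fun x _ => by rw [en_swap hs hc]
  have h2 : univ.filter (fun p : S × S => c p.1 ≠ c p.2) =
      univ.filter (fun p : S × S => c p.1 < c p.2) ∪
        univ.filter (fun p : S × S => c p.2 < c p.1) := by
    ext p
    simp only [mem_filter, mem_univ, true_and, mem_union]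
    omega
  rw [h2, sum_union, h1, two_mul]
  · rfl
  · rw [disjoint_left]
    intro p h3 h4
    simp only [mem_filter, mem_univ, true_and] at h3 h4
    omega

theorem PU_eq_prod (R : Type) [CommRing R] (c : S → ℕ) :
    PU a R c = ∏ x ∈ Pc c, (X x.2 - X x.1) ^ en a c x := by
  unfold PU
  rw [← prod_fiberwise_of_maps_to (s := univ.filter fun p : S × S => c p.1 < c p.2) (t := Pc c)
    (g := fun p => (c p.1, c p.2))]
  · refine prod_congr rfl fun x hx => ?_
    rw [fib_lt hx, en, ← prod_pow_eq_pow_sum]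
    refine prod_congr rfl fun p hp => ?_
    rw [mem_filter] at hp
    rw [hp.2.1, hp.2.2]
  · intro p hp
    rw [mem_Pc]
    exact ⟨⟨⟨_, rfl⟩, ⟨_, rfl⟩⟩, (mem_filter.mp hp).2⟩

/-! ### merging two blocks -/

/-- the colour `q` is replaced by `p` -/
def mrg (c : S → ℕ) (p q : ℕ) : S → ℕ := fun s => if c s = q then p else c s

theorem ref_mrg (c : S → ℕ) (p q : ℕ) : Ref c (mrg c p q) := fun s t h => by
  unfold mrg
  rw [h]

theorem Zc.of_ref {m c : S → ℕ} (hm : Zc θ m) (h : Ref m c) : Zc θ c := by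
  intro i
  rw [wS_eq_sum_filter m]
  refine sum_eq_zero fun j hj => ?_
  obtain ⟨s0, hs0, rfl⟩ := mem_image.mp hj
  have : (blk c i).filter (fun s => m s = m s0) = blk m (m s0) := by
    ext s
    simp only [mem_filter, mem_blk] at hs0 ⊢
    constructor
    · exact fun hs => hs.2
    · exact fun hs => ⟨(h _ _ hs).trans hs0, hs⟩
  rw [this]
  exact hm _

theorem nb_mrg {c : S → ℕ} {p q : ℕ} (hpq : p ≠ q) (hp : ∃ s, c s = p) (hq : ∃ s, c s = q) :
    nb (mrg c p q) = nb c - 1 := by
  have h1 : univ.image (mrg c p q) = (univ.image c).erase q := by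
    ext i
    simp only [mem_image, mem_univ, true_and, mem_erase, mrg]
    constructor
    · rintro ⟨s, rfl⟩
      split_ifs with h
      · exact ⟨hpq, hp⟩
      · exact ⟨h, s, rfl⟩
    · rintro ⟨h1, s, rfl⟩
      exact ⟨s, if_neg h1⟩
  have h2 : q ∈ univ.image c := by
    obtain ⟨s, rfl⟩ := hq
    exact mem_image_of_mem c (mem_univ s)
  have h3 : 1 ≤ (univ.image c).card := card_pos.mpr ⟨q, h2⟩
  unfold nb
  rw [h1, card_erase_of_mem h2]
  push_cast [h3]
  rfl

theorem CC_mrg (hs : SymZ a θ) {c : S → ℕ} (hc : Zc θ c) {p q : ℕ} (hpq : p ≠ q) :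
    2 * CC a (mrg c p q) = 2 * CC a c - 2 * (en a c (p, q) : ℤ) := by
  have h0 : en a c (q, p) = en a c (p, q) := en_swap hs hc (p, q)
  rw [two_CC_ne hs (hc.of_ref (ref_mrg c p q)), two_CC_ne hs hc]
  have h2 : univ.filter (fun x : S × S => c x.1 ≠ c x.2) =
      (univ.filter (fun x : S × S => mrg c p q x.1 ≠ mrg c p q x.2) ∪
        univ.filter (fun x : S × S => c x.1 = p ∧ c x.2 = q)) ∪
        univ.filter (fun x : S × S => c x.1 = q ∧ c x.2 = p) := by
    ext x
    simp only [mem_filter, mem_univ, true_and, mem_union]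
    simp only [mrg]
    split_ifs with h1 h2 h2 <;> omega
  rw [h2, sum_union, sum_union]
  · have h3 : (∑ x ∈ univ.filter (fun x : S × S => c x.1 = p ∧ c x.2 = q), (a x.1 x.2 : ℤ)) =
        en a c (p, q) := by rw [en, Nat.cast_sum]
    have h4 : (∑ x ∈ univ.filter (fun x : S × S => c x.1 = q ∧ c x.2 = p), (a x.1 x.2 : ℤ)) =
        en a c (p, q) := by rw [← h0, en, Nat.cast_sum]
    rw [h3, h4]
    ring
  · rw [disjoint_left]
    intro x h3 h4
    simp only [mem_filter, mem_univ, true_and] at h3 h4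
    simp only [mrg, h4.1, h4.2] at h3
    simp [hpq] at h3
  · rw [disjoint_left]
    intro x h3 h4
    simp only [mem_filter, mem_univ, true_and, mem_union] at h3 h4
    simp only [mrg, h4.1, h4.2] at h3
    simp [hpq, hpq.symm] at h3

/-! ### the growth at the merged colouring bounds the monomials of the shifted symbol -/

/-- the order in the variables other than `q` is at most `e` -/
def OD {A : Type} [CommRing A] (q e : ℕ) (P : MvPolynomial ℕ A) : Prop :=
  ∀ α, coeff α P ≠ 0 → α.degree ≤ α q + e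

theorem OD.add {A : Type} [CommRing A] {q e : ℕ} {P P' : MvPolynomial ℕ A} (h : OD q e P)
    (h' : OD q e P') : OD q e (P + P') := by
  intro α hα
  by_cases h1 : coeff α P = 0
  · refine h' α fun h2 => hα ?_
    rw [coeff_add, h1, h2, add_zero]
  · exact h α h1

theorem OD.mul {A : Type} [CommRing A] {q e e' : ℕ} {P P' : MvPolynomial ℕ A} (h : OD q e P)
    (h' : OD q e' P') : OD q (e + e') (P * P') := by
  intro α hα
  rw [coeff_mul] at hα
  obtain ⟨x, h1, h2⟩ := Finset.exists_ne_zero_of_sum_ne_zero hα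
  rw [HasAntidiagonal.mem_antidiagonal] at h1
  have h3 := h x.1 (left_ne_zero_of_mul h2)
  have h4 := h' x.2 (right_ne_zero_of_mul h2)
  rw [← h1, map_add, Finsupp.add_apply]
  omega

theorem OD.C {A : Type} [CommRing A] (q : ℕ) (x : A) : OD q 0 (C x : MvPolynomial ℕ A) := by
  classical
  intro α hα
  rw [coeff_C] at hα
  split_ifs at hα with h
  · rw [← h]
    simp
  · exact absurd rfl hα

theorem OD.Xq {A : Type} [CommRing A] (q : ℕ) : OD q 0 (X q : MvPolynomial ℕ A) := by
  classical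
  intro α hα
  rw [coeff_X] at hα
  split_ifs at hα with h
  · rw [← h, Finsupp.degree_single, Finsupp.single_eq_same]
  · exact absurd rfl hα

theorem OD.zero {A : Type} [CommRing A] (q e : ℕ) : OD q e (0 : MvPolynomial ℕ A) := by
  intro α hα
  exact absurd (coeff_zero _) hα

theorem OD.monomial {A : Type} [CommRing A] (q : ℕ) (β : ℕ →₀ ℕ) :
    OD q β.degree (monomial β (1 : A)) := by
  classical
  intro α hα
  rw [coeff_monomial] at hα
  split_ifs at hα with h
  · rw [← h]
    omega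
  · exact absurd rfl hα

theorem OD.bind {A : Type} [CommRing A] (q : ℕ) (P : MvPolynomial ℕ A) :
    OD q 0 (bind₁ (fun i => if i = q then X q else 0) P) := by
  induction P using MvPolynomial.induction_on with
  | C x => rw [bind₁_C_right]; exact OD.C q x
  | add P Q hP hQ => rw [map_add]; exact hP.add hQ
  | mul_X P i hP =>
    rw [map_mul, bind₁_X_right]
    split_ifs with h
    · exact hP.mul (OD.Xq q)
    · rw [mul_zero]; exact OD.zero q 0

/-- partial translation: `x_s ↦ x_s + U_q` for `c s = q` -/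
def Tpart (k : Type) [Field k] (c : S → ℕ) (q : ℕ) :
    MvPolynomial S k →ₐ[k] MvPolynomial ℕ (MvPolynomial S k) :=
  (AlgHom.restrictScalars k (bind₁ (R := MvPolynomial S k) fun i : ℕ => if i = q then X q else 0)).comp (Tc k c)

theorem Tpart_X (c : S → ℕ) (q : ℕ) (s : S) :
    Tpart k c q (X s) = C (X s) + if c s = q then X q else 0 := by
  simp only [Tpart, AlgHom.comp_apply, Tc_X, AlgHom.restrictScalars_apply, map_add, bind₁_C_right,
    bind₁_X_right]

theorem Tpart_OD (c : S → ℕ) (q : ℕ) (f : MvPolynomial S k) : OD q 0 (Tpart k c q f) :=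
  OD.bind q (Tc k c f)

theorem Tpart_mem {c : S → ℕ} (q : ℕ) {f : MvPolynomial S k} (hf : f ∈ JC k a θ c) :
    Tpart k c q f ∈ (JC k a θ c).map
      (C : MvPolynomial S k →+* MvPolynomial ℕ (MvPolynomial S k)) := by
  have h1 := Tc_mem hf
  have h2 : (JC k a θ c).map (C : MvPolynomial S k →+* MvPolynomial ℕ (MvPolynomial S k)) ≤
      Ideal.comap (bind₁ (R := MvPolynomial S k) fun i : ℕ => if i = q then X q else 0)
        ((JC k a θ c).map (C : MvPolynomial S k →+* MvPolynomial ℕ (MvPolynomial S k))) := by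
    rw [Ideal.map_le_iff_le_comap]
    intro x hx
    rw [Ideal.mem_comap, Ideal.mem_comap, bind₁_C_right]
    exact Ideal.mem_map_of_mem _ hx
  exact h2 h1

theorem bind_Tc (c : S → ℕ) (p q : ℕ) (f : MvPolynomial S k) :
    bind₁ (fun i => if i = q then X q + X p else X i) (Tc k c f) =
      eval₂Hom (Tpart k c q).toRingHom X (Tc k (mrg c p q) f) := by
  have h : (bind₁ (R := MvPolynomial S k) fun i : ℕ => if i = q then X q + X p else X i).toRingHom.comp
      (Tc k c).toRingHom = (eval₂Hom (Tpart k c q).toRingHom X).comp (Tc k (mrg c p q)).toRingHom := by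
    apply MvPolynomial.ringHom_ext
    · intro r
      simp [Tc, Tpart]
    · intro s
      simp only [RingHom.comp_apply, AlgHom.toRingHom_eq_coe, RingHom.coe_coe, Tc_X, map_add,
        bind₁_C_right, bind₁_X_right, eval₂Hom_C, eval₂Hom_X', Tpart_X]
      simp only [mrg]
      split_ifs with h1
      · ring
      · ring
  exact congrArg (fun φ : MvPolynomial S k →+* _ => φ f) h

/-- the shifted translate has its large coefficients in `J_c` -/
theorem coeff_bind_mem (hs : SymZ a θ) {c : S → ℕ} (hc : Zc θ c) {n : ℤ} {f : MvPolynomial S k}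
    {p q : ℕ} (hf : Lev k a θ (mrg c p q) n f) {d : ℕ}
    (hd : 2 * (d : ℤ) + nb c = n + 2 * CC a c)
    (hpq : p ≠ q) (hp : ∃ s, c s = p) (hq : ∃ s, c s = q) {e : ℕ}
    (he : (d : ℤ) ≤ e + en a c (p, q)) (α : ℕ →₀ ℕ) (hα : α q + e < α.degree) :
    coeff α (bind₁ (fun i => if i = q then X q + X p else X i) (Tc k c f)) ∈ JC k a θ c := by
  rw [bind_Tc]
  have h1 : eval₂Hom (Tpart k c q).toRingHom X (Tc k (mrg c p q) f) =
      ∑ β ∈ (Tc k (mrg c p q) f).support, Tpart k c q (coeff β (Tc k (mrg c p q) f)) *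
        monomial β (1 : MvPolynomial S k) := by
    rw [coe_eval₂Hom, eval₂_eq]
    refine sum_congr rfl fun β _ => ?_
    rw [monomial_eq, C_1, one_mul]
    rfl
  rw [h1, coeff_sum]
  refine Ideal.sum_mem _ fun β _ => ?_
  by_cases h2 : β.degree ≤ e
  · have h3 := (Tpart_OD c q (coeff β (Tc k (mrg c p q) f))).mul (OD.monomial q β)
    have h4 : coeff α (Tpart k c q (coeff β (Tc k (mrg c p q) f)) *
        monomial β (1 : MvPolynomial S k)) = 0 := by
      by_contra hne
      have := h3 α hne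
      omega
    rw [h4]
    exact zero_mem _
  · have h3 : coeff β (Tc k (mrg c p q) f) ∈ JC k a θ (mrg c p q) := by
      refine hf β ?_
      have h5 := CC_mrg hs hc hpq
      have h6 := nb_mrg hpq hp hq
      omega
    have h4 := Tpart_mem q (JC_le_of_ref (ref_mrg c p q) h3)
    exact mem_map_C_iff.mp (Ideal.mul_mem_right _ _ h4) α

theorem bind_homogeneousComponent {A : Type} [CommRing A] (g : ℕ → MvPolynomial ℕ A)
    (hg : ∀ i, (g i).IsHomogeneous 1) (d : ℕ) (P : MvPolynomial ℕ A) :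
    bind₁ g (homogeneousComponent d P) = homogeneousComponent d (bind₁ g P) := by
  have h1 : ∀ m, (bind₁ g (homogeneousComponent m P)).IsHomogeneous m := by
    intro m
    have := (homogeneousComponent_isHomogeneous m P).aeval g hg
    rwa [one_mul] at this
  conv_rhs => rw [← sum_homogeneousComponent P, map_sum, map_sum]
  by_cases hd : d ∈ range (P.totalDegree + 1)
  · rw [sum_eq_single_of_mem d hd]
    · rw [homogeneousComponent_of_mem (h1 d), if_pos rfl]
    · intro m _ hm
      rw [homogeneousComponent_of_mem (h1 m), if_neg hm.symm]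
  · rw [sum_eq_zero]
    · rw [homogeneousComponent_eq_zero, map_zero]
      rw [mem_range] at hd
      omega
    · intro m hm
      rw [homogeneousComponent_of_mem (h1 m), if_neg]
      rintro rfl
      exact hd hm

/-- (ii): the power of `U_q - U_p` dividing the symbol -/
theorem pow_dvd_Sb (hs : SymZ a θ) {c : S → ℕ} (hc : Zc θ c) {n : ℤ} {f : MvPolynomial S k}
    {p q : ℕ} (hf : Lev k a θ (mrg c p q) n f) {d : ℕ}
    (hd : 2 * (d : ℤ) + nb c = n + 2 * CC a c)
    (hpq : p ≠ q) (hp : ∃ s, c s = p) (hq : ∃ s, c s = q) :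
    (X q - X p : MvPolynomial ℕ (MvPolynomial S k ⧸ JC k a θ c)) ^ en a c (p, q) ∣
      Sb k a θ c d f := by
  by_cases h : en a c (p, q) ≤ d
  · have h1 := D1 hpq d (d - en a c (p, q)) (Sb k a θ c d f) (Sb_isHomogeneous c d f) (by
      intro α hα
      by_contra hlt
      apply hα
      rw [Sb, bind_homogeneousComponent, coeff_homogeneousComponent]
      · split_ifs
        · have h2 : bind₁ (fun i => if i = q then X q + X p else X i)
              (map (Ideal.Quotient.mk (JC k a θ c)) (Tc k c f)) =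
              map (Ideal.Quotient.mk (JC k a θ c))
                (bind₁ (fun i => if i = q then X q + X p else X i) (Tc k c f)) := by
            rw [map_bind₁]
            congr 2
            funext i
            split_ifs <;> simp
          rw [h2, coeff_map]
          refine Ideal.Quotient.eq_zero_iff_mem.mpr
            (coeff_bind_mem hs hc hf hd hpq hp hq (e := d - en a c (p, q)) ?_ α ?_)
          · omega
          · omega
        · rfl
      · intro i
        split_ifs
        · exact (isHomogeneous_X _ _).add (isHomogeneous_X _ _)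
        · exact isHomogeneous_X _ _)
    rwa [Nat.sub_sub_self h] at h1
  · have h1 : f ∈ JC k a θ (mrg c p q) := by
      have h2 := hf 0 (by
        have h5 := CC_mrg hs hc hpq
        have h6 := nb_mrg hpq hp hq
        rw [map_zero]
        push_cast
        omega)
      rwa [coeff_zero_Tc] at h2
    rw [Sb_eq_zero_of_mem (JC_le_of_ref (ref_mrg c p q) h1)]
    exact dvd_zero _

theorem sum_en (c : S → ℕ) : ((∑ x ∈ Pc c, en a c x : ℕ) : ℤ) = CC a c := by
  rw [CC_eq_sum, Nat.cast_sum]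

/-- (S2) with truncated subtraction -/
theorem Sb_eq_PU_mul_aux (hs : SymZ a θ) {c : S → ℕ} (hc : Zc θ c) {n : ℤ}
    {f : MvPolynomial S k} [CharZero k]
    (hf : Fil k a θ n f) {d : ℕ} (hd : 2 * (d : ℤ) + nb c = n + 2 * CC a c) :
    ∃ T' : MvPolynomial ℕ (MvPolynomial S k ⧸ JC k a θ c),
      Sb k a θ c d f = PU a (MvPolynomial S k ⧸ JC k a θ c) c * T' ∧
      (T'.IsHomogeneous (d - ∑ x ∈ Pc c, en a c x) ∧ (d < ∑ x ∈ Pc c, en a c x → T' = 0)) ∧
      ∀ α, coeff α T' ∈ GQ k a θ c := by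
  have hP : ∀ x ∈ Pc c, x.1 < x.2 := fun x hx => (mem_Pc.mp hx).2
  obtain ⟨T', h1, h2⟩ := D2 (Pc c) hP (en a c) (GQ k a θ c) (Sb k a θ c d f)
    (fun x hx => pow_dvd_Sb hs hc (hf _ (hc.of_ref (ref_mrg c _ _))) hd (hP x hx).ne
      (mem_Pc.mp hx).1.1 (mem_Pc.mp hx).1.2)
    (fun α => by
      rw [coeff_Sb]
      split_ifs with h
      · exact mem_GQ.mpr ⟨_, Gc_coeff_Tc_of_Fil hf (by rw [h]; omega), rfl⟩
      · exact zero_mem _)
  exact ⟨T', by rw [PU_eq_prod]; exact h1, D4 (Pc c) hP (en a c) d _ T' (Sb_isHomogeneous c d f) h1,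
    h2⟩

/-- (S2) -/
theorem Sb_eq_PU_mul (hs : SymZ a θ) {c : S → ℕ} (hc : Zc θ c) {n : ℤ}
    {f : MvPolynomial S k} [CharZero k]
    (hf : Fil k a θ n f) {d : ℕ} (hd : 2 * (d : ℤ) + nb c = n + 2 * CC a c) {e : ℕ}
    (he : (d : ℤ) = CC a c + e) :
    ∃ T' : MvPolynomial ℕ (MvPolynomial S k ⧸ JC k a θ c),
      Sb k a θ c d f = PU a (MvPolynomial S k ⧸ JC k a θ c) c * T' ∧ T'.IsHomogeneous e ∧
      ∀ α, coeff α T' ∈ GQ k a θ c := by
  obtain ⟨T', h1, h2, h3⟩ := Sb_eq_PU_mul_aux hs hc hf hd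
  have h4 := sum_en (a := a) c
  have h5 : d - ∑ x ∈ Pc c, en a c x = e := by omega
  rw [h5] at h2
  exact ⟨T', h1, h2.1, h3⟩

/-- (S2), the low degrees -/
theorem Sb_eq_zero_of_lt (hs : SymZ a θ) {c : S → ℕ} (hc : Zc θ c) {n : ℤ}
    {f : MvPolynomial S k} [CharZero k]
    (hf : Fil k a θ n f) {d : ℕ} (hd : 2 * (d : ℤ) + nb c = n + 2 * CC a c)
    (he : (d : ℤ) < CC a c) : Sb k a θ c d f = 0 := by
  obtain ⟨T', h1, h2, h3⟩ := Sb_eq_PU_mul_aux hs hc hf hd
  have h4 := sum_en (a := a) c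
  rw [h1, h2.2 (by omega), mul_zero]

/-- multiplication by `P_π(U)` is injective -/
theorem PU_mul_eq_zero {R : Type} [CommRing R] (c : S → ℕ) {T : MvPolynomial ℕ R}
    (h : PU a R c * T = 0) : T = 0 := by
  rw [PU_eq_prod] at h
  exact D3 (Pc c) (fun x hx => (mem_Pc.mp hx).2) (en a c) T h

end

end Vale.Agent.P066.Lab
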